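import Mathlib

/-!
# Row 337 (helper79): tiers `Y u k = 2 ^ (u D ^ k)` and the calculus of polynomial bounds

`tier! k` proves `a ≤ Y u k'` (`a` polynomial in tiers `≤ k < k'`), `rtier! k` the real versions.
Atoms are discharged from hypotheses `a ≤ Y u j`, `Pb u k e a`, `Rb u j e r`; `100 ≤ u` must be in
the context.
-/

set_option autoImplicit false

namespace Crest.Agent.N337.Par

/-- the gap between two tiers. -/
irreducible_def D : ℕ := 10 ^ 6

lemma D_eq : D = 10 ^ 6 := D_def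
lemma D_ge : 1000000 ≤ D := by rw [D_eq]; norm_num
lemma D_pos : 0 < D := lt_of_lt_of_le (by norm_num) D_ge
lemma one_le_Dp (k : ℕ) : 1 ≤ D ^ k := Nat.one_le_pow _ _ D_pos

/-- the tiers. -/
@[irreducible] def Y (u k : ℕ) : ℕ := 2 ^ (u * D ^ k)

lemma Y_def (u k : ℕ) : Y u k = 2 ^ (u * D ^ k) := by unfold Y; rfl

variable {u k k' e e' a b : ℕ}

lemma Y_add (u k j : ℕ) : Y u (k + j) = Y u k ^ D ^ j := by
  rw [Y_def, Y_def, ← pow_mul, pow_add, mul_assoc]

lemma Y_succ (u k : ℕ) : Y u (k + 1) = Y u k ^ D := by rw [Y_add, pow_one]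

lemma Y_pos (u k : ℕ) : 0 < Y u k := by rw [Y_def]; positivity

lemma one_le_Y (u k : ℕ) : 1 ≤ Y u k := Y_pos u k

lemma Y_dvd (h : k ≤ k') : Y u k ∣ Y u k' := by
  rw [Y_def, Y_def]
  exact pow_dvd_pow _ (Nat.mul_le_mul_left _ (Nat.pow_le_pow_right D_pos h))

lemma Y_mono (h : k ≤ k') : Y u k ≤ Y u k' := Nat.le_of_dvd (Y_pos _ _) (Y_dvd h)

lemma Y_zero (u : ℕ) : Y u 0 = 2 ^ u := by rw [Y_def, pow_zero, mul_one]

/-- numerals up to `10 ^ 30` are below every tier. -/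
lemma num_le (hu : 100 ≤ u) (k : ℕ) : 10 ^ 30 ≤ Y u k :=
  le_trans (by rw [Y_zero]; exact le_trans (by norm_num) (Nat.pow_le_pow_right two_pos hu))
    (Y_mono (Nat.zero_le k))

lemma two_le_Y (hu : 100 ≤ u) (k : ℕ) : 2 ≤ Y u k := le_trans (by norm_num) (num_le hu k)

lemma log_Y (u k : ℕ) : Nat.log 2 (Y u k) = u * D ^ k := by rw [Y_def, Nat.log_pow one_lt_two]

lemma lg_lt (u k : ℕ) : u * D ^ k < Y u k := by rw [Y_def]; exact Nat.lt_two_pow_self

/-- `c ^ 4 ^ k`, `c ^ k`, … are below the tier `k`. -/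
lemma pow_pow_le {c j : ℕ} (h : c ≤ Y u 0) (hj : j ≤ D ^ k) : c ^ j ≤ Y u k := by
  have := Y_add u 0 k
  rw [zero_add] at this
  rw [this]
  exact (Nat.pow_le_pow_left h _).trans (Nat.pow_le_pow_right (Y_pos _ _) hj)

lemma lt_Dp (k : ℕ) : k < D ^ k := Nat.lt_pow_self (lt_of_lt_of_le (by norm_num) D_ge)

lemma four_le_Dp (k : ℕ) : 4 ^ k ≤ D ^ k := Nat.pow_le_pow_left (le_trans (by norm_num) D_ge) k

lemma self_le_Y (hu : 100 ≤ u) (k : ℕ) : k ≤ Y u k :=
  (lt_Dp k).le.trans ((Nat.le_mul_of_pos_left _ (by omega)).trans (lg_lt u k).le)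

/-! ### polynomial bounds in `ℕ` -/

/-- `a ≤ Y u k ^ e`. -/
def Pb (u k e a : ℕ) : Prop := a ≤ Y u k ^ e

lemma Pb.of_le (h : a ≤ Y u k') (hk : k' ≤ k) : Pb u k 1 a := by
  rw [Pb, pow_one]; exact h.trans (Y_mono hk)
lemma Pb.tier (hk : k' ≤ k) : Pb u k 1 (Y u k') := .of_le le_rfl hk
lemma Pb.num (hu : 100 ≤ u) (h : a ≤ 10 ^ 30) : Pb u k 1 a := .of_le (h.trans (num_le hu k)) le_rfl
lemma Pb.mono (h : Pb u k e a) (he : e ≤ e') : Pb u k e' a :=
  h.trans (Nat.pow_le_pow_right (Y_pos _ _) he)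
lemma Pb.mul (h : Pb u k e a) (h' : Pb u k e' b) : Pb u k (e + e') (a * b) := by
  rw [Pb, pow_add]; exact Nat.mul_le_mul h h'
lemma Pb.pow {j : ℕ} (h : Pb u k e a) : Pb u k (e * j) (a ^ j) := by
  rw [Pb, pow_mul]; exact Nat.pow_le_pow_left h j
lemma Pb.add (hu : 100 ≤ u) (h : Pb u k e a) (h' : Pb u k e' b) :
    Pb u k (max e e' + 1) (a + b) := by
  have h1 := h.mono (le_max_left e e')
  have h2 := h'.mono (le_max_right e e')
  have h3 := Nat.mul_le_mul_left (Y u k ^ max e e') (two_le_Y hu k)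
  unfold Pb at *
  rw [pow_succ]; omega
lemma Pb.sub (h : Pb u k e a) : Pb u k e (a - b) := (Nat.sub_le _ _).trans h
lemma Pb.div (h : Pb u k e a) : Pb u k e (a / b) := (Nat.div_le_self _ _).trans h
lemma Pb.log (h : Pb u k e a) : Pb u k e (Nat.log 2 a) := (Nat.log_le_self _ _).trans h

lemma Pb.up (h : Pb u k e a) (he : e ≤ 1000000) (hk : k < k') : a ≤ Y u k' :=
  (h.mono (he.trans D_ge)).trans ((Y_succ u k).ge.trans (Y_mono hk))

lemma Pb.lt (hu : 100 ≤ u) (h : Pb u k e a) (he : e + 2 ≤ 1000000) (hk : k < k') : a < Y u k' :=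
  (h.add hu (Pb.num hu (a := 1) (by norm_num))).up (by omega) hk

/-- bound of a polynomial expression in tiers `≤ k`. -/
macro "p_bd" : tactic => `(tactic| repeat' first
  | (apply Pb.of_le; assumption; omega)
  | (with_reducible apply Pb.tier; omega)
  | with_reducible assumption
  | (with_reducible apply Pb.add; assumption)
  | with_reducible apply Pb.mul
  | with_reducible apply Pb.pow
  | with_reducible apply Pb.sub
  | with_reducible apply Pb.div
  | with_reducible apply Pb.log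
  | (apply Pb.num; assumption; norm_num; done))

/-- `tier! k` proves `a ≤ Y u k'` or `a < Y u k'` for `a` polynomial in the tiers `≤ k < k'`. -/
macro "tier! " k:term : tactic => `(tactic| first
  | (with_reducible apply Pb.lt (k := $k); assumption; (· p_bd); (· norm_num); omega)
  | (apply Pb.up (k := $k); (· p_bd); (· norm_num); omega))


/-! ### real numbers -/

/-- small numbers. -/
noncomputable def s (u k : ℕ) : ℝ := ((Y u k : ℕ) : ℝ)⁻¹

lemma Yr_pos (u k : ℕ) : (0 : ℝ) < Y u k := by exact_mod_cast Y_pos u k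
lemma s_pos (u k : ℕ) : 0 < s u k := inv_pos.2 (Yr_pos u k)
lemma s_mul (u k : ℕ) : s u k * Y u k = 1 := inv_mul_cancel₀ (Yr_pos u k).ne'
lemma s_anti (h : k ≤ k') : s u k' ≤ s u k :=
  inv_anti₀ (Yr_pos u k) (by exact_mod_cast Y_mono h)
lemma s_add (u k j : ℕ) : s u (k + j) = s u k ^ D ^ j := by
  rw [s, Y_add, Nat.cast_pow, s, inv_pow]
lemma s_le_one (u k : ℕ) : s u k ≤ 1 := inv_le_one_of_one_le₀ (by exact_mod_cast one_le_Y u k)
lemma s_le_num (hu : 100 ≤ u) (k : ℕ) : s u k ≤ 1 / 10 ^ 30 := by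
  rw [one_div]; exact inv_anti₀ (by positivity) (by exact_mod_cast num_le hu k)

/-- `0 ≤ r ≤ Y u k ^ e`. -/
def Rb (u k e : ℕ) (r : ℝ) : Prop := 0 ≤ r ∧ r ≤ (Y u k : ℝ) ^ e

variable {r r' : ℝ}

lemma Rb.cast (h : Pb u k e a) : Rb u k e (a : ℝ) := ⟨Nat.cast_nonneg _, by exact_mod_cast h⟩
lemma Rb.of_le (h0 : 0 ≤ r) (h : r ≤ Y u k') (hk : k' ≤ k) : Rb u k 1 r :=
  ⟨h0, by rw [pow_one]; exact h.trans (by exact_mod_cast Y_mono hk)⟩
lemma Rb.num (hu : 100 ≤ u) (h : 0 ≤ r ∧ r ≤ 10 ^ 30) : Rb u k 1 r :=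
  .of_le h.1 (h.2.trans (by exact_mod_cast num_le hu k)) le_rfl
lemma Rb.small : Rb u k 0 (s u k') := ⟨(s_pos _ _).le, by rw [pow_zero]; exact s_le_one _ _⟩
lemma Rb.mono (h : Rb u k e r) (he : e ≤ e') : Rb u k e' r :=
  ⟨h.1, h.2.trans (pow_le_pow_right₀ (by exact_mod_cast one_le_Y u k) he)⟩
lemma Rb.lift (h : Rb u k' e r) (hk : k' ≤ k) : Rb u k e r :=
  ⟨h.1, h.2.trans (pow_le_pow_left₀ (Yr_pos _ _).le (by exact_mod_cast Y_mono hk) e)⟩
lemma Rb.mul (h : Rb u k e r) (h' : Rb u k e' r') : Rb u k (e + e') (r * r') :=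
  ⟨mul_nonneg h.1 h'.1, by rw [pow_add]; exact mul_le_mul h.2 h'.2 h'.1 (by positivity)⟩
lemma Rb.pow {j : ℕ} (h : Rb u k e r) : Rb u k (e * j) (r ^ j) :=
  ⟨pow_nonneg h.1 j, by rw [pow_mul]; exact pow_le_pow_left₀ h.1 h.2 j⟩
lemma Rb.add (hu : 100 ≤ u) (h : Rb u k e r) (h' : Rb u k e' r') :
    Rb u k (max e e' + 1) (r + r') := by
  have h1 := (h.mono (le_max_left e e')).2
  have h2 := (h'.mono (le_max_right e e')).2
  have h3 : (2 : ℝ) ≤ Y u k := by exact_mod_cast two_le_Y hu k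
  have h4 := mul_le_mul_of_nonneg_left h3 (pow_nonneg (Yr_pos u k).le (max e e'))
  exact ⟨add_nonneg h.1 h'.1, by rw [pow_succ]; linarith⟩
lemma Rb.sqrt (h : Rb u k e r) : Rb u k e (√r) :=
  ⟨Real.sqrt_nonneg _, Real.sqrt_le_iff.2 ⟨by positivity, h.2.trans
    (le_self_pow₀ (one_le_pow₀ (by exact_mod_cast one_le_Y u k)) two_ne_zero)⟩⟩

lemma Rb.up (h : Rb u k e r) (he : e ≤ 1000000) (hk : k < k') : r ≤ Y u k' :=
  (h.mono (he.trans D_ge)).2.trans (by rw [← Nat.cast_pow, ← Y_succ]; exact_mod_cast Y_mono hk)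

/-- polynomial times a small number of a higher tier is small (even after a power `j`). -/
lemma Rb.sm {j i : ℕ} (h : Rb u k e r) (he : e + j ≤ 1000000) (hk : k < k') (hi : i ≤ k) :
    r * s u k' ≤ s u i ^ j := by
  have h1 := (h.mul ((Rb.cast (Pb.tier (u := u) hi)).pow (j := j))).up (by omega) hk
  rw [s, s, inv_pow, ← div_eq_mul_inv, div_le_iff₀ (Yr_pos _ _), inv_mul_eq_div,
    le_div_iff₀ (pow_pos (Yr_pos _ _) _)]
  exact h1

lemma Rb.sm1 {i : ℕ} (h : Rb u k e r) (he : e + 1 ≤ 1000000) (hk : k < k') (hi : i ≤ k) :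
    r * s u k' ≤ s u i := by simpa using h.sm he hk hi

/-- the same for a quotient. -/
lemma Rb.dv {j i d : ℕ} (h : Rb u k e r) (he : e + j ≤ 1000000) (hk : k < k') (hi : i ≤ k)
    (hd : Y u k' ≤ d) : r / d ≤ s u i ^ j :=
  (div_le_div_of_nonneg_left h.1 (Yr_pos u k') (by exact_mod_cast hd)).trans
    ((div_eq_mul_inv _ _).trans_le (h.sm he hk hi))

/-- bound of a polynomial real expression in tiers `≤ k`. -/
macro "r_bd" : tactic => `(tactic| repeat' first
  | with_reducible assumption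
  | (with_reducible apply Rb.lift; with_reducible assumption; omega)
  | (with_reducible apply Rb.cast; (· p_bd))
  | with_reducible exact Rb.small
  | (with_reducible apply Rb.add; assumption)
  | with_reducible apply Rb.mul
  | with_reducible apply Rb.pow
  | with_reducible apply Rb.sqrt
  | (apply Rb.num; assumption; norm_num; done))

/-- `rtier! k` proves `r ≤ Y u k'`, `r * s u k' ≤ s u i (^ j)` for `r` polynomial in tiers `≤ k`. -/
macro "rtier! " k:term : tactic => `(tactic| first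
  | (with_reducible apply Rb.up (k := $k); (· r_bd); (· norm_num); omega)
  | (with_reducible apply Rb.sm1 (k := $k); (· r_bd); (· norm_num); omega; omega)
  | (with_reducible apply Rb.sm (k := $k); (· r_bd); (· norm_num); omega; omega))


/-- a tier is below the exponential of a lower tier. -/
lemma Y_le_exp {j : ℕ} (h : (D ^ j + 1).factorial ≤ Y u 0) : (Y u (k + j) : ℝ) ≤ Real.exp (Y u k) := by
  have h1 := Real.pow_div_factorial_le_exp (Y u k : ℝ) (Yr_pos u k).le (D ^ j + 1)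
  refine le_trans ?_ h1
  rw [le_div_iff₀ (by positivity), Y_add, Nat.cast_pow, pow_succ]
  exact mul_le_mul_of_nonneg_left (by exact_mod_cast h.trans (Y_mono (Nat.zero_le k)))
    (by positivity)

lemma exp_neg_le {j : ℕ} (h : (D ^ j + 1).factorial ≤ Y u 0) :
    Real.exp (-(Y u k : ℝ)) ≤ s u (k + j) := by
  rw [Real.exp_neg]; exact inv_anti₀ (Yr_pos _ _) (Y_le_exp h)

/-- a power that beats the tier gap. -/
lemma pow_small {x : ℝ} {j N : ℕ} (h0 : 0 ≤ x) (h : x ≤ s u k) (hN : D ^ j ≤ N) :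
    x ^ N ≤ s u (k + j) := by
  rw [s_add]
  exact (pow_le_pow_left₀ h0 h N).trans (pow_le_pow_of_le_one (s_pos _ _).le (s_le_one _ _) hN)

/-- sums of small numbers along increasing tiers. -/
lemma sum_s (hu : 100 ≤ u) {t : ℕ → ℕ} (ht : ∀ i, t i < t (i + 1)) (l : ℕ) (m : ℕ) :
    ∑ i ∈ Finset.Ico l m, s u (t i) ≤ 2 * s u (t l) := by
  have key : ∀ j, ∑ i ∈ Finset.Ico l (l + j), s u (t i) + 2 * s u (t (l + j)) ≤ 2 * s u (t l) := by
    intro j
    induction j with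
    | zero => simp
    | succ j ih =>
      rw [← add_assoc, Finset.sum_Ico_succ_top (Nat.le_add_right l j)]
      have : (2 : ℝ) * s u (t (l + j + 1)) ≤ s u (t (l + j)) :=
        (Rb.num (k := t (l + j)) hu (r := 2) (by norm_num)).sm1 (by norm_num) (ht _) le_rfl
      linarith
  rcases le_total l m with h | h
  · obtain ⟨j, rfl⟩ := Nat.exists_eq_add_of_le h
    have := key j
    have := s_pos u (t (l + j))
    linarith
  · rw [Finset.Ico_eq_empty (not_lt.2 h), Finset.sum_empty]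
    have := s_pos u (t l)
    linarith

/-- choice of `u`. -/
lemma exists_u (k u0 : ℕ) : ∃ B0, ∀ B, B0 ≤ B → ∃ u, u0 ≤ u ∧ Y u k ≤ B ∧ B ≤ Y u (k + 1) := by
  refine ⟨Y (u0 + 1) k, fun B hB => ⟨Nat.log 2 B / D ^ k, ?_, ?_, ?_⟩⟩
  · have := Nat.log_mono_right (b := 2) hB
    rw [log_Y] at this
    exact le_trans (Nat.le_succ _) ((Nat.le_div_iff_mul_le (one_le_Dp k)).2 this)
  · rw [Y_def]
    exact (Nat.pow_le_pow_right two_pos (Nat.div_mul_le_self _ _)).trans
      (Nat.pow_log_le_self 2 (by have := Y_pos (u0 + 1) k; omega))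
  · have h1 := Nat.log_mono_right (b := 2) hB
    rw [log_Y] at h1
    have h2 : 1 ≤ Nat.log 2 B / D ^ k :=
      (Nat.le_div_iff_mul_le (one_le_Dp k)).2 (le_trans (Nat.mul_le_mul_right _ (by omega)) h1)
    have h3 := Nat.lt_div_mul_add (a := Nat.log 2 B) (one_le_Dp k)
    rw [Y_def]
    refine (Nat.lt_pow_succ_log_self one_lt_two B).le.trans (Nat.pow_le_pow_right two_pos ?_)
    have h4 := D_ge
    rw [pow_succ]
    generalize Nat.log 2 B / D ^ k = v at *
    generalize D ^ k = E at *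
    nlinarith [Nat.mul_le_mul_right E h2, Nat.mul_le_mul_left (v * E) h4]

/-- every constant is eventually below the lowest tier. -/
lemma ev_le (c : ℕ) : ∀ᶠ u in Filter.atTop, c ≤ Y u 0 :=
  Filter.eventually_atTop.2 ⟨c, fun u h => by
    rw [Y_zero]; exact h.trans Nat.lt_two_pow_self.le⟩

lemma ev_Rb {c : ℝ} (h : 0 ≤ c) : ∀ᶠ u in Filter.atTop, Rb u 0 1 c :=
  (ev_le ⌈c⌉₊).mono fun _ k => .of_le h ((Nat.le_ceil c).trans (by exact_mod_cast k)) le_rfl

end Crest.Agent.N337.Par
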