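import Crest.Agent.N337.Ld.Lad
import Crest.Agent.N337.Par.Y

/-!
# Row 337, numerics (helper62): the rung thresholds and the count ladder

`kd = k0 + oc`, `k` = depth of the count ladder, step `27`, height `dl k = (k + 1) * 27 + 27`.
-/

set_option autoImplicit false

namespace Crest.Agent.N337.Rung

open Crest.Agent.N337.Ld

/-- height of one ladder. -/
def dl (k : ℕ) : ℕ := (k + 1) * 27 + 27
/-- rung at the entry of level `j`. -/
def tI (kd k j : ℕ) : ℕ :=
  if j % 3 = 2 then kd + 2 else if j % 3 = 1 then kd + 3 + dl k else kd + 3 + 2 * dl k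
/-- rung before the peel. -/
def tP (kd k j : ℕ) : ℕ := tI kd k j + if j % 3 = 1 then 0 else 1
/-- rung after the peel. -/
def tQ (kd k j : ℕ) : ℕ := tP kd k j + 1
/-- rung of the class `Big` of the ladder of level `j + 1`. -/
def tB (kd k j : ℕ) : ℕ := tP kd k (j + 1) + (k + 1) * 27 + 27
/-- the largest rung. -/
def tm (kd k : ℕ) : ℕ := kd + 14 + 3 * dl k

variable {kd k j : ℕ}

lemma tI_le_tP : tI kd k j ≤ tP kd k j := Nat.le_add_right _ _
lemma tI_lt_tP (h : j % 3 ≠ 1) : tI kd k j + 1 ≤ tP kd k j := by rw [tP, if_neg h]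
lemma tQ_eq : tQ kd k j = tP kd k j + 1 := rfl
lemma tQ_le : tQ kd k j ≤ tP kd k j + 27 := by rw [tQ]; omega
/-- off the boxes the ladder of level `j + 1` ends in the entry class of level `j`. -/
lemma tB_eq (h : j % 3 ≠ 2) : tB kd k j = tI kd k j := by
  unfold tB tP tI dl; split_ifs <;> omega
lemma tB_le : tB kd k j + 10 ≤ tm kd k := by unfold tB tP tI tm dl; split_ifs <;> omega
lemma tI_le : tI kd k j + 10 ≤ tm kd k := by unfold tI tm dl; split_ifs <;> omega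
lemma tP_le : tP kd k j + 10 ≤ tm kd k := by unfold tP tI tm dl; split_ifs <;> omega
lemma tQ_le_tm : tQ kd k j + 10 ≤ tm kd k := by unfold tQ tP tI tm dl; split_ifs <;> omega
lemma kd_le : kd + 14 ≤ tm kd k := Nat.le_add_right _ _
lemma le_tI : kd + 2 ≤ tI kd k j := by unfold tI; split_ifs <;> omega
lemma tm_eq : tm kd k = kd + 81 * k + 176 := by unfold tm dl; omega

section rom
variable {X α κ : Type} [Fintype X] [SemilatticeSup α] [Preorder κ] {S : Rg.Sys X α κ}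
  {d t R0 R1 R2 R3 : ℕ}

/-- `Rom` for every rung of the chain. -/
lemma rom (h : S.tm = tm (S.k0 + S.oc) k) (hd : d ≤ 13) (ht : t ≤ tm (S.k0 + S.oc) k - 2)
    (r1 : R0 ≤ R1) (r2 : R1 ≤ R2) (r3 : R2 ≤ R3) : Rom S d t R0 R1 R2 R3 :=
  ⟨by have := kd_le (kd := S.k0 + S.oc) (k := k); omega,
    by have := kd_le (kd := S.k0 + S.oc) (k := k); omega, r1, r2, r3⟩

end rom

/-- **the count ladder**: reset probability `≤ X⁻²`, at most `X ^ (k + 1)` cells. -/
theorem ldN {st n0 : ℕ} {ε π X : ℝ} (hst : 27 ≤ st) (π0 : 0 ≤ π) (hπ : π ≤ 1 / X ^ 2)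
    (hn : (n0 : ℝ) ≤ X ^ (k + 1)) (hε : ε ≤ 1 / (2 * 10 ^ 9)) (hX : 2 * 10 ^ 9 * (k + 1) ≤ X) :
    LdN st k n0 (fun l => X ^ (k + 1) / X ^ l) ε π (1 / X) := by
  have k0 : (0 : ℝ) < k + 1 := by positivity
  have X0 : 0 < X := lt_of_lt_of_le (by positivity) hX
  refine ⟨hst, π0, by positivity, by simpa using hn, fun l _ => ⟨by positivity, ?_⟩, ?_, ?_⟩
  · exact (mul_le_mul_of_nonneg_left hπ (by positivity)).trans (le_of_eq (by field_simp; ring))
  · exact (mul_le_mul_of_nonneg_left hπ (by positivity)).trans (le_of_eq (by field_simp; ring))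
  · have : (k + 1) * (1 / X) ≤ 1 / (2 * 10 ^ 9) := by
      rw [mul_one_div, div_le_div_iff₀ X0 (by positivity)]; linarith
    linarith

open Crest.Agent.N337.Par in
/-- **the count ladder on the tiers**: `π ≤ s u i ^ 2`, `n0 ≤ Y u (i + c)`, depth `k ≥ D ^ c`. -/
theorem ldN_Y {u i c i' st n0 : ℕ} {ε π : ℝ} (hu : 100 ≤ u) (hst : 27 ≤ st) (hi : 1 ≤ i)
    (hk : k ≤ Y u 0) (hc : D ^ c ≤ k) (π0 : 0 ≤ π) (hπ : π ≤ s u i ^ 2) (hn : n0 ≤ Y u (i + c))
    (hε : ε ≤ s u i') :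
    LdN st k n0 (fun l => (Y u i : ℝ) ^ (k + 1) / (Y u i : ℝ) ^ l) ε π (1 / Y u i) := by
  refine ldN hst π0 (by rwa [s, inv_pow, ← one_div] at hπ) ?_
    (hε.trans ((s_le_num hu _).trans (by norm_num))) ?_
  · rw [Y_add] at hn
    exact_mod_cast hn.trans (Nat.pow_le_pow_right (Y_pos _ _) (hc.trans (Nat.le_succ k)))
  · have : 2 * 10 ^ 9 * (k + 1) ≤ Y u i := by tier! 0
    exact_mod_cast this

end Crest.Agent.N337.Rung
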