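import Crest.Agent.N337.Par.Defs

/-!
# Row 337 (helper79): the scales of G1 on the tiers
-/

set_option autoImplicit false

namespace Crest.Agent.N337.Par

open Finset G1

/-- the scales of G1 for G4 (larger covering balls). -/
def gs4 (u mt : ℕ) : Scales where
  mt := mt
  a m := if m = 0 then ca0 else cqf
  σ m := if m = 0 then 0 else 3 * x u (m - 1) 15
  η m := if m = 0 then η0 u else x u (m - 1) 16

/-- scales on the tiers: covering balls of tier `i`. -/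
structure GH (u i : ℕ) (P : Scales) : Prop where
  i20 : i < 20
  a0 : P.a 0 = ca0
  a : ∀ l, P.a (l + 1) = cqf
  σ0 : P.σ 0 = 0
  σ : ∀ l, Pb u (48 * l + 11 + i) 2 (P.σ (l + 1))
  η0 : P.η 0 = η0 u
  η : ∀ l, x u l (i + 1) ≤ P.η (l + 1) ∧ P.η (l + 1) ≤ x u l 20

variable {n u i mt L : ℕ} {P : Scales}

lemma gh_gs (u mt : ℕ) : GH u 13 (gs u mt) :=
  ⟨by omega, rfl, fun _ => rfl, rfl, fun _ => (Pb.tier le_rfl).mono one_le_two, rfl,
    fun _ => ⟨Y_mono (by simp), Y_mono (by simp)⟩⟩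

lemma gh_gs4 (hu : 100 ≤ u) (mt : ℕ) : GH u 15 (gs4 u mt) :=
  ⟨by omega, rfl, fun _ => rfl, rfl, fun _ => (Pb.num hu (by norm_num)).mul (Pb.tier le_rfl), rfl,
    fun _ => ⟨le_rfl, Y_mono (by simp)⟩⟩

lemma Y0_le_η0 (u : ℕ) : Y u 2 ^ 3 ≤ η0 u := Nat.le_mul_of_pos_left _ (ll_pos u)

lemma Y2_le_η0 (u : ℕ) : Y u 2 ≤ η0 u := (Nat.le_self_pow (by norm_num) _).trans (Y0_le_η0 u)

namespace GH
variable (h : Bg n u) (H : GH u i P)
include h H

/-- the hypothesis `hA` of G1. -/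
lemma hA : 11 * P.ρ 0 + 6 ≤ Y u 0 ∧ Y u 0 ≤ P.η 0 :=
  ⟨by rw [Scales.ρ, H.a0, H.σ0]; exact h.A, H.η0 ▸ (Y_mono (by omega)).trans (Y2_le_η0 u)⟩

lemma ρ0 : P.ρ 0 ≤ Y u 0 := by have := (H.hA h).1; omega

lemma ρ (l : ℕ) : Pb u (48 * l + 11 + i) 6 (P.ρ (l + 1)) := by
  have hu := h.hu
  have h1 := h.p3
  have h2 := h.tS
  have h3 := H.σ l
  rw [Scales.ρ, H.a]
  apply Pb.mono
  · p_bd
  · norm_num

lemma fac {k e m : ℕ} (h1 : Pb u k e (P.ρ m)) :
    Rb u k (9 * e + 20) |1 + kS * (2 * (P.ρ m : ℝ) + 1) ^ 9| := by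
  have hu := h.hu
  have h2 := h.kS
  have h3 : Rb u k (max 1 (1 + (max (1 + e) 1 + 1) * 9) + 1)
      (1 + |kS| * (2 * (P.ρ m : ℝ) + 1) ^ 9) := by r_bd
  refine ⟨abs_nonneg _, le_trans ?_ (h3.mono (by omega)).2⟩
  refine (abs_add_le _ _).trans (le_of_eq ?_)
  rw [abs_one, abs_mul, abs_of_nonneg (a := _ ^ 9) (by positivity)]

lemma K0 : Rb u 0 29 (P.K 0) := by
  have := H.fac h (Pb.of_le (H.ρ0 h) le_rfl)
  refine ⟨zero_le_one.trans (one_le_K P 0), le_trans ?_ this.2⟩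
  rw [Scales.K, prod_range_one]; exact le_abs_self _

lemma K (l : ℕ) : Rb u (48 * l + 11 + i) 75 (P.K (l + 1)) := by
  have key : ∀ l, Rb u (48 * l + 11 + i) 1 (P.K l) → Rb u (48 * l + 11 + i) 75 (P.K (l + 1)) :=
    fun l k => ⟨zero_le_one.trans (one_le_K P _), le_trans (by
      rw [Scales.K, prod_range_succ]
      exact mul_le_mul_of_nonneg_left (le_abs_self _) k.1) (k.mul (H.fac h (H.ρ h l))).2⟩
  induction l with
  | zero => exact key 0 (.of_le (H.K0 h).1 ((H.K0 h).up (k' := 1) (by norm_num) (by omega)) (by omega))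
  | succ l ih => exact key _ (.of_le ih.1 (ih.up (by norm_num) (Nat.lt_succ_self _)) (by omega))

/-- `K l` is below the tier `48 l + 1`. -/
lemma K_le (l : ℕ) : Rb u (48 * l + 1) 1 (P.K l) := by
  have := H.i20
  cases l with
  | zero => exact .of_le (H.K0 h).1 ((H.K0 h).up (by norm_num) (by omega)) le_rfl
  | succ l => exact .of_le (H.K h l).1 ((H.K h l).up (by norm_num) (by omega)) le_rfl

/-- `η l` is below the tier `48 l + 5`. -/
lemma η_le (l : ℕ) : P.η l ≤ Y u (48 * l + 5) := by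
  cases l with
  | zero => exact H.η0 ▸ Par.η0_le h
  | succ l => exact (H.η l).2.trans (Y_mono (by omega))


/-- **`Scales.Ok`.** -/
theorem ok (h1 : 1 ≤ P.mt) (hL : 2 * Y u (48 * P.mt) < L) : P.Ok L := by
  have hu := h.hu
  have hi := H.i20
  have hq := h.qf
  have ha := h.a0
  refine ⟨h1, H.σ0, fun m _ => ?_, fun m hm => ?_, fun m _ => ?_, fun m _ => ?_⟩
  · cases m with
    | zero => exact (H.ρ0 h).trans (H.hA h).2
    | succ m => exact ((H.ρ h m).up (by norm_num) (by omega)).trans (H.η m).1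
  · have := (H.η_le h m).trans (Y_mono (show 48 * m + 5 ≤ 48 * P.mt by omega))
    omega
  · cases m with
    | zero =>
      have k1 := H.K0 h
      have k2 := H.ρ0 h
      have k3 : (2 : ℝ) ^ (0 + 3) * P.K 0 * (ca0 * (2 * (0 + P.ρ 0) + 1) ^ 3 : ℕ) ≤ Y u 1 := by
        rtier! 0
      rw [Scales.f, H.a0, H.σ0, H.η0]
      refine k3.trans ?_
      exact_mod_cast ((Y_mono (by omega)).trans (Y2_le_η0 u)).trans (Nat.le_self_pow (by norm_num) _)
    | succ m =>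
      have k1 := H.K h m
      have k2 := H.ρ h m
      have k4 := H.σ m
      have k5 : Rb u (48 * m + 11 + i) 1 ((2 : ℝ) ^ (m + 1 + 3)) := .of_le (by positivity)
        (by exact_mod_cast pow_pow_le (two_le_Y hu 0) (lt_Dp (m + 4)).le) (by omega)
      have k3 : (2 : ℝ) ^ (m + 1 + 3) * P.K (m + 1) *
          (cqf * (2 * (P.σ (m + 1) + P.ρ (m + 1)) + 1) ^ 3 : ℕ) ≤ x u m (i + 1) := by
        rtier! (48 * m + 11 + i)
      rw [Scales.f, H.a]
      refine k3.trans ?_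
      exact_mod_cast (H.η m).1.trans (Nat.le_self_pow (by norm_num) _)
  · have k2 := H.ρ h m
    have k4 := H.σ m
    have k5 := H.η_le h m
    rw [H.a]
    refine le_trans ?_ (H.η m).1
    tier! (48 * m + 11 + i)

end GH

theorem gs_ok (h : Bg n u) (h1 : 1 ≤ mt) (hL : 2 * Y u (48 * mt) < L) : (gs u mt).Ok L :=
  (gh_gs u mt).ok h h1 hL

theorem gs4_ok (h : Bg n u) (h1 : 1 ≤ mt) (hL : 2 * Y u (48 * mt) < L) : (gs4 u mt).Ok L :=
  (gh_gs4 h.hu mt).ok h h1 hL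

end Crest.Agent.N337.Par
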