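import Crest.Agent.N337.M.LadU
import Crest.Agent.N337.M.Cel
import Crest.Agent.N337.C9.Fin
import Crest.Agent.N337.Par.LevD
import Crest.Agent.N337.Par.Sm
import Crest.Agent.N337.Par.G1s
import Crest.Agent.N337.Par.Rung
import Crest.Agent.N337.M.ExcP
import Crest.Agent.N337.M.Chain
import Crest.Agent.N337.I.Alv
import Crest.Agent.N337.M.LadJ
import Crest.Agent.N337.TK.Sup
import Crest.Agent.N337.Par.Defs
import Crest.Agent.N337.Par.Lev
import Crest.Agent.N337.M.Fin0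
import Crest.Agent.N337.Par.Nu
import Crest.Agent.N337.M.CelI
import Crest.Agent.N337.M.LadP
import Crest.Agent.N337.Ld.Cov
import Crest.Agent.N337.Ld.Grd
import Crest.Agent.N337.Rg.Vis

-- ▼ part N337/Par/One
section

/-!
# Row 337 (helper78): the ladder of level one on the tiers
-/

set_option autoImplicit false
set_option linter.unusedSectionVars false

namespace Crest.Agent.N337.Par

open Finset Crest.Agent.N337.Free Crest.Agent.N337.M Crest.Agent.N337.C9 Crest.Agent.N337.Ld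

variable {n u k K B Dw : ℕ} {κ Yw e Yp : ℝ}

namespace One

lemma Cc_rb (h : Bg n u) (hk : 1 ≤ k) {r k' : ℕ} (hr : r ≤ Y u k') (hk' : k' ≤ k + 1000) :
    Rb u k 50 (G1.Cc (gs u 1) (Y u 0) 1 r) := by
  have hu := h.hu
  have h1 : Rb u 0 29 ((gs u 1).K (1 - 1)) := (gh_gs u 1).K0 h
  have h2 := log_pb hu hk hr hk'
  unfold G1.Cc
  exact Rb.mono (by r_bd) (by norm_num)

lemma γt_le (h : Bg n u) (hk : 4 ≤ k ∧ k ≤ 7) (hC : Rb u 0 1 (G1.Cg κ)) (hz : zm Yw K ≤ s u 8)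
    (he : e ≤ s u 8) : γt κ Yw e (gs u 1) (Y u 0) K (Y u (k + 1)) (Y u (k + 1)) ≤ s u k := by
  have hu := h.hu
  have h1 := Cc_rb h (k := 4) (by omega) (one_le_Y u 0) (by omega)
  have h2 := Cc_rb h (k := 4) (by omega) (le_refl (Y u (k + 1))) (by omega)
  have h3 : Rb u 4 14 ((gs u 1).η 0 : ℕ) := Rb.cast (pb_η0 h)
  refine le_trans (mul_le_mul_of_nonneg_left (add_le_add (add_le_add hz le_rfl) he) hC.1) ?_
  sm! k

lemma γd_le (h : Bg n u) (hC : Rb u 0 1 (G1.Cg κ)) (hz : zm Yw K ≤ s u 8) (he : e ≤ s u 8) :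
    γd κ Yw e (gs u 1) (Y u 0) K (Y u 5) ≤ s u 4 := by
  have hu := h.hu
  have h2 : Rb u 4 50 (G1.Cc (gs u 1) (Y u 0) (gs u 1).mt (Y u 5)) :=
    Cc_rb h (by omega) le_rfl (by omega)
  have h3 : Rb u 4 14 ((gs u 1).η ((gs u 1).mt - 1) : ℕ) := Rb.cast (pb_η0 h)
  refine le_trans (mul_le_mul_of_nonneg_left (add_le_add (add_le_add hz le_rfl) he) hC.1) ?_
  sm! 4

lemma η_le (h : Bg n u) (hk : 5 ≤ k) : 4 * (gs u 1).η 0 ≤ Y u k := by
  have hu := h.hu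
  have h3 : Pb u 4 14 ((gs u 1).η 0) := pb_η0 h
  tier! 4

lemma lag (h : Bg n u) (hB : Y u 10 ≤ B) : Y u 8 * ((num h Dw 12).l + 2) < B := by
  have hu := h.hu
  have h1 : (num h Dw 12).l ≤ Y u 5 := ll_le h
  exact lt_of_lt_of_le (by tier! 8) hB

lemma κc_le (h : Bg n u) (hB : B ≤ Y u 11) :
    Cr.κc (Vn n (Y u 2 + 1)) B (Y u 37 ^ 2) ((Y u 6 + 1) * Vn n (Y u 5 + Y u 2 + 1))
      (Vn n (Y u 5 + Y u 2 + 1)) (Y u 6 + 1) (3 * (s u 4 + (Y u 53 : ℕ) * eps u 0))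
      (3 * (s u 7 + (Y u 53 : ℕ) * eps u 0)) 0 ≤ (1 / 100) ^ 2 := by
  have hu := h.hu
  have hn := h.hn
  have a1 : Pb u 2 20 (Vn n (Y u 2 + 1)) := Pb.mono (by unfold Vn; p_bd) (by norm_num)
  have a2 : Pb u 5 20 (Vn n (Y u 5 + Y u 2 + 1)) := Pb.mono (by unfold Vn; p_bd) (by norm_num)
  have a1' : Vn n (Y u 2 + 1) ≤ Y u 3 := a1.up (by norm_num) (by omega)
  have a2' : Vn n (Y u 5 + Y u 2 + 1) ≤ Y u 6 := a2.up (by norm_num) (by omega)
  have a3 := log_pb (k := 2) (k' := 38) (a := Y u 37 ^ 2) hu (by omega) (by tier! 37) (by omega)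
  have a4 := log_pb (k := 2) (k' := 38) (a := 2 * Y u 37 ^ 2 * B * Vn n (Y u 2 + 1)) hu (by omega)
    (by tier! 37) (by omega)
  have a5 : Sm u 7 0 ((Y u 53 : ℕ) * eps u 0) :=
    Sm.down (k' := 53) (by unfold eps; s_bd) (by norm_num) (by omega)
  have a6 : Rb u 2 30 (Cr.V0 (Vn n (Y u 2 + 1)) B (Y u 37 ^ 2)) :=
    Rb.mono (by unfold Cr.V0; r_bd) (by norm_num)
  have a7 : Rb u 2 4 ((Nat.log 2 (Y u 37 ^ 2) : ℝ) + 1) := Rb.mono (by r_bd) (by norm_num)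
  unfold Cr.κc
  generalize Cr.V0 _ _ _ = V at a6
  generalize (Nat.log 2 (Y u 37 ^ 2) : ℝ) + 1 = lg at a7
  generalize ((Y u 53 : ℕ) : ℝ) * eps u 0 = a at a5
  generalize Vn n (Y u 5 + Y u 2 + 1) = b at a2'
  have b1 : lg ^ 2 * (3 * (s u 4 + a) * (192 * V ^ 2 + 780)) ≤ 1 / 10 ^ 30 := by sm! 3
  have b2 : lg ^ 2 * (6 * (3 * (s u 7 + a)) * ((((Y u 6 + 1) * b : ℕ) : ℝ) * (Y u 6 + 1 : ℕ) * b)) ≤
    1 / 10 ^ 30 := by sm! 6
  rw [zero_mul, add_zero, mul_add]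
  linarith

theorem t1m (h : Bg n u) (hB : Y u 10 ≤ B ∧ B ≤ Y u 11) (hC : Rb u 0 1 (G1.Cg κ))
    (hz : zm Yw K ≤ s u 8) (he : e ≤ s u 8) :
    T1M (num h Dw 12) (gs u 1) n B κ Yw e 3 (eps u 0) ctm (Y u 53) (Y u 37 ^ 2) K (Y u 2) (Y u 5)
      (Y u 5) (Y u 8) (Y u 6) (Y u 5) (Y u 8) (s u 4) (s u 7) (1 / 100) := by
  have hu := h.hu
  have h1 : Pb u 5 1 (num h Dw 12).l := .of_le (ll_le h) le_rfl
  refine ⟨rfl, ?_, one_le_Y _ _, ⟨η_le h le_rfl, η_le h le_rfl, η_le h (by omega)⟩,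
    ⟨one_le_Y _ _, by tier! 5, lt_of_lt_of_le (by tier! 6) hB.1⟩, ⟨one_le_Y _ _, lag h hB.1⟩,
    ⟨γd_le h hC hz he, γt_le h (k := 4) (by omega) hC hz he⟩, γt_le h (k := 7) (by omega) hC hz he,
    s_pos _ _, s_anti (by omega), κc_le h hB.2⟩
  have h3 : ∀ c, c ≤ Y u 0 → 2 * c * Y u 1 ≤ Y u 2 := fun c _ => by tier! 1
  rw [vw, zero_mul, add_zero, I.Num.lw, add_zero]
  exact h3 _ h.tm

lemma y_le (u : ℕ) : Real.exp (-1 / (Y u 37 : ℕ)) ≤ Real.exp (-1 / (Y u 38 : ℕ)) := by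
  rw [neg_div, neg_div]
  exact Real.exp_le_exp.2 (neg_le_neg (one_div_le_one_div_of_le (Yr_pos _ _)
    (Nat.cast_le.2 (Y_mono (by omega)))))

lemma L1 (hu : 100 ≤ u) (hY : Real.exp (-1 / (Y u 38 : ℕ)) ≤ Yp) : 1 ≤ 3 * Yp ^ (Y u 37 ^ 2) := by
  have h1 : ((Y u 37 ^ 2 : ℕ) : ℝ) ≤ Y u 38 := Nat.cast_le.2 (by tier! 37)
  have h2 : Real.exp (-1) ≤ Yp ^ (Y u 37 ^ 2) := by
    refine le_trans ?_ (pow_le_pow_left₀ (Real.exp_pos _).le hY _)
    rw [← Real.exp_nat_mul, Real.exp_le_exp, mul_div_assoc', le_div_iff₀ (Yr_pos _ _)]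
    linarith
  have h3 := Real.exp_one_lt_d9
  have h4 : Real.exp (-1) * Real.exp 1 = 1 := by rw [← Real.exp_add]; simp
  nlinarith [Real.exp_pos (-1)]

lemma long (hu : 100 ≤ u) : Real.exp (-1 / (Y u 37 : ℕ)) ^ (Y u 37 ^ 2) ≤ s u 54 := by
  have := Yr_pos u 37
  rw [← Real.exp_nat_mul, show ((Y u 37 ^ 2 : ℕ) : ℝ) * (-1 / (Y u 37 : ℕ)) = -(Y u 37 : ℕ) by
    push_cast; field_simp]
  exact exp_Y_le hu (by omega) (by omega)

end One

open One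

variable {L T : ℕ} [NeZero L] [NeZero T] {G : Bs T (Tor 3 L × Fin n)} {z0 : Tor 3 L}
  {P : M.Par (Tor 3 L × Fin n)} {W : Gl.Wd T} {j : ℕ}

/-- **the inputs of the ladder of level one.** -/
theorem ladO (h : Bg n u) (hB : Y u 10 ≤ B ∧ B ≤ Y u 11) (hT : T = B * (num h Dw 12).D)
    (hp : PtN (num h Dw 12).toLf B) (hN : P.N 1 = Y u 52) (T1 : P.Tf 1 = Y u 37)
    (tP : P.tB 1 27 cK + 2 ≤ ctm) (tQ : P.tQ 1 ≤ P.tP 1 + 27)
    {Gr : Finset (Tor 3 L × Fin n) → Prop} {δ : ℝ} {nc cap : ℕ} {nx : ℕ → ℕ}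
    (c : Cel (I.ins G.ex G.ey (num h Dw 12) z0) G P.Sd Gr 0 (Real.exp (-1 / (Y u 37 : ℕ))) δ (eps u 0)
      nc cap nx) (hR : nx (nx 0) ≤ cap)
    (f1 : F2A (ppI G (num h Dw 12) z0 hT hp) P.Sd (Real.exp (-1 / (Y u 37 : ℕ))) 1 0 0 0 0 (eps u 0))
    (f2 : F2A (ppI G (num h Dw 12) z0 hT hp) P.Sd Yp 1 0 0 0 0 (eps u 0))
    (g : Gw W G (num h Dw 12) (gs u 1) Yp e 2 0 0 0 K j) (hY : Real.exp (-1 / (Y u 38 : ℕ)) ≤ Yp)
    (hC : Rb u 0 1 (G1.Cg W.κ)) (hz : zm W.Y K ≤ s u 8) (he : e ≤ s u 8) :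
    P.LadO (I.ins G.ex G.ey (num h Dw 12) z0) G (untI n (num h Dw 12) z0 hT) 27 cK (Y u 53)
      (ll u * (n * (2 * (2 * r0 u + 1) + 1) ^ 3)) (Y u 37 ^ 2)
      (fun l => (Y u 5 : ℝ) ^ (cK + 1) / (Y u 5 : ℝ) ^ l) (eps u 0)
      (s u 7 + (Y u 53 : ℕ) * eps u 0) (s u 5 ^ 2) (1 / Y u 5) (1 / 100) 0 (s u 54) := by
  have hu := h.hu
  have hn := h.hn
  have y0 : (P.lev (I.ins G.ex G.ey (num h Dw 12) z0) G).y 0 = 0 := if_pos rfl
  have y1 : (P.lev (I.ins G.ex G.ey (num h Dw 12) z0) G).y 1 = Real.exp (-1 / (Y u 37 : ℕ)) := by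
    rw [← T1]; rfl
  have e0 : 0 ≤ eps u 0 := (s_pos _ _).le
  have al : AlvH (I.ins G.ex G.ey (num h Dw 12) z0) (P.N 1) 0 (Y u 53) := by
    rw [hN]; exact (I.alvH _ _ _ _ _ 0).mono le_rfl (nD_le h le_rfl z0 0)
  have a5 : Sm u 7 0 ((Y u 53 : ℕ) * eps u 0) :=
    Sm.down (k' := 53) (by unfold eps; s_bd) (by norm_num) (by omega)
  have tm : (num h Dw 12).k0 + 27 + 14 ≤ ctm := by change ck0 + 27 + 14 ≤ _; unfold ctm; omega
  have hnn : ∀ r, tdist (G.ex r).1 (G.ey r).1 ≤ 1 := g.w.wd.nn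
  refine ⟨⟨fun V hV => ?_, add_nonneg (s_pos _ _).le a5.1, fun V hV => ?_, al,
    ⟨show (num h Dw 12).k0 + 27 + 0 + 1 ≤ ctm by omega, tP, le_rfl, le_rfl, le_rfl⟩⟩,
    anc_untI G hnn _ z0 hT (ll_pos u) (hJ h Dw 12 le_rfl (τ := ctm) (by omega)) _ 2, ?_,
    Rung.ldN_Y (c := 49) (i' := 7) hu le_rfl (by omega) h.K
      (cK_eq ▸ Nat.pow_le_pow_right D_pos (by omega)) (by positivity) le_rfl
      (by have := hB.2; tier! 53) ?_, tQ,
    gram_one g ⟨⟨ll_pos u, tm.trans' (by omega), by omega, hρ h Dw 12 le_rfl (by omega),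
      hJ h Dw 12 le_rfl (by omega)⟩, L1 hu hY, e0, show _ ≤ ctm by omega,
      show P.tB 1 27 cK + 1 ≤ ctm by omega, le_rfl, (pow_pos (Y_pos _ _) _).ne'⟩
      (t1m h hB hC hz he) al f2 fun _ a => a,
    by norm_num, s_pos _ _, s_le_one _ _, hN ▸ one_le_Y _ _, y1 ▸ long hu, ?_⟩
  · unfold Par.Ek Par.mu
    have hD := fun g => And.intro (hV g).1 (hV g).2.1
    rw [zero_add, y1] at hD ⊢
    exact (c.eK hR (Lev.y_nn _) (y0 ▸ (Real.exp_pos _).le) hD fun k => (k rfl).elim).zero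
  · rw [zero_add, y1]
    exact f4_one (g.mono (Real.exp_pos _).le ((y_le u).trans hY) le_rfl le_rfl le_rfl) e0
      (show _ ≤ ctm by omega) al f1 rfl (η_le h (by omega)) ⟨one_le_Y _ _, lag h hB.1⟩
      (γt_le h (k := 7) (by omega) hC hz he) (s_pos _ _).le le_rfl
      (mk_mem fun g => ⟨(hV g).1, (hV g).2.1⟩)
  · have b1 := ll_le h
    have b2 := r0_le h
    rw [mul_assoc]
    sm! 5
  · rw [mul_assoc]
    sm! 7
  · have b1 : Sm u 52 0 (√(s u 54)) := Sm.sqrt (Sm.s (by omega)) (by norm_num)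
    have b2 : 10 * ((Y u 52 : ℕ) : ℝ) * √(s u 54) ≤ 1 / 10 ^ 30 := by sm! 52
    rw [hN]
    linarith

end Crest.Agent.N337.Par
end

-- ▼ part N337/M/ExcI
section

/-!
# Row 337, the chain: geometry of the excision on the torus
-/

set_option autoImplicit false
set_option linter.unusedSectionVars false

namespace Crest.Agent.N337.M

open Finset Crest.Agent.N337.Gas Crest.Agent.N337.A Crest.Agent.N337.Ld Crest.Agent.N337.Ex
  Crest.Agent.N337.Free Crest.Agent.N337.Top Crest.Agent.N337.I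

variable {L n T : ℕ} [NeZero L] [NeZero n] [NeZero T]

/-- the excised set: the grid cubes of side `sc` that come within `rz` of `F`. -/
def Zc (z0 : Tor 3 L) (sc rz : ℕ) (F : Finset (Sl L n)) : Finset (Sl L n) :=
  univ.filter fun x => ∃ c ∈ F, ∃ u, tdist c.1 u ≤ rz ∧ idx z0 sc u = idx z0 sc x.1

/-- range of the rung, as a number. -/
def lc (Q : I.Num) : ℕ → ℕ
  | 0 => Q.ρ 0
  | m + 1 => Q.ρ (m + 1) + lc Q m

variable {z0 u u' : Tor 3 L} {sc rz : ℕ} {F : Finset (Sl L n)} {x : Sl L n} {Q : I.Num}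
  {Z : Finset (V L n T)}

lemma lc_sys (Q : I.Num) (z0 : Tor 3 L) (m : ℕ) : (sys n T Q z0).loc m = lc Q m := by
  induction m with
  | zero => rfl
  | succ m ih => simp only [Rg.Sys.loc, lc, ih]; rfl

lemma mem_Zc : x ∈ Zc z0 sc rz F ↔
    ∃ c ∈ F, ∃ u, tdist c.1 u ≤ rz ∧ idx z0 sc u = idx z0 sc x.1 := by simp [Zc]

lemma idx_near (h0 : 0 < sc) (h : idx z0 sc u = idx z0 sc u') : tdist u u' ≤ sc := by
  refine tdist_le_iff.2 fun a => ?_
  have h1 : (u a - z0 a).val / sc = (u' a - z0 a).val / sc := congrFun h a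
  have h2 := Nat.div_add_mod (u a - z0 a).val sc
  have h3 := Nat.div_add_mod (u' a - z0 a).val sc
  have h4 := Nat.mod_lt (u a - z0 a).val h0
  have h5 := Nat.mod_lt (u' a - z0 a).val h0
  rw [h1] at h2
  have e : u' a - u a = ((((u' a - z0 a).val : ℤ) - (u a - z0 a).val : ℤ) : ZMod L) := by
    push_cast; rw [ZMod.natCast_zmod_val, ZMod.natCast_zmod_val]; ring
  rw [e]
  exact (ZMod.natAbs_min_of_le_div_two L _ _ (ZMod.coe_valMinAbs _)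
    (ZMod.natAbs_valMinAbs_le _)).trans (by omega)

lemma Zc_near (h0 : 0 < sc) (h : x ∈ Zc z0 sc rz F) : ∃ c ∈ F, tdist c.1 x.1 ≤ rz + sc := by
  obtain ⟨c, h1, u, h2, h3⟩ := mem_Zc.1 h
  exact ⟨c, h1, (tdist_triangle _ u _).trans (add_le_add h2 (idx_near h0 h3))⟩


lemma Zc_oct {σ r R : ℕ} (h0 : 0 < σ) (hσ : σ ≤ sc) (hR : rz + 3 * sc + r ≤ R) {y z : Tor 3 L}
    (hy : ∀ c ∈ F, R < tdist c.1 y) (hz : tdist y z ≤ r) :
    oct z0 σ (kil (Z ∪ cyl (Zc z0 sc rz F))) z ≤ oct z0 σ (kil Z) z := by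
  classical
  refine card_le_card (image_subset_image (monotone_filter_right _ fun u _ hu =>
    ⟨hu.1, fun u' e => mem_kil.2 fun s c =>
      (mem_union.1 (mem_kil.1 (hu.2 u' e) s c)).resolve_right fun k => ?_⟩))
  obtain ⟨b, b1, b2⟩ := Zc_near (h0.trans_le hσ) (mem_cyl.1 k)
  have a1 := hy b b1
  have a2 := idx_near h0 e
  have a3 := tdist_triangle b.1 u' y
  have a4 := tdist_triangle u' u y
  have a5 := tdist_triangle u z y
  have a6 := hu.1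
  rw [tdist_comm u z, tdist_comm z y] at a5
  simp only at b2
  omega

lemma vol_dS : C9.Vol (dS (L := L) (n := n)) fun r => n * (2 * r + 1) ^ 3 := fun r x =>
  (card_le_card (t := (univ.filter fun y => tdist x.1 y ≤ r) ×ˢ univ) fun y hy => by
    simpa [dS] using C9.mem_bal.1 hy).trans (by
      rw [card_product, card_univ, Fintype.card_fin, mul_comm]
      exact Nat.mul_le_mul_left _ (card_ball_le _ _))

/-- **numbers of the geometry** (`B` = windows per period). -/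
structure ExI (Q : I.Num) (E : ExP) (n : ℕ) (β Tf : ℝ) (N m tP B sc rz τ Tn lg : ℕ) : Prop where
  sc0 : 0 < sc
  dvd : ∀ l < m, Q.σ l ∣ sc
  r3 : E.R3 + lc Q m + 1 ≤ rz
  rZ : rz + sc ≤ E.rZ
  r4 : rz + 3 * sc + lc Q m ≤ E.R4
  nD : N * (2 * (lc Q m + 1) + 1) ^ 3 ≤ E.nD
  l : 1 ≤ Q.l
  τ0 : Q.k0 + 27 + 1 ≤ τ
  τ1 : tP + 1 ≤ τ
  ρ : ∀ m, (τ + 1) * Q.a * (2 * Q.rad m τ + 1) + 3 * τ * Q.H m ≤ Q.ρ (m + 1)
  J : 2 * τ * Q.j1 ≤ Q.r0
  v0 : B * (2 * τ * Q.j1 + Q.lw τ m) ≤ E.v0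
  v1 : E.v1 = vt (Kw n β) lg E.v0 1
  D : E.D = Dn (Kw n β (vt (Kw n β) lg E.v0 3 + 2)) Tn lg (vt (Kw n β) lg E.v0 3)
  N1 : 1 ≤ N
  T1 : 1 ≤ Tf
  T2 : Tf ≤ Tn
  δ0 : 0 < E.δ
  δ1 : E.δ ≤ 1 / 8
  hl : 6400 * N ^ 2 * Tf ≤ E.δ * Real.exp lg

variable {β : ℝ} {w : ℕ} {sy : List (Sl L n × Sl L n × ℝ)} {P : Par (Sl L n)} {E : ExP}
  {j B τ Tn lg : ℕ}

/-- **the geometry of the excision on the word.** -/
theorem exG_word (hβ : 0 ≤ β) (hs : Sym sy) (hT : TT β w sy = B * Q.D)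
    (h : ExI Q E n β (P.Tf j) (P.N (j + 1)) ((j + 1) / 3) (P.tP (j + 1)) B sc rz τ Tn lg)
    (hw : 60 * n ^ 2 * (2 * (vt (Kw n β) lg E.v0 3 + 2) + 1) ^ 3 ≤ w + 1) :
    P.ExG (insT Q z0 β w sy) (GT β w sy) E (fun r => n * (2 * r + 1) ^ 3) j (Zc z0 sc rz) := by
  have hm : Met (Top.ex β w sy) (Top.ey β w sy) dS := met_word hs
  have e := lc_sys (n := n) (T := TT β w sy) Q z0 ((j + 1) / 3)
  refine ⟨vol_dS, fun s hs => ?_, fun F => ⟨fun c hc => mem_Zc.2 ⟨c, hc, c.1, ?_, rfl⟩,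
    fun x hx => ?_⟩, fun Z F c hc z hz z' hz' => mem_kil.2 fun s a => mem_union_right _
      (mem_cyl.2 (mem_Zc.2 ⟨c, hc, z', ?_, rfl⟩)), fun Z F x z l hl hx hz =>
    Zc_oct (Q.σ_pos l) (Nat.le_of_dvd h.sc0 (h.dvd l hl)) h.r4
      (fun c hc => hx _ (mem_image_of_mem _ hc)) (e ▸ hz), fun s hc a b γ h1 h2 h3 => ?_,
    fun i => Kw n β (vt (Kw n β) lg E.v0 i + 2), vt (Kw n β) lg E.v0,
    fun i => 40 * Kw n β (vt (Kw n β) lg E.v0 i + 2) + lg, mw Tn lg, _, rfl, h.v1.symm, hm,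
    fun _ a => absurd rfl a, Nat.zero_le _, h.N1, fun i hi => ⟨vt_succ _ _ _ _,
      rate_word hβ hs _ (le_trans ?_ hw), fast_ok h.N1 h.T1 h.δ0 h.δ1 h.hl _⟩,
    h.D ▸ num_ok h.N1 h.T1 h.T2 h.δ0 h.δ1 h.hl _ _⟩
  · obtain ⟨Dm, h1, h2⟩ := alvH (Top.ex β w sy) (Top.ey β w sy) Q z0 _ ((j + 1) / 3) s hs
    exact ⟨Dm, h1.trans (e ▸ h.nD), h2⟩
  · rw [tdist_self]; omega
  · obtain ⟨c, h1, h2⟩ := Zc_near h.sc0 hx
    exact mem_nbd.2 ⟨c, h1, (tdist_comm _ _).trans_le (h2.trans h.rZ)⟩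
  · have a1 : tdist c.1 z ≤ E.R3 + lc Q ((j + 1) / 3) := e ▸ hz
    have a2 := tdist_triangle c.1 z z'
    have := h.r3
    omega
  · refine (slow_all hm hT (slow_win' (E := I.ev _ _ s.e) (Z := kil s.Z) (z0 := z0) (d := 1)
      (Al := fun r => cn s.e r = true ∨ dS (Top.ex β w sy r) (Top.ey β w sy r) = 0)
      (W := fun u => u ∉ s.Z ∪ cyl (nbd dS E.R5 s.cv)) hm.2.2.2 h.l h.τ0 h.ρ h.J
      (fun r y h1 h2 h3 _ => mem_act.2 ⟨by simpa [cn] using h1.resolve_right h2,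
        fun e => h2 (by rw [e, tdist_self]), h3⟩) fun u hu => ⟨not_dead fun k =>
          hu (mem_union_left _ k), (hc _ fun f hf => ?_).up h.τ1⟩) a b γ h1 h2 ?_).trans h.v0
    · obtain ⟨c, c1, rfl⟩ := mem_image.1 hf
      exact lt_of_not_ge fun k => hu (mem_union_right _ (mem_cyl.2
        (mem_nbd.2 ⟨c, c1, (tdist_comm _ _).trans_le k⟩)))
    · simp only [Cfg.rev, union_empty] at h3
      exact h3
  · have := vt_mono (Kw n β) lg E.v0 (show i ≤ 3 by omega)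
    gcongr

/-- **`Dlv.exc` on the word.** -/
theorem exc_word (hβ : 0 ≤ β) (hs : Sym sy) (hT : TT β w sy = B * Q.D) (h0 : P.Tf 0 = 0)
    (h1 : ∀ j, 0 ≤ P.Tf j) {Y : ℝ}
    (hy : (P.lev (insT Q z0 β w sy) (GT β w sy)).y j ≤ (P.lev (insT Q z0 β w sy) (GT β w sy)).y (j + 1))
    (h3 : (j + 1) % 3 = 2) (a : ExN P E (fun r => n * (2 * r + 1) ^ 3) j (Q.k0 + 27) Q.tm)
    (h : ExI Q E n β (P.Tf j) (P.N (j + 1)) ((j + 1) / 3) (P.tP (j + 1)) B sc rz τ Tn lg)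
    (hw : 60 * n ^ 2 * (2 * (vt (Kw n β) lg E.v0 3 + 2) + 1) ^ 3 ≤ w + 1)
    (c : P.ExC (insT Q z0 β w sy) (GT β w sy) E j (Zc z0 sc rz) Y) :
    let V := P.lev (insT Q z0 β w sy) (GT β w sy)
    (GT β w sy).LadH (yw (V.y (j + 1))) (V.y j) (V.Pre (j + 1)) (V.Post (j + 1)) E.κb →
    (GT β w sy).StepH (yw (V.y (j + 1))) (V.y j) (V.Pre (j + 1))
      ((insT Q z0 β w sy).Cl ((j + 1) / 3) (P.tQ (j + 1)) ∅ 0) (P.e (j + 1) / 10) →
    (GT β w sy).Stg (yw (V.y (j + 1))) (V.y (j + 1)) (V.In (j + 1)) (V.Pre (j + 1)) (P.σ (j + 1))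
      c1 10 (P.e (j + 1)) :=
  Par.exc_dlv (ok_GT hβ w hs) h0 h1 hy h3 a (exG_word hβ hs hT h hw) c

end Crest.Agent.N337.M
private theorem rz_8474c25b46 : type_of% @_root_.Crest.Agent.N337.M.lc.eq_def := @_root_.Crest.Agent.N337.M.lc.eq_def -- L24
private theorem rz_a80d5d704f : type_of% @_root_.Crest.Agent.N337.M.lc.eq_1 := @_root_.Crest.Agent.N337.M.lc.eq_1 -- L24
end

-- ▼ part N337/Par/Exc
section

/-!
# Row 337 (helper49): the numbers of the excision (level `j + 1 = 3 m + 2`) on the tiers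
-/

set_option autoImplicit false

namespace Crest.Agent.N337.Par.Xc

open Crest.Agent.N337.M Crest.Agent.N337.A

/-- speed of the tower after `i` steps. -/
noncomputable def vT (n : ℕ) (β : ℝ) (u m i : ℕ) : ℕ := vt (Kw n β) (x u m 1) (x u m 1) i

/-- radius of the excised set. -/
def rz (u m R3 : ℕ) : ℕ := R3 + 2 * x u m 0 + 1

/-- the data of the excision: radii `R i`, distances `Rf`, `Rg`, errors `ε, γ, γg, κb`. -/
noncomputable def exP (n : ℕ) (β : ℝ) (u m : ℕ) (R : ℕ → ℕ) (Rf Rg : ℕ) (ε γ γg κb : ℝ) : ExP where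
  R1 := R 1
  R2 := R 2
  R3 := R 3
  R4 := R 4
  R5 := R 5
  rZ := rz u m (R 3) + x u m 0
  Rf := Rf
  Rg := Rg
  nD := x u m 42
  v0 := x u m 1
  v1 := vT n β u m 1
  D := Dn (Kw n β (vT n β u m 3 + 2)) (x u m 26) (x u m 1) (vT n β u m 3)
  ε := ε
  γ := γ
  γg := γg
  δ := (sx u m 21 ^ 40) ^ 2
  σ := sx u m 21 ^ 40
  κb := κb

/-- **position of the inputs on the tiers.** -/
structure Hx {Λ : Type} (P : Par Λ) (β : ℝ) (u m j B : ℕ) (R : ℕ → ℕ) (Rf Rg : ℕ)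
    (ε γ γg κb : ℝ) : Prop where
  hβ : ⌊β⌋₊ + 1 ≤ Y u 11
  hB : B ≤ Y u 11
  T : P.Tf j = x u m 26
  N : 1 ≤ P.N (j + 1) ∧ P.N (j + 1) ≤ x u m 41
  e : sx u m 45 ≤ P.e (j + 1) ∧ P.e (j + 1) ≤ sx u m 22
  σ : x u m 27 ≤ P.σ (j + 1)
  nc : P.nc ≤ Y u 1
  tI : P.tI (j + 1) + 1 ≤ P.tP (j + 1)
  tP : P.tP (j + 1) + 1 ≤ ctm
  r1 : P.R (j + 1) ≤ R 1
  r2 : R 1 ≤ R 2
  r3 : R 2 ≤ R 3
  r4 : R 3 + x u m 1 ≤ R 4
  r5 : R 4 ≤ R 5
  r6 : R 5 ≤ x u m 19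
  Rf : Rf ≤ x u m 21
  Rg : Rg ≤ x u m 25
  ε : ε ≤ sx u m 46
  γ : 0 ≤ γ ∧ γ ≤ sx u m 20
  γg : 0 ≤ γg ∧ γg ≤ sx u m 21 ^ 100
  κb : 0 ≤ κb ∧ κb ≤ sx u m 21 ^ 100

variable {n u m j B Rf Rg : ℕ} {β ε γ γg κb : ℝ} {R : ℕ → ℕ} {Λ : Type} {P : Par Λ}

lemma pb_vn {k e lg v : ℕ} (h : Bg n u) (hβ : ⌊β⌋₊ + 1 ≤ Y u 11) (hk : 11 ≤ k) (he : 1 ≤ e)
    (hl : lg ≤ Y u k) (hv : Pb u k e v) : Pb u k (4 * e + 20) (vn (Kw n β) lg v) := by
  have hu := h.hu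
  have hn := h.hn
  unfold vn Kw
  generalize ⌊β⌋₊ + 1 = b at hβ
  apply Pb.mono
  · p_bd
  · omega

lemma pb_vT (h : Bg n u) (hβ : ⌊β⌋₊ + 1 ≤ Y u 11) (m : ℕ) :
    Pb u (48 * m + 11 + 1) 500 (vT n β u m 3) := by
  have k := fun e v => pb_vn (e := e) (lg := x u m 1) (v := v) h hβ
    (show 11 ≤ 48 * m + 11 + 1 by omega)
  exact (k _ _ (by omega) le_rfl (k _ _ (by omega) le_rfl (k _ _ le_rfl le_rfl
    (.tier le_rfl)))).mono (by norm_num)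

lemma vT_le (h : Bg n u) (hβ : ⌊β⌋₊ + 1 ≤ Y u 11) (m : ℕ) {i : ℕ} (hi : i ≤ 3) :
    vT n β u m i ≤ x u m 2 :=
  (vt_mono _ _ _ hi).trans ((pb_vT h hβ m).up (by norm_num) (by omega))

/-- the hypothesis `hw` of `exc_word`. -/
lemma hw_le (h : Bg n u) (hβ : ⌊β⌋₊ + 1 ≤ Y u 11) (m : ℕ) :
    60 * n ^ 2 * (2 * (vT n β u m 3 + 2) + 1) ^ 3 ≤ x u m 3 := by
  have hu := h.hu
  have hn := h.hn
  have := vT_le h hβ m le_rfl
  tier! (48 * m + 11 + 2)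

lemma lc_le (h : Bg n u) (Dw m : ℕ) : lc (num h Dw 12) m ≤ 2 * x u m 0 := by
  have hu := h.hu
  induction m with
  | zero => exact Nat.le_mul_of_pos_left _ two_pos
  | succ m ih =>
    have h1 : 2 * x u m 0 ≤ x u (m + 1) 0 := by tier! (48 * m + 11)
    change x u (m + 1) 0 + _ ≤ _
    omega

/-- **the numbers of the geometry.** -/
theorem exI (h : Bg n u) (Dw : ℕ) (H : Hx P β u m j B R Rf Rg ε γ γg κb) :
    ExI (num h Dw 12) (exP n β u m R Rf Rg ε γ γg κb) n β (P.Tf j) (P.N (j + 1)) m (P.tP (j + 1)) B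
      (x u m 0) (rz u m (R 3)) ctm (x u m 26) (x u m 1) := by
  have hu := h.hu
  have l1 := lc_le h Dw m
  have l2 : 8 * x u m 0 ≤ x u m 1 := by tier! (48 * m + 11)
  have l3 := Y_pos u (48 * m + 11 + 0)
  have s0 := s_pos u (48 * m + 11 + 21)
  refine ⟨l3, fun l hl => Y_dvd (by omega), ?_, le_rfl, ?_, ?_, ll_pos u, ?_, H.tP,
    hρ h Dw 12 le_rfl (by omega), hJ h Dw 12 le_rfl (by omega), ?_, rfl, rfl, H.N.1, ?_, H.T.le,
    by change 0 < _ ^ 2; positivity, ?_, ?_⟩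
  · change R 3 + _ + 1 ≤ R 3 + _ + 1
    omega
  · have := H.r4
    change R 3 + _ + 1 + _ + _ ≤ R 4
    unfold x at *
    omega
  · have := H.N.2
    have : lc (num h Dw 12) m ≤ x u m 1 := by omega
    change _ ≤ x u m 42
    tier! (48 * m + 11 + 41)
  · change ck0 + 27 + 1 ≤ _
    unfold ctm; omega
  · have := H.hB
    have := h.tm
    have := lw_le h Dw 12 le_rfl (τ := ctm) (by omega) m
    change B * (2 * ctm * Y u 1 + _) ≤ x u m 1
    tier! (48 * m + 11)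
  · rw [H.T]; exact_mod_cast one_le_Y _ _
  · have := s_le_num hu (48 * m + 11 + 21)
    change (sx u m 21 ^ 40) ^ 2 ≤ _
    rw [← pow_mul]
    exact (pow_le_of_le_one s0.le (s_le_one _ _) (by norm_num)).trans (by linarith)
  · have a1 := Y_le_exp (k := 48 * m + 11 + 1) (fac_le h (j := 50) (by norm_num))
    have a2 := H.N.2
    have a3 : (6400 * (P.N (j + 1) : ℝ) ^ 2 * (x u m 26 : ℕ)) * s u (48 * m + 11 + 1 + 50) ≤
        sx u m 21 ^ 80 := by rtier! (48 * m + 11 + 41)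
    have a4 := s_mul u (48 * m + 11 + 1 + 50)
    change _ ≤ (sx u m 21 ^ 40) ^ 2 * Real.exp (x u m 1 : ℕ)
    rw [H.T, ← pow_mul]
    refine le_trans ?_ (mul_le_mul_of_nonneg_left a1 (by positivity))
    refine le_trans (le_of_eq ?_) (mul_le_mul_of_nonneg_right a3 (Yr_pos _ _).le)
    rw [mul_assoc _ (s _ _), a4, mul_one]

lemma sm0 {k e i : ℕ} {r : ℝ} (h : Rb u k e r) : r * s u k ^ (e + i) ≤ s u k ^ i := by
  have h0 := s_pos u k
  rw [pow_add, ← mul_assoc]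
  exact mul_le_of_le_one_left (by positivity) ((mul_le_mul_of_nonneg_right h.2
    (by positivity)).trans_eq (by rw [← mul_pow, mul_comm, s_mul, one_pow]))

lemma p0 {i : ℕ} (hi : 22 ≤ i) : sx u m i ≤ sx u m 21 ^ 100 := by
  simpa using Rb.sm (u := u) (k := 48 * m + 11 + 21) (k' := 48 * m + 11 + i) (j := 100)
    (i := 48 * m + 11 + 21) (e := 0) (r := 1) ⟨zero_le_one, (pow_zero _).ge⟩ (by omega) (by omega)
    le_rfl

/-- **the numbers of the excision.** -/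
theorem exN (h : Bg n u) (H : Hx P β u m j B R Rf Rg ε γ γg κb) :
    ExN P (exP n β u m R Rf Rg ε γ γg κb) (fun r => n * (2 * r + 1) ^ 3) j (ck0 + 27) ctm := by
  have hu := h.hu
  have hn := h.hn
  have l2 : 8 * x u m 0 ≤ x u m 1 := by tier! (48 * m + 11)
  have l3 := Y_pos u (48 * m + 11 + 0)
  have r4 := H.r4; have r5 := H.r5; have r6 := H.r6; have nc := H.nc; have Rf1 := H.Rf
  have Rg1 := H.Rg; have hβ := H.hβ
  have z1 : rz u m (R 3) + x u m 0 ≤ R 5 := by unfold rz x at *; omega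
  have z2 := z1.trans r6
  have v1 := vT_le h hβ m (i := 1) (by omega)
  have v3 := vT_le h hβ m le_rfl
  have s0 := s_pos u (48 * m + 11 + 21)
  have s1 := s_le_num hu (48 * m + 11 + 21)
  have e1 : ∀ c : ℕ, c ≤ 10 ^ 30 → (c : ℝ) * (x u m 42 : ℕ) * ε ≤ sx u m 45 := fun c hc =>
    (mul_le_mul_of_nonneg_left H.ε (by positivity)).trans (by
      have := hc.trans (num_le hu 0); rtier! (48 * m + 11 + 45))
  have T0 : ∀ a : ℝ, 3 / P.Tf j * a = 3 * a * sx u m 26 := fun a => by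
    rw [H.T, sx, s]; ring
  refine ⟨by rw [H.T]; exact Yr_pos _ _, by unfold ctm; omega, H.tI, H.tP, H.r1, H.r2, H.r3,
    le_trans (Nat.le_add_right _ _) r4, r5, z1, le_trans ?_ H.σ, ⟨H.γ.1, H.γg.1⟩,
    by change 0 ≤ _ ^ 40; positivity, H.κb.1, (e1 6 (by norm_num)).trans
      ((s_le_num hu _).trans (by norm_num)), (e1 12 (by norm_num)).trans H.e.1, ?_, ?_, ?_⟩
  · simp only [exP, ExP.R, Dn, mw, Kw]
    generalize rz u m (R 3) + x u m 0 = z at z2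
    generalize ⌊β⌋₊ + 1 = b at hβ
    tier! (48 * m + 11 + 26)
  · simp only [exP, ExP.R]
    generalize rz u m (R 3) + x u m 0 = z at z2
    have a1 : 3 * ((P.nc * (n * (2 * (z + (Rf + x u m 1 + 1 + R 5)) + 1) ^ 3) : ℕ) : ℝ) *
        sx u m 26 ≤ sx u m 21 := by rtier! (48 * m + 11 + 21)
    have a2 : ((P.nc * (n * (2 * (R 5 + (x u m 1 + 1)) + 1) ^ 3) : ℕ) : ℝ) * sx u m 20 ≤
        sx u m 19 := by rtier! (48 * m + 11 + 19)
    have a3 := s_le_num hu (48 * m + 11 + 19)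
    rw [T0]
    exact (add_le_add a1 ((mul_le_mul_of_nonneg_left H.γ.2 (Nat.cast_nonneg _)).trans a2)).trans
      (by unfold sx; linarith)
  · simp only [exP]
    have a1 : 3 * ((n * (2 * Rg + 1) ^ 3 : ℕ) : ℝ) * sx u m 26 ≤ sx u m 21 ^ 100 := by
      rtier! (48 * m + 11 + 25)
    have a2 := (e1 1 (by norm_num)).trans (p0 (by omega))
    have a3 := H.e.2.trans (p0 le_rfl)
    have a4 : 128 * sx u m 21 ^ 100 ≤ sx u m 21 ^ 99 :=
      sm0 (i := 99) (Rb.num (k := 48 * m + 11 + 21) hu (r := 128) (by norm_num))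
    have a5 : sx u m 21 ^ 99 ≤ sx u m 21 ^ (40 * 2) :=
      pow_le_pow_of_le_one s0.le (s_le_one _ _) (by omega)
    rw [T0, ← pow_mul]
    rw [Nat.cast_one, one_mul] at a2
    linarith [H.γg.2, H.κb.2]
  · simp only [exP, ExP.R]
    generalize rz u m (R 3) + x u m 0 = z at z2
    rw [Real.sqrt_sq (by positivity)]
    have a1 : Rb u (48 * m + 11 + 21) 39 (14 * ((P.nc * (n * (2 * (z + (Rf + x u m 1 + 1 + R 5 + 1 +
        vT n β u m 1)) + 1) ^ 3) : ℕ) : ℝ) + 2) := by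
      apply Rb.mono
      · r_bd
      · norm_num
    have a2 : _ * sx u m 21 ^ 40 ≤ sx u m 21 ^ 1 := sm0 (i := 1) a1
    rw [pow_one] at a2
    linarith

/-! ### the levels of `Par.lev` -/

/-- the data of the excision at the scale `m`: `RetA` is needed at the distances `x u m 21` (bound
`sx u m 20`) and `x u m 23` (bound `sx u m 22`). -/
noncomputable def exE (n : ℕ) (β : ℝ) (u m : ℕ) (R : ℕ → ℕ) (ε : ℝ) : ExP :=
  exP n β u m R (x u m 21) (x u m 23) ε (sx u m 20) (sx u m 22) ((20 + 8 * c3) * sx u m 22)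

/-- what is left: rungs, radii of the claims, error of the claims. -/
structure Hr (r : Rt) (β : ℝ) (u j B : ℕ) (R : ℕ → ℕ) (ε : ℝ) : Prop where
  hβ : ⌊β⌋₊ + 1 ≤ Y u 11
  hB : B ≤ Y u 11
  nc : r.nc ≤ Y u 1
  tI : r.tI (j + 1) + 1 ≤ r.tP (j + 1)
  tP : r.tP (j + 1) + 1 ≤ ctm
  r1 : r.R (j + 1) ≤ R 1
  r2 : R 1 ≤ R 2
  r3 : R 2 ≤ R 3
  r4 : R 3 + x u ((j + 1) / 3) 1 ≤ R 4
  r5 : R 4 ≤ R 5
  r6 : R 5 ≤ x u ((j + 1) / 3) 19
  ε : ε ≤ sx u ((j + 1) / 3) 46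

open Crest.Agent.N337.Free Crest.Agent.N337.Top

variable {L l w Dw : ℕ} [NeZero L] {r : Rt} {z z0 : Tor 3 L}

theorem Hr.hx (hu : 100 ≤ u) (h3 : (j + 1) % 3 = 2) (H : Hr r β u j B R ε) :
    Hx (lev n β u r z l) β u ((j + 1) / 3) j B R (x u ((j + 1) / 3) 21) (x u ((j + 1) / 3) 23) ε
      (sx u ((j + 1) / 3) 20) (sx u ((j + 1) / 3) 22) ((20 + 8 * c3) * sx u ((j + 1) / 3) 22) := by
  have a1 := tb_eq j
  have a2 := tb_eq (j + 1)
  have c : Rb u 0 1 (20 + 8 * c3) := .num hu (by norm_num [c3, c1])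
  refine ⟨H.hβ, H.hB, (Tf_ne (by omega)).trans (congrArg (fun k => (Y u k : ℝ)) (by omega)),
    ⟨one_le_Y _ _, Y_mono (by omega)⟩, ⟨s_anti (by omega), s_anti (by omega)⟩, Y_mono (by omega),
    H.nc, H.tI, H.tP, H.r1, H.r2, H.r3, H.r4, H.r5, H.r6, le_rfl, Y_mono (by omega), H.ε,
    ⟨(s_pos _ _).le, le_rfl⟩, ⟨(s_pos _ _).le, p0 le_rfl⟩,
    mul_nonneg c.1 (s_pos _ _).le, ?_⟩
  generalize 20 + 8 * c3 = a at c
  rtier! (48 * ((j + 1) / 3) + 11 + 21)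

variable [NeZero n] {sy : List (Sl L n × Sl L n × ℝ)}

/-- **`Dlv.exc` on the parameters**, from the claims, the ladder and `Dlv.stepH`. -/
theorem exc_lev (h : Bg n u) (hβ : 0 ≤ β) (hs : Sym sy) (hT : TT β w sy = B * Dw)
    (h3 : (j + 1) % 3 = 2) (H : Hr r β u j B R ε) (hw : x u ((j + 1) / 3) 3 ≤ w + 1) {Yp : ℝ} :
    let P := lev n β u r z l
    let I := insT (num h Dw 12) z0 β w sy
    let V := P.lev I (GT β w sy)
    P.ExC I (GT β w sy) (exE n β u ((j + 1) / 3) R ε) j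
      (Zc z0 (x u ((j + 1) / 3) 0) (rz u ((j + 1) / 3) (R 3))) Yp →
    V.LadIn (GT β w sy) j (V.Pre (j + 1)) (V.Post (j + 1)) (sx u ((j + 1) / 3) 22) →
    (GT β w sy).StepH (yw (V.y (j + 1))) (V.y j) (V.Pre (j + 1))
      (I.Cl ((j + 1) / 3) (P.tQ (j + 1)) ∅ 0) (P.e (j + 1) / 10) →
    V.LP (GT β w sy) j → (GT β w sy).Stg (yw (V.y (j + 1))) (V.y (j + 1)) (V.In (j + 1))
      (V.Pre (j + 1)) (P.σ (j + 1)) c1 10 (P.e (j + 1)) := by
  intro P I V c hL hS lp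
  have X := H.hx (n := n) (z := z) (l := l) h.hu h3
  have hy : V.y j ≤ V.y (j + 1) := by
    obtain ⟨i, rfl⟩ : ∃ i, j = i + 1 := ⟨j - 1, by omega⟩
    have := Tf_step (u := u) i
    simp only [Lev.y, if_neg (Nat.succ_ne_zero _)]
    refine Real.exp_le_exp.2 ?_
    rw [neg_div, neg_div, neg_le_neg_iff]
    exact one_div_le_one_div_of_le this.1 this.2
  exact exc_word hβ hs hT (Tf_zero (u := u)) Tf_nn hy h3 (exN h X) (exI h Dw X) ((hw_le h H.hβ _).trans hw) c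
    (hL.lad_small tkaS tkbS (ok_GT hβ w hs) Tf_nn h3 lp _ (Lev.admW_yw (Tf_zero (u := u)) Tf_nn hy)) hS

end Crest.Agent.N337.Par.Xc
end

-- ▼ part N337/Par/ExcF
section

/-!
# Row 337 (helper49): `Dlv.exc` on the final objects, from the cell claims
-/

set_option autoImplicit false
set_option linter.unusedSectionVars false

namespace Crest.Agent.N337.Par.Xc

open Finset Crest.Agent.N337.M Crest.Agent.N337.A Crest.Agent.N337.Free Crest.Agent.N337.Top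

variable {n u m i j K ms w L : ℕ} {κ Yw Yp e β : ℝ}

/-- the Green bound at a distance `r` beyond the tier `k`. -/
theorem γd_sm {S : G1.Scales} {k A r : ℕ} (hu : 100 ≤ u) (hκ : Rb u 0 1 (G1.Cg κ)) (hk : 1 ≤ k)
    (hA : A ≤ Y u k) (hK : Rb u k 75 (S.K (S.mt - 1))) (hη : S.η (S.mt - 1) ≤ Y u k)
    (h1 : Y u (k + 1) ≤ r) (h2 : r ≤ Y u (k + 1000)) (hz : Sm u k 0 (C9.zm Yw K)) (he : Sm u k 0 e) :
    Sm u k 200 (C9.γd κ Yw e S A K r) := by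
  have h3 : Pb u k 2 (Nat.log 2 r) := log_pb hu hk h2 le_rfl
  unfold C9.γd G1.Cc
  generalize Nat.log 2 r = a at h3
  generalize S.K (S.mt - 1) = b at hK
  generalize S.η (S.mt - 1) = c at hη
  apply Sm.mono
  · s_bd
  · norm_num

/-- the Green bound through a cover of scale `m`, at the distance `x u m (i + 1)`. -/
theorem γd_le (h : Bg n u) (hκ : Rb u 0 1 (G1.Cg κ)) (hi : 15 ≤ i)
    (hz : Sm u (48 * m + 11 + i) 0 (C9.zm Yw K)) (he : Sm u (48 * m + 11 + i) 0 e) :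
    Sm u (48 * m + 11 + i) 200 (C9.γd κ Yw e (gs u (m + 2)) (Y u 0) K (x u m (i + 1))) :=
  γd_sm h.hu hκ (by omega) (Y_mono (by omega)) (((gh_gs u (m + 2)).K h m).lift (by omega))
    (Y_mono (show 48 * m + 11 + 15 ≤ _ by omega)) le_rfl (Y_mono (by omega)) hz he


variable [NeZero L] [NeZero n] {sy : List (Sl L n × Sl L n × ℝ)}

lemma grd_Zc (z : Tor 3 L) (sc rz : ℕ) (F : Finset (Sl L n)) : Ld.Grd z sc (M.Zc z sc rz F) :=
  fun _ hx _ e => by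
    obtain ⟨c, h1, a, h2, h3⟩ := mem_Zc.1 hx
    exact mem_Zc.2 ⟨c, h1, a, h2, h3.trans e.symm⟩

lemma RetA.mono {T : ℕ} [NeZero T] {Λ X α κ : Type} [Fintype Λ] [DecidableEq Λ] [Fintype X]
    [DecidableEq X] [SemilatticeSup α] [Preorder κ] {I : Ins T Λ X α κ} {G : Bs T Λ}
    {Sd : Finset (Fin T × Λ) → Prop} {y γ γ' : ℝ} {N m nc R r : ℕ}
    (h : RetA I G Sd y N m nc R r γ) (k : γ ≤ γ') : RetA I G Sd y N m nc R r γ' :=
  fun F s a b z F' c e => (h F s a b z F' c e).trans k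

/-- **`Dlv.exc`** from the cell claims (A), `F2A` (B), the word (C), the ladder (E) and `stepH`. -/
theorem dlv_exc (C : Ctx u ms β w sy) (z : Tor 3 L) (hj : j ≤ 3 * ms + 3) (h3 : (j + 1) % 3 = 2)
    (hm : (j + 1) / 3 = m) (hy : yl u (j + 1) ≤ Yp) (hY : Yp ≤ 1) (c : C.Cel z m Yp)
    {hp : C9.PtN C.Q.toLf (Bw β)} {j' : ℕ}
    (f : C9.F2A (C9.ppI (GT β w sy) C.Q z C.hT hp) (PP n u ms β z).Sd Yp 1 m ((ctm + 1) * ca)
      (Rr u m 8) (nx u m (Rr u m 8)) (eps u m))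
    (g : C9.Gw C.W (GT β w sy) C.Q (gs u (m + 2)) Yp e 2 m ((ctm + 1) * ca) (Rr u m 9) K j')
    (hz : C9.zm (Yt u ms) K ≤ sx u m 24) (he : e ≤ sx u m 24) :
    let V := (PP n u ms β z).lev (C.I z) (GT β w sy)
    V.LadIn (GT β w sy) j (V.Pre (j + 1)) (V.Post (j + 1)) (s u (tb j + 2)) →
    (GT β w sy).StepH (yw (V.y (j + 1))) (V.y j) (V.Pre (j + 1))
      ((C.I z).Cl ((j + 1) / 3) ((PP n u ms β z).tQ (j + 1)) ∅ 0) ((PP n u ms β z).e (j + 1) / 10) →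
    V.LP (GT β w sy) j → (GT β w sy).Stg (yw (V.y (j + 1))) (V.y (j + 1)) (V.In (j + 1))
      (V.Pre (j + 1)) ((PP n u ms β z).σ (j + 1)) c1 10 ((PP n u ms β z).e (j + 1)) := by
  subst hm
  set m := (j + 1) / 3 with hm
  have h := C.bg
  have hu := h.hu
  have y0 := yl_nn u (j + 1)
  rw [nx_Rr] at f
  have tb1 : tb j + 2 = 48 * m + 11 + 22 := by have := tb_eq j; omega
  have cap : ∀ i ≤ 30, Rr u m i ≤ Rr u m 30 := fun _ => Rr_mono u m
  have H : Hr (rt u) β u j (Bw β) (fun i => Rr u m (3 + i)) (eps u m) := by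
    refine ⟨C.B2, C.B2, ?_, Rung.tI_lt_tP (by omega), ?_, Rr_mono u m (by omega),
      Rr_mono u m (by omega), Rr_mono u m (by omega), ?_, Rr_mono u m (by omega),
      (Rr_le h (by omega)).trans ((Sx_le h m).trans (Y_mono (by omega))), s_anti (by omega)⟩
    · have := h.tm; have := h.a
      change (ctm + 1) * ca ≤ _
      tier! 0
    · have := Rung.tP_le (kd := ck0 + 27) (k := cK) (j := j + 1)
      rw [← ctm_eq] at this
      exact le_trans (Nat.add_le_add_left (by omega) _) this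
    · have a1 := (Y_mono (u := u) (show 48 * m + 11 + 1 ≤ 48 * m + 11 + 12 by omega)).trans
        (le_Rr u m (3 + 3))
      have a2 : 1 ≤ cLam := by unfold cLam; omega
      have a3 := nx_Rr u m (3 + 3)
      rw [nx, max_eq_left (le_Rr u m _)] at a3
      change Rr u m (3 + 3) + Y u (48 * m + 11 + 1) ≤ Rr u m (3 + 3 + 1)
      have a4 := Nat.mul_le_mul_right (Rr u m (3 + 3)) (Nat.add_le_add_right a2 1)
      rw [a3] at a4
      exact le_trans (by omega) a4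
  have g' : C9.Gw C.W (GT β w sy) C.Q (gs u (m + 2)) Yp (sx u m 24) 2 m ((ctm + 1) * ca) (Rr u m 9)
      K j' := ⟨g.w, g.nu, g.sc, g.hL, g.he.trans he⟩
  have z0 : 0 ≤ C9.zm (Yt u ms) K := by
    have := Yt_lt u ms
    exact div_nonneg (div_nonneg (by norm_num) (by linarith)) (Nat.cast_nonneg _)
  have hw : x u m 3 ≤ w + 1 :=
    (C.le_w (k := 48 * m + 11 + 3) (by clear * - hj hm; omega)).trans (Nat.le_succ w)
  have hA : Ld.AlvH (C.I z) ((PP n u ms β z).N (j + 1)) m (x u m 42) :=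
    (exG_word C.wd.β0 C.wd.hs C.hT (exI h _ (H.hx (z := z) (l := lt u ms) hu h3))
      ((hw_le h H.hβ m).trans hw)).alv
  have ret : ∀ i, 20 ≤ i → i ≤ 22 → RetA (C.I z) (GT β w sy) (PP n u ms β z).Sd (yl u (j + 1))
      ((PP n u ms β z).N (j + 1)) m ((ctm + 1) * ca) (Rr u m 8) (x u m (i + 1)) (sx u m i) :=
    fun i a1 a2 => by
      have a3 := γd_le (m := m) (Yw := Yt u ms) (K := K) (e := sx u m 24) (i := i) h h.Cg (by omega)
        (.of_le z0 hz (by omega)) (.s (by omega))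
      have a4 : 4 * x u m 15 ≤ x u m (i + 1) := by tier! (48 * m + 11 + 15)
      have a5 : Sm u (48 * m + 11 + 42) 10 ((x u m 42 : ℕ) * eps u m) := by
        unfold eps; apply Sm.mono
        · s_bd
        · norm_num
      have a6 : C9.γd (8 * n ^ 2) (Yt u ms) (sx u m 24) (gs u (m + 2)) (Y u 0) K (x u m (i + 1)) +
          (x u m 42 : ℕ) * eps u m ≤ sx u m i := by
        generalize (x u m 42 : ℕ) * eps u m = b at a5
        generalize C9.γd _ _ _ _ _ _ _ = a at a3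
        sm! (48 * m + 11 + i)
      exact RetA.mono (C9.retA (hp := hp) (hT := C.hT) g' c.e0
        (show ck0 + 27 + 1 ≤ ctm by unfold ctm; omega) (Rr_mono u m (by norm_num)) hA f
        (one_le_Y _ _) a4 le_rfl a3.1 y0 hy) a6
  intro V hL
  rw [tb1] at hL
  refine exc_lev (Yp := Yp) h C.wd.β0 C.wd.hs C.hT h3 H hw
    ⟨y0.trans hy, hY, ?_, ?_, ret 20 le_rfl (by omega), ret 22 (by omega) le_rfl⟩ hL
  · have := c.eU (R := Rr u m 3) (by rw [nx_Rr, nx_Rr]; exact cap _ (by norm_num)) y0 hy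
      (C := fun s => M.Zc z (x u m 0) (rz u m (Rr u m (3 + 3))) s.cv)
      fun s k hk => (grd_Zc z _ _ _).dvd (Y_dvd (by omega))
    rwa [nx_Rr, nx_Rr, nx_Rr] at this
  · have := c.f1 _ 0 (Rr u m 7) y0 hy (by omega) (cap _ (by omega))
    rwa [nx_Rr] at this

end Crest.Agent.N337.Par.Xc

namespace Crest.Agent.N337.M.Ctx

open Crest.Agent.N337.Free Crest.Agent.N337.Top Crest.Agent.N337.Par

variable {n u ms w L : ℕ} {β : ℝ} [NeZero L] [NeZero n] {sy : List (Sl L n × Sl L n × ℝ)}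
  (C : Ctx u ms β w sy) (z : Tor 3 L)

/-- single points are not leaves. -/
lemma ptX : C9.PtN C.Q.toLf (Bw β) :=
  ⟨Dp_le_cE (j := 0) (by omega), two_le_Y C.hu 1, Nat.one_le_pow _ _ (Y_pos _ _),
    (ll_le C.bg).trans ((Y_mono (by omega)).trans C.B1)⟩

/-- joint (B): `F2A` at all scales. -/
def XB : Prop := ∀ m ≤ ms + 1, ∀ Yp d R, 0 ≤ Yp → Yp ≤ Yt u ms → d ≤ 3 → R ≤ Rr u m 30 →
  C9.F2A (C9.ppI (GT β w sy) C.Q z C.hT C.ptX) (PP n u ms β z).Sd Yp d m ((ctm + 1) * ca) R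
    (nx u m R) (Par.eps u m)

/-- joint (C), with cover: the word seen by G1 at the largest fugacity. -/
def XC : Prop := ∀ m ≤ ms + 1, ∃ K j, C9.Gw C.W (GT β w sy) C.Q (gs u (m + 2)) (Yt u ms)
  (sx u m 24) 2 m ((ctm + 1) * ca) (Rr u m 9) K j ∧ C9.zm (Yt u ms) K ≤ sx u m 24

/-- **joint (F).** -/
theorem jf_of (hA : C.JA z) (hB : C.XB z) (hC : C.XC) : C.JF z := fun j hj h3 hL => by
  obtain ⟨K, i, g, hz⟩ := hC ((j + 1) / 3) (by omega)
  exact Xc.dlv_exc C z hj h3 rfl (yl_le (by omega)) (Yt_lt u ms).le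
    (hA _ (by omega) _ (yl_le (by omega)) le_rfl)
    (hB _ (by omega) _ _ _ (le_trans (by norm_num) (half_le_Yt C.hu ms)) le_rfl (by omega)
      (Rr_mono u _ (by omega))) g hz le_rfl
    (hL.ladIn C.ok Tf_nn (by omega) (yl_mono u (Nat.le_succ j)))

end Crest.Agent.N337.M.Ctx
end

-- ▼ part N337/Par/GwX
section

/-!
# Row 337 (helper49): the word seen by G1 on the final objects; joint (F) from (A), (B)
-/

set_option autoImplicit false
set_option linter.unusedSectionVars false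

namespace Crest.Agent.N337.M.Ctx

open Crest.Agent.N337.Free Crest.Agent.N337.Top Crest.Agent.N337.Par

variable {n u ms w L : ℕ} {β : ℝ} [NeZero L] [NeZero n] {sy : List (Sl L n × Sl L n × ℝ)}
  (C : Ctx u ms β w sy)

/-- exponent of the ball of the zero mode. -/
def KX (u ms : ℕ) : ℕ := u * D ^ (48 * ms + 900)

lemma two_KX (u ms : ℕ) : 2 ^ KX u ms = Y u (48 * ms + 900) := (Y_def _ _).symm

include C

/-- the zero mode is below every tier in use. -/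
lemma zmX {k : ℕ} (hk : k ≤ 48 * ms + 898) : C9.zm (Yt u ms) (KX u ms) ≤ s u k := by
  have hu := C.hu
  have h1 : (2 : ℝ) ≤ (lt u ms : ℕ) := by exact_mod_cast two_le_Y hu _
  have h4 := Yt_lt u ms
  have h2 : 4 / (1 - Yt u ms) ≤ 8 * (lt u ms : ℕ) := by
    rw [div_le_iff₀ (by linarith)]
    set t : ℝ := ((lt u ms : ℕ) : ℝ)
    have h5 : Yt u ms * (1 + 1 / t) ≤ 1 := by
      rw [Yt, neg_div, Real.exp_neg, inv_mul_le_iff₀ (Real.exp_pos _), mul_one, add_comm]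
      exact Real.add_one_le_exp _
    have h6 := half_le_Yt hu ms
    have h7 : 1 / t * t = 1 := one_div_mul_cancel (by linarith)
    have h8 : 0 < 1 / t := by positivity
    nlinarith
  have h3 : Rb u (48 * ms + 899) 2 (8 * ((lt u ms : ℕ) : ℝ)) := by
    apply Rb.mono
    · r_bd
    · norm_num
  have h5 : Y u (48 * ms + 900) ≤ (2 * (2 ^ KX u ms - 1) + 1) ^ 3 := by
    have := one_le_Y u (48 * ms + 900)
    rw [two_KX]
    exact le_trans (by omega) (Nat.le_self_pow three_ne_zero _)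
  exact (div_le_div_of_nonneg_right h2 (Nat.cast_nonneg _)).trans
    ((Sm.divn h3 h5 (by omega)).le1 (by norm_num) (by omega))

/-- **the word seen by G1**, without (`mt = m + 1`) or with (`mt = m + 2`) a cover. -/
theorem gwX {m mt d nc R k : ℕ} {Yp : ℝ} (hm : m ≤ ms + 1) (hd : d ≤ 4) (h0 : 0 ≤ Yp)
    (h1 : Yp ≤ Yt u ms) (hk : k ≤ 48 * ms + 1000)
    (h : mt = m + 1 ∧ nc = 0 ∨ mt = m + 2 ∧ nc ≤ (ctm + 1) * ca ∧ R ≤ Rr u m 37) :
    C9.Gw C.W (GT β w sy) C.Q (gs u mt) Yp (s u k) d m nc R (KX u ms) (Y u 2) := by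
  have hu := C.hu
  have hb := C.bg
  have a0 : 1 ≤ mt ∧ mt ≤ ms + 3 := by omega
  have a1 : 2 * Y u (48 * mt) < L := lt_of_lt_of_le (by tier! (48 * mt)) (C.le_L (k := 48 * mt + 1) (by omega))
  have a2 : (ctm + 2) * ca ≤ cqf := by
    have := Nat.mul_le_mul_right ca (show ctm + 2 ≤ 27 * (ctm + 1) by omega)
    rw [mul_assoc] at this
    unfold cqf cN0 cN; omega
  have a3 := one_le_Y u (48 * ms + 900)
  refine ⟨C.wr h0 h1, C.wd.nu ((gh_gs u mt).nu0 hb _ (Nat.add_le_add_left one_le_two _)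
    ((show 4 ≤ 10 ^ 30 by norm_num).trans (num_le hu 1)) (gs_ok hb a0.1 a1)) le_rfl _,
    ⟨show ck0 + 27 + d ≤ ctm + 1 by unfold ctm; omega, fun l _ => ⟨a2,
      (rad_le hb _ 12 le_rfl (show ctm + 1 ≤ _ by omega)).trans (Sx_le hb l), ?_⟩,
      h.imp id fun h => ⟨h.1, h.2.1.trans (le_trans (Nat.mul_le_mul_right _ (by omega)) a2),
        h.2.2.trans ((Rr_le hb le_rfl).trans (Sx_le hb m))⟩, fun l hl => ?_⟩, ?_, C.er hk⟩
  · have := hb.tm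
    change 4 * x u l 15 + 3 * (ctm + 1) * x u l 20 ≤ x u (l + 1) 0
    tier! (48 * l + 11 + 20)
  · have b1 := (gh_gs u mt).η_le hb l
    have b2 : l < mt := hl
    have b3 : (gs u mt).η l < Y u (48 * ms + 900) := by tier! (48 * l + 5)
    rw [two_KX]; omega
  · have b1 : 2 * Y u (48 * ms + 900) < Y u (48 * ms + 1000) := by tier! (48 * ms + 900)
    have := C.hL
    rw [two_KX]; omega

theorem xcX : C.XC := fun m hm => ⟨_, _, C.gwX hm (by omega)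
  (le_trans (by norm_num) (half_le_Yt C.hu ms)) le_rfl (by omega)
  (.inr ⟨rfl, le_rfl, Rr_mono u m (by omega)⟩), C.zmX (by omega)⟩

/-- **joint (F)** from the cell claims and `F2A`. -/
theorem jf (z : Tor 3 L) (hA : C.JA z) (hB : C.JB z) : C.JF z := C.jf_of z hA hB C.xcX

end Crest.Agent.N337.M.Ctx
end

-- ▼ part N337/M/Jd
section

/-!
# Row 337 (helper78): joint (D), the ladder of level one on the final objects
-/

set_option autoImplicit false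
set_option linter.unusedSectionVars false

namespace Crest.Agent.N337.M.Ctx

open Finset Crest.Agent.N337.Free Crest.Agent.N337.Gas Crest.Agent.N337.A Crest.Agent.N337.Top
  Crest.Agent.N337.Par

variable {L n : ℕ} [NeZero L] [NeZero n] {u ms w : ℕ} {β : ℝ} {sy : List (Sl L n × Sl L n × ℝ)}
  (C : Ctx u ms β w sy) (z : Tor 3 L)

/-- joint (C) without cover at scale `0`. -/
def XD : Prop := ∃ K j, C9.Gw C.W (GT β w sy) C.Q (gs u 1) (Yt u ms) (s u 8) 2 0 0 0 K j ∧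
  C9.zm (Yt u ms) K ≤ s u 8

lemma Tf_one (u : ℕ) : Tf u 1 = Y u 37 := by
  rw [Tf_ne one_ne_zero, show tb 1 + 6 = 37 by rw [tb_eq]]

lemma yl_one (u : ℕ) : yl u 1 = Real.exp (-1 / (Y u 37 : ℕ)) := by
  rw [yl, if_neg one_ne_zero, Tf_one]

lemma Y38_le (u ms : ℕ) : Real.exp (-1 / (Y u 38 : ℕ)) ≤ Yt u ms := by
  rw [Yt, neg_div, neg_div]
  exact Real.exp_le_exp.2 (neg_le_neg (one_div_le_one_div_of_le (Yr_pos _ _)
    (Nat.cast_le.2 (Y_mono (by omega)))))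

/-- **joint (D).** -/
theorem jd_of (hA : C.JA z) (hB : C.XB z) (hD : C.XD) : C.JD z := by
  obtain ⟨K, i, g, hz⟩ := hD
  have y1 : yl u 1 ≤ Yt u ms := yl_le (by omega)
  have t1 := Rung.tB_le (kd := ck0 + 27) (k := cK) (j := 0)
  rw [← ctm_eq] at t1
  have f : ∀ Yp, 0 ≤ Yp → Yp ≤ Yt u ms → C9.F2A (C9.ppI (GT β w sy) C.Q z C.hT C.ptX)
      (PP n u ms β z).Sd Yp 1 0 0 0 0 (Par.eps u 0) := fun Yp a b =>
    (hB 0 (by omega) Yp 1 0 a b (by omega) (Nat.zero_le _)).zero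
  have c := hA 0 (by omega) _ (yl_mono u (Nat.zero_le 1)) y1
  have f1 := f _ (yl_nn u 1) y1
  rw [yl_one] at f1
  have c' := c
  unfold Ctx.Cel at c'
  rw [yl_one] at c'
  exact (ladO (P := PP n u ms β z) (G := GT β w sy) C.bg ⟨C.B1, C.B2⟩ C.hT C.ptX rfl
    (Tf_one u)
    (le_trans (Nat.add_le_add_left (by omega) _) t1) Rung.tQ_le c' (nx2 u 0) f1
    (f _ (le_trans (by norm_num) (half_le_Yt C.hu ms)) le_rfl) g (Y38_le u ms) C.bg.Cg hz
    le_rfl).lad C.ok Tf_nn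

theorem xd : C.XD := ⟨_, _, C.gwX (m := 0) (by omega) (by omega)
  (le_trans (by norm_num) (half_le_Yt C.hu ms)) le_rfl (by omega) (.inl ⟨rfl, rfl⟩),
  C.zmX (by omega)⟩

/-- **joint (D)** from the cell claims and `F2A`. -/
theorem jd (hA : C.JA z) (hB : C.JB z) : C.JD z := C.jd_of z hA hB C.xd

end Crest.Agent.N337.M.Ctx
end

-- ▼ part N337/M/LadI
section

/-!
# Row 337, the chain (helper62): the ladder and the boxes on the concrete rung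
-/

set_option autoImplicit false
set_option linter.unusedSectionVars false

namespace Crest.Agent.N337.M

open Finset Crest.Agent.N337.Gas Crest.Agent.N337.A Crest.Agent.N337.Ld Crest.Agent.N337.Free

/-- parameters of the ladder of one level: depth, living cells (`nD` at the scale of the ladder,
`nB` in a box), anchors and their range, radii of the box step, probabilities. -/
structure LdQ where
  k : ℕ
  nD : ℕ
  nB : ℕ
  nA : ℕ
  rA : ℕ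
  R0 : ℕ
  R1 : ℕ
  R2 : ℕ
  R3 : ℕ
  Nn : ℕ → ℝ
  /-- cells of the ladder, children of a cell, cells of the boxes -/
  ε : ℝ
  εn : ℝ
  εb : ℝ
  π0 : ℝ
  π : ℝ
  δ : ℝ

/-- numbers of the boxes of level `j + 1 = 3 (m + 1)`; `t` = top rung. -/
structure BxN {Λ : Type} (P : Par Λ) (Q : I.Num) (n : ℕ) (E : LdQ) (j t : ℕ) : Prop where
  card : n * (2 * P.bx (j + 1) + 1) ^ 3 ≤ P.N j
  few : P.bx (j + 1) + locN Q (j / 3) + 1 + 3 * t * Q.H (j / 3) ≤ Q.ρ (j / 3 + 1)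
  nB1 : (2 * (P.bx (j + 1) + locN Q (j / 3) + 1) + 1) ^ 3 ≤ E.nB
  nB2 : P.N j * (2 * (locN Q (j / 3) + 1) + 1) ^ 3 ≤ E.nB
  rA : E.R3 + locN Q (j / 3) ≤ E.rA
  nc : (t + 1) * Q.a ≤ P.nc
  tI : Q.k0 + 27 + 2 ≤ P.tI j
  r0 : Q.rad (j / 3) t ≤ E.R0
  r1 : E.R0 ≤ E.R1
  r2 : E.R1 ≤ E.R2
  r3 : E.R2 ≤ E.R3
  r4 : E.R3 ≤ P.R j
  hN : P.N j ≤ P.N (j + 1)
  n1 : P.N j * (3 * E.nB * E.εb) + (P.N (j + 1) * (3 * E.nD * E.ε) + P.nc * E.nA * E.π0) ≤ 1 / 100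
  n2 : 4 * P.N j * (P.N j * (3 * E.nB * E.εb)) ≤ (2 * (1 / 100)) ^ 2

/-- **numbers of the ladder** of level `j + 1 ≥ 2`. -/
structure LdI {Λ : Type} (P : Par Λ) (Q : I.Num) (n : ℕ) (E : LdQ) (j : ℕ) : Prop where
  ldn : LdN 27 E.k E.nD E.Nn (3 * E.nD * E.ε) E.π E.δ
  tQ : P.tQ (j + 1) ≤ P.tP (j + 1) + 27
  d : Q.k0 + 27 + 3 ≤ Q.tm
  t : P.tB (j + 1) 27 E.k + 2 ≤ Q.tm
  nD : P.N (j + 1) * (2 * (locN Q ((j + 1) / 3) + 1) + 1) ^ 3 ≤ E.nD
  π0 : 0 ≤ E.π0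
  εn : 0 ≤ E.εn
  loc : (j + 1) / 3 = 0 → Q.ρ 0 ≤ E.rA ∧ 3 * E.nD * E.ε + E.nA * E.π0 ≤ E.π
  cov : ∀ m, (j + 1) / 3 = m + 1 → Q.rad m (P.tB (j + 1) 27 E.k) + locN Q m ≤ E.rA ∧
    9 * P.tB (j + 1) 27 E.k * Q.H m ≤ 2 * Q.ρ (m + 1) ∧
    4 * E.nD * E.ε + 81 * E.εn + 27 * (P.tB (j + 1) 27 E.k * Q.a) * E.nA * E.π0 ≤ E.π
  box : (j + 1) % 3 = 0 → BxN P Q n E j (P.tB (j + 1) 27 E.k)
  off : (j + 1) % 3 ≠ 0 → P.N (j + 1) ≤ P.N j ∧ P.tB (j + 1) 27 E.k ≤ P.tI j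

namespace Par

section claims
variable {Λ : Type} [Fintype Λ] [DecidableEq Λ] {T : ℕ} [NeZero T] {X α κ : Type} [Fintype X]
  [DecidableEq X] [SemilatticeSup α] [Preorder κ] (P : Par Λ) (I : Ins T Λ X α κ) (G : Bs T Λ)

/-- **cell claims of the ladder** of level `j + 1`. -/
structure LdC (E : LdQ) (j : ℕ) : Prop where
  f : ∀ W, (P.lev I G).AdmW j W → F123 I G P.Sd ((P.lev I G).y j) ((P.lev I G).y (j + 1))
    (P.Ek I G j W) (fun _ => ∅) 0 ((j + 1) / 3) 0 0 0 0 0 E.ε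
  f4 : ∀ W, (P.lev I G).AdmW j W →
    F4 I G (P.Sn (j + 1)) ((P.lev I G).y (j + 1)) (P.mu I G j W) 1 ((j + 1) / 3) E.π0
  anc : Anc I G P.Sd 2 ((j + 1) / 3) E.rA E.nA
  g1 : ∀ m, (j + 1) / 3 = m + 1 → N1 I G P.Sd ((P.lev I G).y j) 0 m E.εn
  g2 : ∀ m, (j + 1) / 3 = m + 1 → N2 I G P.Sd ((P.lev I G).y (j + 1)) 1 m E.εn
  g3 : ∀ m, (j + 1) / 3 = m + 1 → ∀ W, (P.lev I G).AdmW j W →
    N3 I G P.Sd (P.Ek I G j W) 0 m E.εn
  fb : (j + 1) % 3 = 0 → ∀ W, (P.lev I G).AdmW j W →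
    F123 I G P.Sd ((P.lev I G).y j) ((P.lev I G).y (j + 1)) (P.Ek I G j W) (fun _ => ∅) 0 (j / 3)
      P.nc E.R0 E.R1 E.R2 E.R3 E.εb

/-- the second half of `LadD`. -/
def LadH2 (j : ℕ) : Prop :=
  ∃ st k nD Nn ε π0 π δ, P.LdP I G j st k nD Nn ε π0 π δ ∧
    if (j + 1) % 3 = 0 then ∃ t1 R0 R1 R2 R3 nD' nA nP ε',
      P.BxP I G j (P.tB (j + 1) st k) nD ε π0 t1 R0 R1 R2 R3 nD' nA nP ε'
    else P.N (j + 1) ≤ P.N j ∧ P.tB (j + 1) st k ≤ P.tI j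

end claims

variable {L n T : ℕ} [NeZero L] [NeZero n] [NeZero T] {P : Par (Tor 3 L × Fin n)} {Q : I.Num}
  {G : Bs T (Tor 3 L × Fin n)} {ex ey : Fin T → Tor 3 L × Fin n} {z0 : Tor 3 L} {E : LdQ} {j : ℕ}

lemma alv_ins {N m nD : ℕ} (h : N * (2 * (locN Q m + 1) + 1) ^ 3 ≤ nD) :
    AlvH (I.ins ex ey Q z0) N m nD :=
  (I.alvH ex ey Q z0 N m).mono le_rfl (le_of_eq_of_le (by rw [← loc_ins ex ey Q z0]; rfl) h)

theorem LdC.ldP (c : P.LdC (I.ins ex ey Q z0) G E j) (a : LdI P Q n E j) :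
    P.LdP (I.ins ex ey Q z0) G j 27 E.k E.nD E.Nn E.ε E.π0 E.π E.δ := by
  refine ⟨⟨c.f, a.π0, c.f4, alv_ins a.nD, ⟨le_trans (Nat.le_add_right _ 2) a.d, a.t, le_rfl, le_rfl,
    le_rfl⟩⟩, ?_, a.ldn, a.tQ⟩
  rcases h : (j + 1) / 3 with _ | m
  · refine .inl ⟨E.nA, c.anc.mono (fun _ h => h) ?_ le_rfl, (a.loc h).2⟩
    rw [h]; exact (a.loc h).1
  · obtain ⟨a1, a2, a3⟩ := a.cov m h
    refine .inr ⟨m, E.nA, 27, E.εn, h, (h ▸ c.anc).mono (fun _ h => h) ?_ le_rfl, a.εn, c.g1 m h,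
      c.g2 m h, c.g3 m h, cov_ins ex ey Q z0 a2, le_rfl, le_of_eq_of_le ?_ a3⟩
    · change _ + _ + _ * (_ * (Q.a : ℝ)) * _ * _ = _
      push_cast; ring
    · rw [loc_ins]; exact a1

theorem LdC.bxP (hd : ∀ x z, G.d x z = tdist x.1 z.1) (c : P.LdC (I.ins ex ey Q z0) G E j)
    (a : LdI P Q n E j) (h : (j + 1) % 3 = 0) :
    P.BxP (I.ins ex ey Q z0) G j (P.tB (j + 1) 27 E.k) E.nD E.ε E.π0 (Q.k0 + 27) E.R0 E.R1 E.R2 E.R3
      E.nB E.nA 1 E.εb := by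
  have b := a.box h
  have e : (j + 1) / 3 = j / 3 + 1 := by omega
  refine ⟨pi_surj ex ey Q z0, fun B hB => ?_, alv_ins b.nB2,
    (e ▸ c.anc).mono (fun _ h => h) (by rw [loc_ins]; exact b.rA) le_rfl, c.fb h,
    ⟨le_trans (Nat.le_add_right _ 2) a.d, a.d, b.r1, b.r2, b.r3⟩, (one_mul _).trans_le b.nc, le_rfl,
    b.tI, b.r0, b.r4, b.hN, b.n1, b.n2⟩
  simp only [hd] at hB
  refine ⟨(card_diam hB).trans b.card, fun Z => (few_box ex ey Q z0 hB ?_ Z).mono le_rfl ?_⟩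
  · rw [loc_ins]; exact b.few
  · rw [loc_ins]; exact b.nB1

/-- **the second half of `LadD`.** -/
theorem LdC.ladH2 (hd : ∀ x z, G.d x z = tdist x.1 z.1) (c : P.LdC (I.ins ex ey Q z0) G E j)
    (a : LdI P Q n E j) : P.LadH2 (I.ins ex ey Q z0) G j := by
  refine ⟨_, _, _, _, _, _, _, _, c.ldP a, ?_⟩
  split_ifs with h
  exacts [⟨_, _, _, _, _, _, _, _, _, c.bxP hd a h⟩, a.off h]

end Par

end Crest.Agent.N337.M
end

-- ▼ part N337/Par/Lad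
section

/-!
# Row 337 (helper62): the ladder and the boxes on the tiers
-/

set_option autoImplicit false
set_option linter.unusedSectionVars false

namespace Crest.Agent.N337.Par.Lad

open Finset Crest.Agent.N337.Free Crest.Agent.N337.Gas Crest.Agent.N337.A Crest.Agent.N337.Top
  Crest.Agent.N337.M Crest.Agent.N337.Ld

/-- tier of the reset probability. -/
def ti (j : ℕ) : ℕ := 48 * ((j + 1) / 3) - 12 + 1

/-- the parameters of the ladder of level `j + 1`. -/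
noncomputable def ldQ (u j : ℕ) : LdQ where
  k := cK
  nD := Y u (48 * ((j + 1) / 3) + 53)
  nB := Y u (48 * (j / 3) + 53)
  nA := Y u (tb j + 1)
  rA := Y u (tb j)
  R0 := Rr u (j / 3) 0
  R1 := Rr u (j / 3) 1
  R2 := Rr u (j / 3) 2
  R3 := Rr u (j / 3) 3
  Nn l := (Y u (ti j) : ℝ) ^ (cK + 1) / (Y u (ti j) : ℝ) ^ l
  ε := eps u ((j + 1) / 3)
  εn := s u (48 * ((j + 1) / 3) + 11) ^ 1000
  εb := eps u (j / 3)
  π0 := s u (tb j + 2)
  π := s u (ti j) ^ 2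
  δ := 1 / Y u (ti j)

variable {L n : ℕ} [NeZero L] [NeZero n] {u ms w j Dw l : ℕ} {β : ℝ} {z : Tor 3 L}

omit [NeZero n] in
lemma locN_le (h : Bg n u) (m : ℕ) : locN (num h Dw 12) m ≤ Y u (48 * m + 12) := by
  have hu := h.hu
  have : ∀ m, locN (num h Dw 12) m ≤ 2 * x u m 0 := fun m => by
    induction m with
    | zero => exact Nat.le_mul_of_pos_left _ two_pos
    | succ m ih =>
      have h1 : 2 * x u m 0 ≤ x u (m + 1) 0 := by tier! (48 * m + 11)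
      change x u (m + 1) 0 + _ ≤ _
      omega
  exact (this m).trans (by tier! (48 * m + 11))

lemma sm_eps (u m : ℕ) : Sm u (48 * m + 59) 0 (eps u m) := Sm.s (by omega)

omit [NeZero n] in
theorem ldI (h : Bg n u) (hj : j ≠ 0) :
    LdI (lev n β u (rt u) z l) (num h Dw 12) n (ldQ u j) j := by
  have hu := h.hu
  have hn := h.hn
  have hK := h.K
  have htm := h.tm
  have ha := h.a
  have e := tb_eq j
  obtain ⟨t, ht⟩ : ∃ t, t = (lev n β u (rt u) z l).tB (j + 1) 27 (ldQ u j).k := ⟨_, rfl⟩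
  have t1 : t + 10 ≤ ctm := by rw [ht, ctm_eq]; exact Rung.tB_le (j := j)
  have t2 : t ≤ Y u 0 := by omega
  have s1 := sm_eps u ((j + 1) / 3)
  have l1 := locN_le (Dw := Dw) h ((j + 1) / 3)
  have a1 : Sm u (48 * ((j + 1) / 3) + 59) 5
      (3 * (Y u (48 * ((j + 1) / 3) + 53) : ℝ) * eps u ((j + 1) / 3)) :=
    Sm.mono (by s_bd) (by norm_num)
  refine ⟨Rung.ldN_Y (c := 70) (i' := 0) hu le_rfl (by unfold ti; omega) hK cK_eq.ge (pow_pos (s_pos _ _) _).le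
      le_rfl (Y_mono (by unfold ti; omega)) (a1.le1 (by norm_num) (by omega)), Rung.tQ_le,
    show ck0 + 27 + 3 ≤ ctm by unfold ctm; omega,
    ht ▸ (show t + 2 ≤ ctm by omega), ?_, (s_pos _ _).le, (pow_pos (s_pos _ _) _).le,
    fun hm => ⟨Y_mono (by omega), ?_⟩, fun m hm => ht ▸ ⟨?_, ?_, ?_⟩, fun h3 => ht ▸ ?_,
    fun h3 => ⟨Y_mono (by omega), (Rung.tB_eq (j := j) (by omega)).le⟩⟩
  · change Y u (48 * ((j + 1) / 3) + 52) * _ ≤ Y u (48 * ((j + 1) / 3) + 53)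
    tier! (48 * ((j + 1) / 3) + 52)
  · have a2 : Sm u (tb j + 1) 5 ((Y u (tb j + 1) : ℝ) * s u (tb j + 2)) :=
      Sm.mono (by s_bd) (by norm_num)
    change 3 * (Y u (48 * ((j + 1) / 3) + 53) : ℝ) * eps u ((j + 1) / 3) +
      (Y u (tb j + 1) : ℝ) * s u (tb j + 2) ≤ s u (ti j) ^ 2
    unfold ti
    sm! 1
  · have b1 := (rad_le h Dw 12 le_rfl (m := m) (t := t) (by omega)).trans (Sx_le h m)
    have b2 := locN_le (Dw := Dw) h m
    change _ ≤ Y u (tb j)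
    tier! (48 * m + 24)
  · change 9 * t * x u m 20 ≤ 2 * x u (m + 1) 0
    exact le_trans (by tier! (48 * m + 31)) (Nat.le_mul_of_pos_left _ two_pos)
  · have a2 : Sm u (tb j + 1) 9 (27 * ((t : ℝ) * ca) * (Y u (tb j + 1) : ℝ) * s u (tb j + 2)) :=
      Sm.mono (by s_bd) (by norm_num)
    have a3 : Sm u (48 * ((j + 1) / 3) + 59) 5
        (4 * (Y u (48 * ((j + 1) / 3) + 53) : ℝ) * eps u ((j + 1) / 3)) :=
      Sm.mono (by s_bd) (by norm_num)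
    have a4 : Sm u (48 * m + 58) 0 (s u (48 * ((j + 1) / 3) + 11) ^ 1000) :=
      .of_le (pow_pos (s_pos _ _) _).le
        (pow_le_of_le_one (s_pos _ _).le (s_le_one _ _) (by norm_num)) (by omega)
    change 4 * (Y u (48 * ((j + 1) / 3) + 53) : ℝ) * eps u ((j + 1) / 3) +
      81 * s u (48 * ((j + 1) / 3) + 11) ^ 1000 +
      27 * ((t : ℝ) * ca) * (Y u (tb j + 1) : ℝ) * s u (tb j + 2) ≤ s u (ti j) ^ 2
    unfold ti
    sm! (48 * m + 37)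
  · have b2 := locN_le (Dw := Dw) h (j / 3)
    have s2 := sm_eps u (j / 3)
    have a2 : Sm u (48 * (j / 3) + 59) 9 ((Y u (48 * (j / 3) + 52) : ℝ) *
        (3 * (Y u (48 * (j / 3) + 53) : ℝ) * eps u (j / 3))) := Sm.mono (by s_bd) (by norm_num)
    refine ⟨?_, ?_, ?_, ?_, ?_, Nat.mul_le_mul_right _ (show t + 1 ≤ ctm + 1 by omega), Rung.le_tI,
      Nat.mul_le_mul_right _ (Nat.pow_le_pow_right (by omega) (by omega)), Rr_mono _ _ (by omega),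
      Rr_mono _ _ (by omega), Rr_mono _ _ (by omega), le_rfl, Y_mono (by omega), ?_, ?_⟩
    · change n * (2 * Y u (48 * ((j + 1) / 3) + 3) + 1) ^ 3 ≤ Y u (48 * (j / 3) + 52)
      tier! (48 * (j / 3) + 51)
    · change Y u (48 * ((j + 1) / 3) + 3) + _ + 1 + 3 * t * x u (j / 3) 20 ≤ x u (j / 3 + 1) 0
      tier! (48 * (j / 3) + 51)
    · change (2 * (Y u (48 * ((j + 1) / 3) + 3) + _ + 1) + 1) ^ 3 ≤ Y u (48 * (j / 3) + 53)
      tier! (48 * (j / 3) + 51)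
    · change Y u (48 * (j / 3) + 52) * _ ≤ Y u (48 * (j / 3) + 53)
      tier! (48 * (j / 3) + 52)
    · have b3 := (Rr_le h (m := j / 3) (i := 3) (by omega)).trans (Sx_le h _)
      change Rr u (j / 3) 3 + _ ≤ Y u (tb j)
      generalize Rr u (j / 3) 3 = a at b3 ⊢
      tier! (48 * (j / 3) + 24)
    · have a3 : Sm u (48 * ((j + 1) / 3) + 59) 9 ((Y u (48 * ((j + 1) / 3) + 52) : ℝ) *
          (3 * (Y u (48 * ((j + 1) / 3) + 53) : ℝ) * eps u ((j + 1) / 3))) :=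
        Sm.mono (by s_bd) (by norm_num)
      have a4 : Sm u (tb j + 1) 9 ((((ctm + 1) * ca : ℕ) : ℝ) * (Y u (tb j + 1) : ℝ) *
          s u (tb j + 2)) := Sm.mono (by s_bd) (by norm_num)
      refine le_trans (?_ : (Y u (48 * (j / 3) + 52) : ℝ) *
        (3 * (Y u (48 * (j / 3) + 53) : ℝ) * eps u (j / 3)) + ((Y u (48 * ((j + 1) / 3) + 52) : ℝ) *
          (3 * (Y u (48 * ((j + 1) / 3) + 53) : ℝ) * eps u ((j + 1) / 3)) +
          (((ctm + 1) * ca : ℕ) : ℝ) * (Y u (tb j + 1) : ℝ) * s u (tb j + 2)) ≤ 1 / 10 ^ 30)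
        (by norm_num)
      sm! 1
    · refine le_trans (?_ : 4 * (Y u (48 * (j / 3) + 52) : ℝ) * ((Y u (48 * (j / 3) + 52) : ℝ) *
        (3 * (Y u (48 * (j / 3) + 53) : ℝ) * eps u (j / 3))) ≤ 1 / 10 ^ 30) (by norm_num)
      sm! (48 * (j / 3) + 59)

variable {sy : List (Sl L n × Sl L n × ℝ)} (C : Ctx u ms β w sy) (z : Tor 3 L)

/-- anchors: sharp speed. -/
theorem ancL (hj : j ≠ 0) : Anc (C.I z) (GT β w sy) (PP n u ms β z).Sd 2 ((j + 1) / 3)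
    (Y u (tb j)) (Y u (tb j + 1)) := by
  have h := C.bg
  have hu := h.hu
  have hn := h.hn
  have hB := C.B2
  have htm := h.tm
  have e := tb_eq j
  refine (Rg.anc (G := GT β w sy) (P := C.Q) (z0 := z) (τ := ctm) C.wd.nn C.hT
    ⟨ll_pos u, by change ck0 + 27 + 2 ≤ ctm; unfold ctm; omega, le_rfl,
      hρ h _ 12 le_rfl (Nat.le_add_right _ _), hJ h _ 12 le_rfl (Nat.le_add_right _ _)⟩ _ _).mono
    (fun _ h => h) le_rfl ?_
  have a1 := lw_le' h (M.Dw w sy) (le_refl 12) (τ := ctm) (Nat.le_add_right _ _) ((j + 1) / 3)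
  change Bw β * (n * (2 * (Y u (tb j) + 1 + (2 * ctm * Y u 1 + C.Q.lw ctm ((j + 1) / 3))) + 1) ^ 3) ≤ _
  generalize C.Q.lw ctm ((j + 1) / 3) = a at a1
  generalize Bw β = B at hB
  tier! (tb j)

/-- **F4** for the top colour of level `j + 1`. -/
theorem f4L (hj : j ≠ 0) {hp : C9.PtN C.Q.toLf (Bw β)} {K j' : ℕ} {e : ℝ}
    (f : C9.F2A (C9.ppI (GT β w sy) C.Q z C.hT hp) (PP n u ms β z).Sd (yl u (j + 1)) 1 ((j + 1) / 3)
      0 0 0 (eps u ((j + 1) / 3)))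
    (g : C9.Gw C.W (GT β w sy) C.Q (gs u ((j + 1) / 3 - 1 + 2)) (yl u (j + 1)) e 2 ((j + 1) / 3) 0 0 K j')
    (hz : C9.zm (Yt u ms) K ≤ s u (tb j + 3)) (he : e ≤ s u (tb j + 3))
    {W : Lp (TT β w sy) (Sl L n) → ℝ} (hW : (C.V z).AdmW j W) :
    F4 (C.I z) (GT β w sy) ((PP n u ms β z).Sn (j + 1)) (yl u (j + 1))
      ((PP n u ms β z).mu (C.I z) (GT β w sy) j W) 1 ((j + 1) / 3) (s u (tb j + 2)) := by
  have h := C.bg
  have hu := h.hu
  have hn := h.hn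
  have et := tb_eq j
  obtain ⟨m, hm⟩ : ∃ m, m = (j + 1) / 3 - 1 := ⟨_, rfl⟩
  obtain ⟨i, hi⟩ : ∃ i, tb j + 2 = 48 * m + 11 + i := ⟨tb j + 2 - (48 * m + 11), by omega⟩
  rw [← hm] at g
  have z0 : 0 ≤ C9.zm (Yt u ms) K := by
    have := Yt_lt u ms
    exact div_nonneg (div_nonneg (by norm_num) (by linarith)) (Nat.cast_nonneg _)
  have a3 := Xc.γd_le (m := m) (Yw := Yt u ms) (K := K) (e := s u (tb j + 3)) (i := i) h h.Cg
    (by omega) (.of_le z0 hz (by omega)) (.s (by omega))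
  have a4 : 4 * x u m 15 ≤ x u m (i + 1) := by tier! (48 * m + 11 + 15)
  have a5 : Sm u (48 * ((j + 1) / 3) + 59) 10
      ((Y u (48 * ((j + 1) / 3) + 53) : ℕ) * eps u ((j + 1) / 3)) := by
    have := sm_eps u ((j + 1) / 3)
    exact Sm.mono (by s_bd) (by norm_num)
  have a6 : Sm u (tb j + 5) 50 (3 / Tf u j * C9.Vn n (x u m (i + 1))) := by
    rw [Tf_ne hj, div_mul_eq_mul_div, C9.Vn]
    exact Sm.mono (by s_bd) (by norm_num)
  refine C9.f4_far (hp := hp) (hT := C.hT) ⟨g.w, g.nu, g.sc, g.hL, g.he.trans he⟩ (s_pos _ _).le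
    (show ck0 + 27 + 1 ≤ ctm by unfold ctm; omega)
    ((I.alvH _ _ _ z _ _).mono le_rfl (nD_le h le_rfl z _)) f (one_le_Y _ _) a4 le_rfl a3.1
    (M.Tf_pos u hj) ?_ hW
  change C9.γd (8 * n ^ 2) (Yt u ms) _ (gs u (m + 2)) (Y u 0) K (x u m (i + 1)) +
    (Y u (48 * ((j + 1) / 3) + 53) : ℕ) * eps u ((j + 1) / 3) + _ ≤ _
  generalize 3 / Tf u j * C9.Vn n (x u m (i + 1)) = c at a6
  generalize (Y u (48 * ((j + 1) / 3) + 53) : ℕ) * eps u ((j + 1) / 3) = b at a5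
  generalize C9.γd _ _ _ _ _ _ _ = a at a3
  rw [hi]
  sm! (48 * m + 11 + i)

theorem ldC (hj : j ≠ 0) (hj' : j ≤ 3 * ms + 3) (hA : C.JA z) (hN : C.JC z)
    (f4 : ∀ W, (C.V z).AdmW j W → F4 (C.I z) (GT β w sy) ((PP n u ms β z).Sn (j + 1))
      (yl u (j + 1)) ((PP n u ms β z).mu (C.I z) (GT β w sy) j W) 1 ((j + 1) / 3) (s u (tb j + 2))) :
    (PP n u ms β z).LdC (C.I z) (GT β w sy) (ldQ u j) j := by
  have yy := yl_mono u (Nat.le_succ j)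
  have y1 : yl u (j + 1) ≤ Yt u ms := yl_le (by omega)
  have c := fun m (h1 : 3 * m ≤ j + 1) => hA m (by omega) _ (yl_mono u h1) y1
  have c' := fun m (h1 : (j + 1) / 3 = m + 1) => hN m (by omega) _
    (yl_mono u (show 3 * m + 3 ≤ j + 1 by omega)) y1
  refine ⟨fun W hW => ((c _ (by omega)).eK (Ctx.nx2 u _) (yl_nn _ _) yy
      (fun g => ⟨(hW g).1, (hW g).2.1⟩) fun h => Ctx.thin hW (by omega) (by omega)).zero, f4,
    ancL C z hj, fun m h => ?_, fun m h => ?_, fun m h W hW => ?_, fun h W hW => ?_⟩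
  · have := (c' m h).n1 _ (yl_nn _ _) yy
    rwa [sx, ← h] at this
  · have := (c' m h).n2
    rwa [sx, ← h] at this
  · have := (c' m h).n3 _ _ (yl_nn _ _) yy
      (Ctx.thin hW (by omega) (by omega))
    rwa [sx, ← h] at this
  · have := (c (j / 3) (by omega)).eK (R := Rr u (j / 3) 0)
      (by rw [nx_Rr, nx_Rr]; exact Rr_mono _ _ (by norm_num)) (yl_nn _ _) yy
      (fun g => ⟨(hW g).1, (hW g).2.1⟩) fun h => Ctx.thin hW (by omega) (by omega)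
    rwa [nx_Rr, nx_Rr, nx_Rr] at this

/-- the word seen by G1 at the scale of the ladder of level `j + 1`. -/
def JG (j : ℕ) : Prop := ∃ K j' e, C9.Gw C.W (GT β w sy) C.Q (gs u ((j + 1) / 3 - 1 + 2)) (Yt u ms) e
  2 ((j + 1) / 3) 0 0 K j' ∧ C9.zm (Yt u ms) K ≤ s u (tb j + 3) ∧ e ≤ s u (tb j + 3)

/-- **the second half of `LadD`** on the final objects. -/
theorem ladH2 (hj : j ≠ 0) (hj' : j ≤ 3 * ms + 3) (hA : C.JA z) (hB : C.JB z) (hN : C.JC z)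
    (hG : JG C j) : (PP n u ms β z).LadH2 (C.I z) (GT β w sy) j := by
  obtain ⟨K, j', e, g, h1, h2⟩ := hG
  have y1 : yl u (j + 1) ≤ Yt u ms := yl_le (by omega)
  exact (ldC C z hj hj' hA hN fun W hW => f4L C z hj
    (hB _ (by omega) _ 1 0 (yl_nn _ _) y1 (by omega) (Nat.zero_le _)).zero
    (g.mono (yl_nn _ _) y1 le_rfl le_rfl le_rfl) h1 h2 hW).ladH2 (fun _ _ => rfl) (ldI C.bg hj)

end Crest.Agent.N337.Par.Lad
end

-- ▼ part N337/Par/Je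

/-!
# Row 337 (helper62): joint (E)
-/

set_option autoImplicit false
set_option linter.unusedSectionVars false

namespace Crest.Agent.N337.M.Ctx

open Crest.Agent.N337.Free Crest.Agent.N337.Top Crest.Agent.N337.Par

variable {n u ms w L j : ℕ} {β : ℝ} [NeZero L] [NeZero n] {sy : List (Sl L n × Sl L n × ℝ)}
  (C : Ctx u ms β w sy) (z : Tor 3 L)

lemma jg (hj : j ≤ 3 * ms + 3) : Lad.JG C j := by
  have e := tb_eq j
  refine ⟨_, _, _, C.gwX (k := tb j + 3) (by omega) (by omega)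
    (le_trans (by norm_num) (half_le_Yt C.hu ms)) le_rfl (by omega) ?_, C.zmX (by omega), le_rfl⟩
  rcases Nat.eq_zero_or_pos ((j + 1) / 3) with h | h
  · exact .inr ⟨by omega, Nat.zero_le _, Nat.zero_le _⟩
  · exact .inl ⟨by omega, rfl⟩

/-- the media of all levels (first half of `LadD`). -/
def JT : Prop := ∀ j, 1 ≤ j → j ≤ 3 * ms + 3 → ∃ Y ws near Z κ' ε0 ε q δ η R1 R2 nD Bn n1 n2 k0 Km,
  (PP n u ms β z).TkP (C.I z) (GT β w sy) j (s u (tb j + 2)) Y ws near Z κ' ε0 ε q δ η R1 R2 nD Bn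
    n1 n2 k0 Km

/-- **joint (E)** from the cell claims and the media. -/
theorem je_of (hA : C.JA z) (hB : C.JB z) (hC : C.JC z) (hT : C.JT z) : C.JE z :=
  fun j h1 h2 => ⟨hT j h1 h2, Lad.ladH2 C z (by omega) h2 hA hB hC (C.jg h2)⟩

end Crest.Agent.N337.M.Ctx
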