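import Crest.Agent.N337.Par.Sm
import Crest.Agent.N337.Par.G1s
import Crest.Agent.N337.M.LadP
import Crest.Agent.N337.C9.Fin
import Crest.Agent.N337.Par.Gw

-- ▼ part N337/Par/Gam
section

/-!
# Row 337 (helper7): gains of the key estimate and Green bounds on the tiers
-/

set_option autoImplicit false

namespace Crest.Agent.N337.Par.Tk

open Crest.Agent.N337.M Crest.Agent.N337.C9 Crest.Agent.N337.Free

variable {n u i j k b : ℕ}

lemma rb_c3 (hu : 100 ≤ u) (k : ℕ) : Rb u k 1 c3 := .num hu (by norm_num [c3, c1])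

/-- **the numbers of the key estimate**: `k` = base tier of the medium, `b` = tier of `N`. -/
theorem tkN' (hu : 100 ≤ u) (h1 : 1 ≤ k) (h2 : k + 2 ≤ b) (h3 : b ≤ k + 1000)
    {Y' e κ ε0 q : ℝ} {N nD Bn n1 n2 k0 Km : ℕ} (N1 : 1 ≤ N) (hN : N ≤ Y u b)
    (hD : nD ≤ Y u (b + 1)) (e0 : 0 < e) (he : e ≤ s u (b + 2)) (ε00 : 0 ≤ ε0)
    (hε : ε0 ≤ s u (b + 2)) (hB : Pb u (k + 2) 100 Bn) (hn1 : Pb u (k + 2) 100 n1)
    (hn2 : Pb u (k + 4) 100 n2) (hk0 : 2 ^ k0 = Y u (k + 5)) (hK : Km ≤ Y u (k + 1000))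
    (q0 : 0 < q) (hq : Sm u (k + 2) 1000 q) (κ0 : 0 ≤ κ) (hκ : κ ≤ s u (k + 2))
    (long : Y' ^ Km ≤ s u (b + 2)) :
    TkN (Y u (k + 6)) Y' e (s u (k + 2)) κ ε0 (s u (b + 1)) q (3 * s u (k + 6)) (s u (b + 2))
      N nD Bn n1 n2 k0 Km := by
  have a1 := Sm.of_le (k := b + 1) e0.le he (by omega)
  have a2 := Sm.of_le (k := b + 1) ε00 hε (by omega)
  have l1 := log_pb (k := k + 2) hu (by omega) hK (by omega)
  have l2 := log_pb (k := k + 2) hu (by omega) hN (by omega)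
  have c := rb_c3 hu 0
  refine ⟨N1, e0, Yr_pos _ _, κ0, ε00, s_pos _ _, q0, s_pos _ _, s_le_one _ _, ?_, ?_, ?_, long,
    ?_, hκ, ?_, ?_, ?_⟩
  · rintro rfl
    have := two_le_Y hu (k + 5)
    omega
  · sm! (b + 1)
  · rw [mul_assoc, s_mul, mul_one]
  · exact le_trans (by sm! (k + 1)) (show (1 : ℝ) / 10 ^ 30 ≤ _ by norm_num)
  · have e1 : (2 : ℝ) ^ k0 = Y u (k + 5) := by exact_mod_cast hk0
    have b1 : Sm u (k + 2) 0 (s u (k + 6) * Y u (k + 5)) :=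
      (Sm.mul' (k := k + 5) (by r_bd) (by s_bd)).down (by norm_num) (by omega)
    have b2 : Sm u (k + 2) 0 (24 * n2 / Y u (k + 5)) :=
      (Sm.divY (k := k + 4) (by r_bd) (by omega)).down (by norm_num) (by omega)
    rw [TK.κB, e1, show ∀ a : ℝ, a * (3 * s u (k + 6)) * Y u (k + 5) =
      a * 3 * (s u (k + 6) * Y u (k + 5)) from fun _ => by ring]
    sm! (k + 2)
  · have b1 : Sm u b 0 (√(s u (b + 2))) := Sm.sqrt (e := 0) (by s_bd) (by norm_num)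
    sm! b
  · have b1 : Sm u b 0 (√(33 * e)) := Sm.sqrt (by s_bd) (by norm_num)
    have b2 : Pb u b 100 Bn := hB.trans (Nat.pow_le_pow_left (Y_mono h2) _)
    have b3 : Pb u b 100 n1 := hn1.trans (Nat.pow_le_pow_left (Y_mono h2) _)
    have b4 : Pb u b 2 (Nat.log 2 Km) := l1.trans (Nat.pow_le_pow_left (Y_mono h2) _)
    rw [TK.cB, eT]
    sm! b

/-- **the cross Gram gain**: `a` = tier of the cells, `c` = tier of the zones. -/
theorem κc_le {a c m0 B Km nZ n3 τ : ℕ} {q q2 δ : ℝ} (hu : 100 ≤ u) (h1 : 1 ≤ a) (h2 : a < c)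
    (hi : i ≤ a) (hm : Pb u a 100 m0) (hB : B ≤ Y u (a + 999)) (hK : Km ≤ Y u (a + 999))
    (hZ : Pb u c 100 nZ) (h3 : Pb u c 100 n3) (hτ : Pb u c 100 τ) (hq : Sm u a 1000 q)
    (hq2 : Sm u c 1000 q2) (hδ : Sm u c 1000 δ) : Cr.κc m0 B Km nZ n3 τ q q2 δ ≤ s u i ^ 2 := by
  have l1 := log_pb hu h1 hK (by omega)
  have hm' : m0 ≤ Y u (a + 999) := hm.up (by norm_num) (by omega)
  have l2 := log_pb hu h1 (show 2 * Km * B * m0 ≤ Y u (a + 1000) by tier! (a + 999)) le_rfl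
  have v : Rb u a 105 (Cr.V0 m0 B Km) := by
    rw [Cr.V0]
    generalize Nat.log 2 (2 * Km * B * m0) = l at l2
    exact Rb.mono (by r_bd) (by norm_num)
  have b1 : Sm u a 0 (6 * q2 * (nZ * τ * n3)) := Sm.down (k' := c) (by s_bd) (by norm_num) h2
  have b2 : Sm u a 0 (δ * (2 * Cr.V0 m0 B Km ^ 2 + 2 + 3 * (nZ * τ * n3))) :=
    Sm.down (k' := c) (by s_bd) (by norm_num) h2
  rw [Cr.κc]
  sm! a

/-! ### Green bounds -/

/-- the largest number with `Sm u k 100`. -/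
noncomputable def gm (u k : ℕ) : ℝ := (Y u k : ℝ) ^ 100 * s u (k + 1)

lemma gm_pos (u k : ℕ) : 0 < gm u k := mul_pos (pow_pos (Yr_pos _ _) _) (s_pos _ _)
lemma sm_gm (u k : ℕ) : Sm u k 100 (gm u k) := ⟨(gm_pos u k).le, le_rfl⟩
lemma gm_anti {k' : ℕ} (h : k < k') : gm u k' ≤ gm u k :=
  (((sm_gm u k').down (by norm_num) h).mono (by norm_num)).2

lemma pb_Vn (h : Bg n u) {e r : ℕ} (hr : Pb u k e r) (he : e ≤ 30) : Pb u k 100 (Vn n r) := by
  have hu := h.hu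
  have hn := h.hn
  have := hr.mono he
  rw [Vn]
  exact Pb.mono (by p_bd) (by norm_num)

/-- the top scale of G1 is below the tier `k`. -/
def Sk (u k : ℕ) (S : G1.Scales) : Prop :=
  Rb u k 75 (S.K (S.mt - 1)) ∧ S.η (S.mt - 1) ≤ Y u k

lemma sk {S : G1.Scales} {l : ℕ} (h : Bg n u) (H : GH u i S) (hm : S.mt ≤ l + 2)
    (hk : 48 * l + 31 ≤ k) : Sk u k S := by
  have := H.i20
  unfold Sk
  obtain e | ⟨a, e⟩ : S.mt - 1 = 0 ∨ ∃ a, S.mt - 1 = a + 1 := by cases S.mt - 1 <;> simp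
  · rw [e]
    exact ⟨((H.K0 h).mono (by norm_num)).lift (by omega), (H.η_le h 0).trans (Y_mono (by omega))⟩
  · rw [e]
    exact ⟨(H.K h a).lift (by omega), (H.η a).2.trans (Y_mono (by omega))⟩


variable {S : G1.Scales} {κ Yw e : ℝ} {A K r : ℕ}

lemma Sk.mono {k' : ℕ} (h : Sk u k S) (hk : k ≤ k') : Sk u k' S :=
  ⟨h.1.lift hk, h.2.trans (Y_mono hk)⟩

lemma Sk.Cc (hu : 100 ≤ u) (h1 : 1 ≤ k) (h : Sk u k S) (hA : A ≤ Y u k)
    (hr : r ≤ Y u (k + 1000)) : Rb u k 90 (G1.Cc S A S.mt r) := by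
  have l := log_pb hu h1 hr le_rfl
  have := h.1
  rw [G1.Cc]
  generalize Nat.log 2 r = a at l
  exact Rb.mono (by r_bd) (by norm_num)

/-- **Green bound at distance `r`.** -/
theorem γd_le (hu : 100 ≤ u) (h1 : 1 ≤ k) (h : Sk u k S) (hA : A ≤ Y u k)
    (hκ : Rb u 0 1 (G1.Cg κ)) (hz : zm Yw K ≤ s u (k + 1)) (he : e ≤ s u (k + 1))
    (r1 : Y u (k + 1) ≤ r) (hr : r ≤ Y u (k + 1000)) : γd κ Yw e S A K r ≤ gm u k := by
  have c := h.Cc hu h1 hA hr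
  have := h.2
  refine le_trans (mul_le_mul_of_nonneg_left (add_le_add (add_le_add hz le_rfl) he) hκ.1) ?_
  exact (Sm.mono (by s_bd) (by norm_num)).2


end Crest.Agent.N337.Par.Tk
end

-- ▼ part N337/Par/Tk

/-!
# Row 337 (helper7): the key estimate over a medium on the tiers (`TkP`)
-/

set_option autoImplicit false

namespace Crest.Agent.N337.Par.Tk

open Crest.Agent.N337.M Crest.Agent.N337.C9 Crest.Agent.N337.Free

variable {n u i j k b : ℕ} {S : G1.Scales} {κ Yw e : ℝ} {A K r : ℕ}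

/-- bound of the winding numbers over the medium `j`. -/
def Km (u j : ℕ) : ℕ := Y u (tb (j + 1) + 6) ^ 2

lemma Km_le (j : ℕ) : Km u j ≤ Y u (tb (j + 1) + 7) :=
  Pb.up (k := tb (j + 1) + 6) (Pb.pow (.tier le_rfl)) (by norm_num) (by omega)

lemma Km_ne (u j : ℕ) : Km u j ≠ 0 := (pow_pos (Y_pos _ _) _).ne'

/-- long loops are rare at the next level. -/
lemma y_Km (hu : 100 ≤ u) (hk : k ≤ tb (j + 1) + 1000) :
    Real.exp (-1 / Tf u (j + 1)) ^ Km u j ≤ s u k := by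
  have := tb_eq (j + 1)
  refine le_of_eq_of_le ?_ (exp_Y_le (k := tb (j + 1) + 6) hu (by omega) (by omega))
  have := Yr_pos u (tb (j + 1) + 6)
  rw [← Real.exp_nat_mul, Tf_ne (by omega), Km]
  congr 1; push_cast; field_simp

/-- the purple fugacity: any number above `exp (- s u k)`, `k` a high tier. -/
lemma L1_of {Yt : ℝ} (hk : tb (j + 1) + 7 ≤ k) (h : Real.exp (-s u k) ≤ Yt) :
    1 ≤ 3 * Yt ^ Km u j := by
  have h1 : (Km u j : ℝ) * s u k ≤ 1 := by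
    rw [← s_mul u k, mul_comm]
    exact mul_le_mul_of_nonneg_left (by exact_mod_cast (Km_le j).trans (Y_mono hk)) (s_pos _ _).le
  have h2 : Real.exp (-1) ≤ Yt ^ Km u j := le_trans (by
    rw [← Real.exp_nat_mul]; exact Real.exp_le_exp.2 (by linarith))
    (pow_le_pow_left₀ (Real.exp_pos _).le h _)
  have h3 : Real.exp 1 * Real.exp (-1) = 1 := by rw [← Real.exp_add]; simp
  nlinarith [Real.exp_one_lt_d9, Real.exp_pos (-1)]

lemma y_le_of {Yt : ℝ} (hk : tb j + 6 ≤ k) (h : Real.exp (-s u k) ≤ Yt) :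
    (if j = 0 then 0 else Real.exp (-1 / Tf u j)) ≤ Yt := by
  split_ifs with h0
  · exact (Real.exp_pos _).le.trans h
  · refine le_trans (Real.exp_le_exp.2 ?_) h
    rw [Tf_ne h0, neg_div, one_div]
    exact neg_le_neg (s_anti hk)

lemma pkN (h : Bg n u) (Dw : ℕ) {Yt ε : ℝ} {d t R R1 Km : ℕ} (h1 : 1 ≤ 3 * Yt ^ Km) (e0 : 0 ≤ ε)
    (hd : d ≤ 100) (ht : t + 1 ≤ ctm) (hR : R ≤ R1) (hK : Km ≠ 0) :
    PkN (num h Dw 12) Yt 3 ε d t ctm R R1 Km :=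
  ⟨⟨ll_pos u, by change ck0 + 27 + d ≤ _; unfold ctm; omega, by omega, hρ h Dw 12 _ (by omega),
    hJ h Dw 12 _ (by omega)⟩, h1, e0, by change ck0 + 27 + d + 1 ≤ ctm; unfold ctm; omega, ht, hR, hK⟩

/-- **`TkM`** over the medium with base tier `k`. -/
theorem tkM (h : Bg n u) (Dw : ℕ) {B m nc R nD Km : ℕ} {ε : ℝ} (hB : B ≤ Y u 11) (hk : 12 < k)
    (hm : 48 * m - 23 < k) (hR : nc * (2 * R + 1) ≤ Y u (k - 1)) (hS : Sk u k S)
    (hκ : Rb u 0 1 (G1.Cg κ)) (hz : zm Yw K ≤ s u (k + 4)) (he : e ≤ s u (k + 4))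
    (hK : Km ≤ Y u (k + 1000)) (hε : Sm u (k + 3) 100 (nD * ε)) :
    TkM (num h Dw 12) S n B κ Yw e 3 ε m ctm nc R nD Km (u * D ^ (k + 5)) K (Y u k) (Y u (k + 3))
      (Y u (k + 4)) (gm u (k + 2)) (gm u (k + 3)) (3 * (gm u (k + 2) + nD * ε)) (3 * s u (k + 6))
      (s u (k + 2)) := by
  have hu := h.hu
  have hA : ∀ i, (num h Dw 12).A ≤ Y u i := fun i => Y_mono (Nat.zero_le i)
  have g2 := sm_gm u (k + 2)
  have g3 := sm_gm u (k + 3)
  refine ⟨?_, one_le_Y _ _, ?_, Y_mono (by omega), ?_,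
    γd_le hu (by omega) (hS.mono (by omega)) (hA _) hκ (hz.trans (s_anti (by omega)))
      (he.trans (s_anti (by omega))) le_rfl (Y_mono (by omega)),
    γd_le hu (by omega) (hS.mono (by omega)) (hA _) hκ hz he le_rfl (Y_mono (by omega)),
    gm_pos _ _, gm_anti (by omega), le_rfl, mul_nonneg (by norm_num) (s_pos _ _).le, ?_⟩
  · have h1 := lw_le' h Dw le_rfl (τ := ctm) (by omega) m
    have h2 := h.tm
    change B * (2 * ctm * Y u 1 + _ + _) ≤ _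
    generalize nc * (2 * R + 1) = a at hR
    tier! (k - 1)
  · have := hS.2
    tier! k
  · have := pb_Vn h (Pb.tier (le_refl (k + 4))) (by norm_num)
    rw [← Y_def]
    tier! (k + 4)
  · have v1 := pb_Vn h (k := k + 2) (r := Y u k + 1) (by p_bd) (by norm_num)
    have v2 := pb_Vn h (k := k + 3) (r := Y u (k + 3) + Y u k + 1) (by p_bd) (by norm_num)
    have e1 : (2 : ℝ) ^ (u * D ^ (k + 5)) = Y u (k + 5) := by rw [Y_def]; push_cast; rfl
    rw [e1]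
    exact κc_le hu (by omega) (by omega) le_rfl v1 (one_le_Y _ _) (hK.trans (Y_mono (by omega))) v2 v2
      (Pb.mono (by p_bd) (by norm_num)) (Sm.mono (by s_bd) (by norm_num))
      (Sm.mono (by s_bd) (by norm_num))
      (((Sm.mul' (k := k + 5) (by r_bd) (by s_bd)).down (by norm_num) (by omega)).mono (by norm_num))

lemma sm_eps {m nD : ℕ} (hD : nD ≤ Y u (48 * m + 53)) (hk : k < 48 * m + 59) :
    Sm u k 0 (nD * eps u m) := by
  unfold eps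
  exact Sm.down (k' := 48 * m + 59) (by s_bd) (by norm_num) hk

variable {L T : ℕ} [NeZero L] [NeZero T] {W : Gl.Wd T} {G : Bs T (Tor 3 L × Fin n)}
  {z z0 : Tor 3 L} {B Dw l nc cap jj : ℕ} {β Yt δ : ℝ} {rt : Rt} {nx : ℕ → ℕ}
  {Gr : Finset (Tor 3 L × Fin n) → Prop}

/-- **the medium of level `j ≥ 1`** (first half of `LadD`), gain `s u (tb j + 2)`. -/
theorem tkP (h : Bg n u) (hj : j ≠ 0) (hB : B ≤ Y u 11) {Q : I.Num} (hQ : Q = num h Dw 12)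
    {P : M.Par (Top.Sl L n)} (hP : P = lev n β u rt z l) {hT : T = B * Q.D} {hp : PtN Q.toLf B}
    (tI : rt.tI j + 3 ≤ ctm) (hn : rt.nc ≤ nc) (hn' : rt.nc ≤ Y u 1)
    (c : Cel (I.ins G.ex G.ey Q z0) G P.Sd Gr (j / 3) Yt δ (eps u (j / 3)) nc cap nx)
    (hR : nx (nx (P.Rc j)) ≤ cap) (hc : cap ≤ x u (j / 3) 13)
    (f : F2A (ppI G Q z0 hT hp) P.Sd Yt 3 (j / 3) nc (nx (nx (P.Rc j))) (nx (nx (nx (P.Rc j))))
      (eps u (j / 3)))
    (g : Gw W G Q S Yt e 4 (j / 3) (P.nv j) (nx (nx (nx (P.Rc j)))) K jj) (H : GH u i S)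
    (hm : S.mt ≤ (j - 1) / 3 + 2) (hκ : Rb u 0 1 (G1.Cg W.κ)) (hz : zm W.Y K ≤ s u (tb j + 4))
    (he : e ≤ s u (tb j + 4)) (hY : Real.exp (-s u (tb (j + 1) + 7)) ≤ Yt) :
    ∃ Y ws near Z κ' ε0 ε q δ η R1 R2 nD Bn n1 n2 k0 Km, P.TkP (I.ins G.ex G.ey Q z0) G j
      (s u (tb j + 2)) Y ws near Z κ' ε0 ε q δ η R1 R2 nD Bn n1 n2 k0 Km := by
  have hu := h.hu
  have e1 := tb_eq j
  have e2 := tb_eq (j + 1)
  have hv : P.nv j ≤ nc := by
    unfold Par.nv; split_ifs; exacts [hP ▸ hn, Nat.zero_le _]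
  have hy : (P.lev (I.ins G.ex G.ey Q z0) G).y j ≤ Yt := by
    subst hP; exact y_le_of (by omega) hY
  have y0 := (P.lev (I.ins G.ex G.ey Q z0) G).y_nn j
  have hA := I.alvH G.ex G.ey Q z0 (P.N j) (j / 3)
  set nD := P.N j * (2 * ((I.sys n T Q z0).loc (j / 3) + 1) + 1) ^ 3 with hnD
  have hD : nD ≤ Y u (48 * (j / 3) + 53) := by subst hP hQ; exact nD_le h le_rfl z0 _
  have hs : P.nv j * (2 * nx (nx (P.Rc j)) + 1) ≤ Y u (tb j - 1) := by
    have := hR.trans hc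
    unfold Par.nv; split_ifs
    · subst hP
      change rt.nc * _ ≤ _
      tier! (48 * (j / 3) + 24)
    · rw [zero_mul]; exact Nat.zero_le _
  have hK := (Km_le (u := u) j).trans (Y_mono (show _ ≤ tb j + 1000 by omega))
  have se := sm_eps (k := tb j + 3) hD (by omega)
  have tI' : P.tI j + 3 ≤ ctm := hP ▸ tI
  subst hQ
  obtain ⟨a1, a2, a3, a4⟩ := tk_fin (Cw := P.Kc (I.ins G.ex G.ey (num h Dw 12) z0) j 2 (nx (nx (P.Rc j))))
    (d := 2) g (pkN h Dw (L1_of le_rfl hY) c.e0 (by norm_num) tI' (c.le _) (Km_ne u j))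
    (tkM h Dw hB (by omega) (by omega) hs (sk h H hm (by omega)) hκ hz he hK (se.mono (by norm_num)))
    hA (f.mono (fun _ a => a) hv le_rfl) (fun _ a => a) (P.σ j)
  have g2 := sm_gm u (tb j + 2)
  refine ⟨Yt, _, _, _, _, _, s u (48 * (j / 3) + 52 + 1), _, _, s u (48 * (j / 3) + 52 + 2), _, _, _, _,
    _, _, _, _, ⟨hy, g.w.Y1.le⟩,
    (c.f1 _ _ _ y0 hy (by omega) (c.r0 hR)).mono (fun _ a => a) hv le_rfl,
    (c.f2 _ _ (by omega) (c.r1 hR)).mono (fun _ a => a) hv le_rfl, hA,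
    ⟨by change ck0 + 27 + 0 + 1 ≤ ctm; unfold ctm; omega, by change _ ≤ ctm; omega, c.le _, c.le _,
      le_rfl⟩, a1, a2, a3, a4, ?_⟩
  subst hP
  change TkN (Tf u j) _ _ _ _ _ _ _ _ _ _ _ _ _ _ _ _
  rw [Tf_ne hj]
  exact tkN' (b := 48 * (j / 3) + 52) hu (by omega) (by omega) (by omega) (one_le_Y _ _) le_rfl hD
    (s_pos _ _) (s_anti (by omega)) c.e0 (s_anti (by omega)) (Pb.mono (by p_bd) (by norm_num))
    (pb_Vn h (r := Y u (tb j + 1) + 2 + Y u (tb j)) (by p_bd) (by norm_num))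
    (pb_Vn h (r := Y u (tb j + 1) + 2 + Y u (tb j + 3)) (by p_bd) (by norm_num)) (Y_def _ _).symm hK
    (mul_pos (by norm_num) (add_pos_of_pos_of_nonneg (gm_pos _ _) se.1))
    (Sm.mono (by s_bd) (by norm_num)) (s_pos _ _).le le_rfl (y_Km hu (by omega))

end Crest.Agent.N337.Par.Tk

namespace Crest.Agent.N337.M.Ctx

open Crest.Agent.N337.Free Crest.Agent.N337.Top Crest.Agent.N337.Par

variable {L n : ℕ} [NeZero L] [NeZero n] {u ms w : ℕ} {β : ℝ} {sy : List (Sl L n × Sl L n × ℝ)}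
  (C : Ctx u ms β w sy) (z : Tor 3 L)

/-- **the media of all levels** (`= C.JT z` from `C.JA z`, `C.JB z`). -/
theorem jt' {hp : C9.PtN C.Q.toLf (Bw β)}
    (hA : ∀ m ≤ ms + 1, ∀ Yp, yl u (3 * m) ≤ Yp → Yp ≤ Yt u ms → C.Cel z m Yp)
    (hB : ∀ m ≤ ms + 1, ∀ Yp d R, 0 ≤ Yp → Yp ≤ Yt u ms → d ≤ 3 → R ≤ Rr u m 30 →
      C9.F2A (C9.ppI (GT β w sy) C.Q z C.hT hp) (PP n u ms β z).Sd Yp d m ((ctm + 1) * ca) R
        (nx u m R) (Par.eps u m)) (j : ℕ) (h1 : 1 ≤ j) (h2 : j ≤ 3 * ms + 3) :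
    ∃ Y ws near Z κ' ε0 ε q δ η R1 R2 nD Bn n1 n2 k0 Km, (PP n u ms β z).TkP (C.I z) (GT β w sy) j
      (s u (tb j + 2)) Y ws near Z κ' ε0 ε q δ η R1 R2 nD Bn n1 n2 k0 Km := by
  have hu := C.hu
  have e1 := tb_eq j
  have e2 := tb_eq (j + 1)
  have r0 : (PP n u ms β z).Rc j ≤ Rr u (j / 3) 3 := by
    unfold Par.Rc; split_ifs; exacts [le_rfl, Nat.zero_le _]
  have r2 : nx u (j / 3) (nx u (j / 3) ((PP n u ms β z).Rc j)) ≤ Rr u (j / 3) 5 :=
    (nx_mono u _ (nx_mono u _ r0)).trans_eq (by rw [nx_Rr, nx_Rr])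
  have r3 := (nx_mono u (j / 3) r2).trans_eq (nx_Rr u _ 5)
  have r4 := r2.trans (Rr_mono u _ (show 5 ≤ 30 by norm_num))
  have t := Rung.tI_le (kd := ck0 + 27) (k := cK) (j := j)
  rw [← ctm_eq] at t
  have key : ∀ mt, mt ≤ (j - 1) / 3 + 2 → C9.Gw C.W (GT β w sy) C.Q (gs u mt) (Yt u ms)
      (s u (tb j + 4)) 4 (j / 3) ((PP n u ms β z).nv j)
      (nx u (j / 3) (nx u (j / 3) (nx u (j / 3) ((PP n u ms β z).Rc j)))) (KL L) (Y u 2) → _ :=
    fun mt hm g => Tk.tkP (G := GT β w sy) C.bg (by omega) C.B2 rfl rfl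
      (show Rung.tI _ _ j + 3 ≤ ctm by omega) le_rfl
      (show (ctm + 1) * ca ≤ _ by have := C.bg.tm; have := C.bg.a; tier! 0)
      (hA (j / 3) (by omega) _ (yl_le (by omega)) le_rfl) r4
      ((Rr_le C.bg (by norm_num)).trans (Sx_le C.bg _))
      (hB (j / 3) (by omega) _ 3 _ C.Yt_nn le_rfl le_rfl r4) g (gh_gs u mt) hm C.cg
      (C.zm (by omega)) le_rfl (Real.exp_le_exp.2 (by
        rw [neg_div, one_div]; exact neg_le_neg (s_anti (by omega))))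
  by_cases h3 : j % 3 = 2
  · exact key (j / 3 + 2) (by omega) (C.gw1 (by omega) C.Yt_nn le_rfl (by norm_num) (by omega)
      (le_of_eq (if_pos h3)) (r3.trans (Rr_mono u _ (by norm_num))))
  · refine key (j / 3 + 1) (by omega) ?_
    rw [show (PP n u ms β z).nv j = 0 from if_neg h3]
    exact C.gw0 (by omega) C.Yt_nn le_rfl (by norm_num) (by omega) _

end Crest.Agent.N337.M.Ctx
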