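import Crest.Agent.N337.E.J3_Mg
import Crest.Agent.N337.E.Step
import Crest.Agent.N337.E.MDefs
import Crest.Agent.N337.C9.Ins
import Crest.Agent.N337.Gl.Ht
import Crest.Agent.N337.Par.G1s
import Crest.Agent.N337.M.Wd

-- ▼ part N337/E/Dyn
section

/-!
# Row 337, ENG leaves (helper86): the coin events of the engine

`Evt` = the events; `hp` = `En.HP`, `leaf`, `fast` = the fields of `Tr.Dyn`.
-/

set_option autoImplicit false
set_option linter.unusedSectionVars false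

namespace Crest.Agent.N337.Wk

open Finset Equiv Crest.Agent.N337.Rep Crest.Agent.N337.Arc Free KV Geo I Tr
open Crest.MathPhysics.SpinModel
open Crest.Agent.N337.Gas (pts ub)

variable {L n T : ℕ} [NeZero L] [NeZero T] (ex ey : Fin T → Tor 3 L × Fin n)

/-- numbers of the coin events: base leaf, free jumps and rates at the levels `m`. -/
structure Lv extends Lq where
  fm : ℕ → ℕ
  cm : ℕ → ℝ

/-- distance needed to pass the dirty balls of a scale `< m`. -/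
def hx (P : I.Num) : ℕ → ℕ
  | 0 => 0
  | m + 1 => P.N * (2 * P.Sx m + 1) + hx P m

/-- speed of the pins, displacement in one window, local radius at level `m`. -/
def Lv.v (N : Lv) (P : I.Num) (m : ℕ) : ℕ := 2 * N.t * P.j1 + P.lw N.t m + hx P m
def Lv.Wm (N : Lv) (P : I.Num) (x0 m : ℕ) : ℕ := (N.fm m + x0) * (N.v P m + 1) + N.v P m
def Lv.ρm (N : Lv) (P : I.Num) (x0 m lo : ℕ) : ℕ := lo + N.Wm P x0 m + 1

/-- **side conditions of the coin events** (`lo m` = range of the rung of scale `m`). -/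
structure NmE (N : Lv) (P : I.Num) (G : Eg) (η : ℕ → ℝ) (lo : ℕ → ℕ) (p0 : Fin T → ℝ)
    (d Es w B x0 : ℕ) (θ : ℝ) : Prop where
  n0 : Nm0 ex ey N.toLq P.toLf p0 Es w B x0 θ
  hG : 0 < G.mt ∧ G.D = P.D ∧ G.n1 ≤ N.m ∧ N.R P.toLf ≤ G.r0
  r0 : 2 * P.r0 + 1 ≤ G.A 0 ∧ 8 * N.ρ P.toLf ≤ G.σ 0
  ht : P.k0 + 27 + d ≤ N.t ∧ 2 * N.t * P.j1 ≤ P.r0
  hρ : ∀ m, (N.t + 1) * P.a * (2 * P.rad m N.t + 1) + 3 * N.t * P.H m ≤ P.ρ (m + 1)
  rm : ∀ m < G.mt, lo m + N.Wm P x0 m ≤ G.lo m ∧ N.ρm P x0 m (lo m) ≤ G.A m ∧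
    8 * N.ρm P x0 m (lo m) ≤ G.σ (m + 1)
  cm : ∀ m < G.mt, 7 * (θ * (2 * N.v P m + 1) ^ 3) ≤ 1 ∧
    7 * (θ * (2 * N.v P m + 1) ^ 3) * (w + x0) ≤ N.cm m
  η0 : 0 ≤ N.Γ ∧ (B * (n * (2 * N.ρ P.toLf + 1) ^ 3) : ℕ) * Real.exp (N.c - N.f) +
    (B * ((P.r0 + 1) * (N.m * (n * (2 * N.R P.toLf + 1) ^ 3 + 1) ^ N.m *
      (n * (2 * N.R P.toLf + 1) ^ 3))) : ℕ) * ((N.τ * 2 ^ (P.l / N.τ + 1) : ℕ) * (2 * N.Γ ^ N.k)) ≤ η 0
  ηm : ∀ m < G.mt, (B * (n * (2 * N.ρm P x0 m (lo m) + 1) ^ 3) : ℕ) * Real.exp (N.cm m - N.fm m) ≤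
    η (m + 1)

variable (N : Lv) (P : I.Num) (G : Eg) (lo : ℕ → ℕ) (p p0 : Fin T → ℝ) (E : Ev L n T)
  (Z : Finset (Tor 3 L)) (B x0 : ℕ)

/-- the events on the torus and their radii. -/
def Ev1 (ξ : Fin T → Bool) : ℕ → Tor 3 L → Prop
  | 0, x => Ev0 ex ey N.toLq P.toLf p p0 E Z B x ξ
  | m + 1, x => FE ex ey p0 (Fr ex ey E) (loc ex ey Z x (N.ρm P x0 m (lo m))) B P.D
      (N.ρm P x0 m (lo m)) (N.cm m) (N.fm m) x ξ

def rad : ℕ → ℕ
  | 0 => N.ρ P.toLf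
  | m + 1 => N.ρm P x0 m (lo m)

/-- **the coin events of the engine.** -/
def Evt (U : ℕ → Tor 3 L → Prop) (ξ : Fin T → Bool) (l : ℕ) (z : Sd.V) : Prop :=
  l ≤ G.mt → Fre G U (l - 1) z → Ev1 ex ey N P lo p p0 E Z B x0 ξ l (tcast L z)

variable {ex ey N P G lo p p0 E Z B x0} {η : ℕ → ℝ} {d Es w : ℕ} {θ : ℝ} {X0 : Finset (V L n T)}
  {U : ℕ → Tor 3 L → Prop} {ξ ξ' : Fin T → Bool} {z0 x : Tor 3 L} {b : V L n T → ℝ}

lemma loc_sub (ρ : ℕ) : loc ex ey Z x ρ ⊆ nr ex x ρ := fun _ h =>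
  mem_filter.2 ⟨mem_univ _, (mem_loc.1 h).1.1⟩

lemma Ev1_congr (l : ℕ) (h : ∀ s ∈ nr ex x (rad N P lo x0 l), ξ' s = ξ s) :
    Ev1 ex ey N P lo p p0 E Z B x0 ξ' l x ↔ Ev1 ex ey N P lo p p0 E Z B x0 ξ l x := by
  cases l with
  | zero =>
    simp only [rad] at h
    simp only [Ev1, Ev0, FE, RE, lc_congr (loc_sub _) h, lc_congr Subset.rfl h]
  | succ m =>
    simp only [rad] at h
    simp only [Ev1, FE, lc_congr (loc_sub _) h]

lemma pr_Ev1 (M : Md ex ey P.toLf p p0 E X0 Es w B x0 θ)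
    (H : NmE ex ey N P G η lo p0 d Es w B x0 θ) {l : ℕ} (hl : l ≤ G.mt) (x : Tor 3 L) :
    Pe p (fun ξ => Ev1 ex ey N P lo p p0 E Z B x0 ξ l x) ≤ η l := by
  have k := fun ρ c f => pr_FE (ex := ex) (ey := ey) (B := B) (A := loc ex ey Z x ρ) (ρ := ρ) (c := c)
    (f := f) (x := x) M.hp (fun s => (M.word.hp s).1) (fun s _ h => (M.fr s h).le) M.DT.2
  cases l with
  | zero => exact ((Pe_or M.hp _ _).trans (add_le_add (k _ _ _)
      (pr_RE M.hp _ _ _ _ _ _ _ _ _ H.η0.1 x))).trans H.η0.2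
  | succ m => exact (k _ _ _).trans (H.ηm m hl)

/-- **product bound.** -/
theorem hp (M : Md ex ey P.toLf p p0 E X0 Es w B x0 θ) {Pz : En.Pz}
    (H : NmE ex ey N P G Pz.η lo p0 d Es w B x0 θ) :
    En.HP G Pz p U (Evt ex ey N P G lo p p0 E Z B x0 U) := by
  classical
  intro I h1 h2
  have hr : ∀ l ≤ G.mt, 8 * rad N P lo x0 l ≤ G.σ l := fun l hl => by
    cases l with
    | zero => exact H.r0.2
    | succ m => exact (H.rm m hl).2.2
  have := Top.Kill.indep_prod (I := I) (pr_pb M.hp) (fun t => nr ex (tcast L t.1.2)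
    (rad N P lo x0 t.1.1)) (fun t t' s a a' => ?_) (f := fun t ξ =>
      if Ev1 ex ey N P lo p p0 E Z B x0 ξ t.1.1 (tcast L t.1.2) then 1 else 0)
    (fun t ξ ξ' h => by simp only [Ev1_congr _ h]) univ
  · rw [← prod_attach I]
    refine le_trans ((pr_pb M.hp).ex_mono fun ξ => ?_) (this.le.trans (prod_le_prod
      (fun t _ => Pe_nonneg M.hp _) fun t _ => pr_Ev1 M H (h1 _ t.2).1 _))
    split_ifs with h
    · exact (prod_eq_one fun t _ => if_pos (h _ t.2 (h1 _ t.2).1 (h1 _ t.2).2)).ge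
    · exact prod_nonneg fun _ _ => by split_ifs <;> norm_num
  by_contra hne
  have e : t.1 ≠ t'.1 := fun e => hne (Subtype.ext e)
  have a1 := h2 _ t.2 _ t'.2 e
  have a2 := h2 _ t'.2 _ t.2 e.symm
  have a3 := hr _ (h1 _ t.2).1
  have a4 := hr _ (h1 _ t'.2).1
  have a5 := (mem_filter.1 a).2
  have a6 := (mem_filter.1 a').2
  have := tdist_triangle (tcast L t.1.2) (ex s).1 (tcast L t'.1.2)
  rw [tdist_comm (tcast L t'.1.2)] at a2 a6
  omega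

lemma al_of {C : Finset (Gas.Lp T (Tor 3 L × Fin n))} (hξ : Pw p ξ ≠ 0)
    (hC : ∀ g ∈ C, g ∈ Gas.L ex ey ξ ∧ ub b g ≠ 0) (hE : ∀ v ∈ E.1, b v = 0)
    (hZ : ∀ v, v.2.1 ∈ Z → b v = 0) : Al ex ey p E Z ξ (pts C) := by
  have k : ∀ v ∈ pts C, b v ≠ 0 := fun v hv => by
    obtain ⟨g, h1, h2⟩ := Gas.mem_pts.1 hv
    exact prod_ne_zero_iff.1 (hC g h1).2 v h2
  exact ⟨hξ, pts_inv fun g hg => (hC g hg).1, fun v hv a => k v hv (hE v a),
    fun v hv a => k v hv (hZ v a)⟩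

lemma Fre_not {m : ℕ} {z : Sd.V} (h : Fre G U m z) {y : Tor 3 L} (hy : tdist (tcast L z) y ≤ G.A m) :
    ¬ U m y := fun k => (h (lf z y) (by rwa [tcast_lf])).not_ge (by rw [dist_lf]; exact_mod_cast hy)

lemma grid_mem (hT : T = B * G.D) (i : ℕ) {z : Sd.V} {y : Tor 3 L × Fin n} {r : ℕ}
    (h : tdist (tcast L z) y.1 ≤ r) : (tm T (i * G.D), lf z y.1, y.2) ∈ gp T n G.D z r :=
  mem_gp.2 ⟨(Nat.dvd_mod_iff (hT ▸ Dvd.intro_left B rfl)).2 (Dvd.intro_left i rfl),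
    by rw [dist_lf]; exact_mod_cast h⟩

/-- one window, through the balls of a cover. -/
theorem slow_hole {τ m R nc : ℕ} {Al : Fin T → Prop} {W : V L n T → Prop} {F : Finset (Tor 3 L)}
    (hnn : ∀ s, tdist (ex s).1 (ey s).1 ≤ 1) (hl : 1 ≤ P.l) (hτ : P.k0 + 27 + d ≤ τ)
    (hρ : ∀ m, (τ + 1) * P.a * (2 * P.rad m τ + 1) + 3 * τ * P.H m ≤ P.ρ (m + 1))
    (hJ : 2 * τ * P.j1 ≤ P.r0)
    (hAl : ∀ r y, Al r → tdist (ex r).1 (ey r).1 ≠ 0 → (y = ex r ∨ y = ey r) → W (r, y) →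
      (r, y) ∈ E.2) (hW : ∀ u, W u → ¬ dead Z u.2.1) (hF : F.card ≤ nc)
    (hG : ∀ y, (∀ f ∈ F, R < tdist f y) → (sys n T P z0).Good d E Z m τ y) (i : ℕ) :
    A.Slow ex ey (fun x y => tdist x.1 y.1) (fun r => Al r ∧ r.val ∈ Ico (i * P.D) ((i + 1) * P.D)) W
      (2 * τ * P.j1 + P.lw τ m + nc * (2 * R + 1)) := by
  classical
  intro a b γ hs ht hγ
  by_contra k
  rw [← lw_sys (n := n) (T := T) P z0] at k
  have st : ∀ r, a ≤ r → r < b → tdist (γ r).1 (γ (r + 1)).1 ≤ 1 := fun r h1 h2 => by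
    rcases (hγ ⟨r, h2.trans_le ht⟩ h1 h2).2 with e | ⟨-, e⟩ <;> rw [show γ (r + 1) = _ from e]
    · rw [tdist_self]; omega
    · rw [Equiv.swap_apply_def]
      split_ifs with h3 h4
      · rw [h3]; exact hnn _
      · rw [h4, tdist_comm]; exact hnn _
      · rw [tdist_self]; omega
  obtain ⟨r, r1, r2, r3, r4⟩ := C9.exists_off (S := sys n T P z0) (R := R) (γ := fun r => (γ r).1)
    hF hs st (show _ ≤ tdist _ _ by beta_reduce at k; omega)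
  have a1 := tdist_triangle (γ a).1 (γ r).1 (γ b).1
  obtain ⟨q, q1, q2, q3, q4⟩ := exists_base (S := sys n T P z0) (γ := fun r => (γ r).1)
    (J := 2 * τ * P.j1) hτ hρ m r r2 (fun u h1 h2 => st u (r1.trans h1) h2) (hG _ r3)
    (show _ < tdist _ _ by change tdist _ _ ≤ _ at r4; beta_reduce at k r4 ⊢; omega)
  refine absurd (A.path_le_count (d := fun x y => tdist x.1 y.1)
    ⟨fun _ => tdist_self _, fun _ _ => tdist_comm _ _, fun _ _ _ => tdist_triangle _ _ _, hnn⟩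
    q2 ht (hγ.sub (r1.trans q1) le_rfl)
    (I := univ.filter fun u : Fin T => u.val ∈ Ico (i * P.D) ((i + 1) * P.D) ∧
      1 ≤ cnt (vis Z E.2) u (γ q).1 P.r0) (le_trans ?_ (G0.chg_le q3 hl i))
    fun u y h1 h2 h3 h4 h5 => mem_filter.2 ⟨mem_univ _, h1.2, card_pos.2 ⟨y, mem_filter.2
      ⟨mem_univ _, ?_, h5.trans hJ⟩⟩⟩) (not_le.2 q4)
  · rw [← card_image_of_injective _ Fin.val_injective]
    refine le_trans (card_le_card (t := (Ico (i * P.D) ((i + 1) * P.D)).filter fun k =>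
      1 ≤ cnt (vis Z E.2) k (γ q).1 P.r0) fun k hk => ?_) ?_
    · obtain ⟨u, hu, rfl⟩ := mem_image.1 hk
      exact mem_filter.2 (mem_filter.1 hu).2
    · rw [card_filter]
      exact sum_le_sum fun k _ => by split_ifs with h; exacts [h, Nat.zero_le _]
  · rw [tm_fin]
    exact mem_vis.2 ⟨hAl u y h1.1 h2 h3 h4, hW _ h4⟩

lemma v_ge {M m R : ℕ} (h : M < m) (hR : R ≤ P.Sx M) :
    2 * N.t * P.j1 + P.lw N.t M + P.N * (2 * R + 1) ≤ N.v P m := by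
  induction m, h using Nat.le_induction with
  | base =>
    have := Nat.mul_le_mul_left P.N (show 2 * R + 1 ≤ 2 * P.Sx M + 1 by omega)
    simp only [Lv.v, Num.lw, hx]
    omega
  | succ m _ ih =>
    simp only [Lv.v, Num.lw, hx] at ih ⊢
    omega

section dyn
variable {Mx : ℕ} (M : Md ex ey P.toLf p p0 E X0 Es w B x0 θ)
  (H : NmE ex ey N P G η lo p0 d Es w B x0 θ)
  (hU : ∀ m ≤ Mx, ∀ y, ¬ U m y → (sys n T P z0).Good d E Z m N.t y)
  (hC : ∃ (F : Finset (Tor 3 L)) (R : ℕ), F.card ≤ P.N ∧ R ≤ P.Sx Mx ∧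
    ∀ y, (∀ f ∈ F, R < tdist f y) → (sys n T P z0).Good d E Z Mx N.t y) (hE : ∀ v ∈ E.1, b v = 0)
  (hZ : ∀ v, v.2.1 ∈ Z → b v = 0) (hξ : Pw p ξ ≠ 0) {g : ℕ → Gas.Lp T (Tor 3 L × Fin n)} {nb : ℕ}
  (hg : ∀ i < nb, g i ∈ Gas.L ex ey ξ ∧ ub b (g i) ≠ 0)
include M H hU hC hE hZ hξ hg

/-- **`Dyn.leaf`.** -/
theorem leaf (i : ℕ) (hi : i ≤ nb) (z : Sd.V)
    (h : W0 P.toLf (I.ev ex ey (St g i)) E Z (tcast L z)) : Evt ex ey N P G lo p p0 E Z B x0 U ξ 0 z ∨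
      ∃ f ∈ dJ G T n z, ∀ j, ∃ i' < i, pj L (f j) ∈ (g i').2 := by
  classical
  replace hC : ∀ a ∈ St g i, a ∈ Gas.L ex ey ξ ∧ ub b a ≠ 0 := fun a ha => by
    obtain ⟨j, hj, rfl⟩ := mem_image.1 ha
    exact hg j ((mem_range.1 hj).trans_le hi)
  by_cases hF : Fre G U 0 z
  swap; · exact .inl fun _ k => absurd k hF
  rw [I.ev_eq (ξ := ξ) (show St g i ⊆ _ from fun a ha => (hC a ha).1)] at h
  refine (leaf0 M H.n0 (al_of hξ hC hE hZ) (fun y hy => hU 0 (Nat.zero_le _) y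
    (Fre_not hF (hy.trans H.r0.1))) h).imp (fun k _ _ => k) fun ⟨a, ha⟩ => ?_
  obtain ⟨S, h1, h2⟩ := exists_subset_card_eq (H.hG.2.2.1.trans ha)
  set e : Fin G.n1 → Tor 3 L × Fin n := fun j => (S.equivFinOfCardEq h2).symm j with he
  have h3 := fun j => (mem_filter.1 (h1 ((S.equivFinOfCardEq h2).symm j).2)).2
  refine ⟨fun j => (tm T (a * G.D), lf z (e j).1, (e j).2), mem_filter.2 ⟨Fintype.mem_piFinset.2
    fun j => grid_mem (H.hG.2.1 ▸ M.hT) a ((h3 j).2.trans H.hG.2.2.2), fun j j' k => ?_,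
    fun _ _ => rfl⟩, fun j => ?_⟩
  · have := congrArg (fun x => (pj L x).2) k
    simp only [pj, tcast_lf] at this
    exact (S.equivFinOfCardEq h2).symm.injective (Subtype.ext this)
  · obtain ⟨_, h4, h5⟩ := Gas.mem_pts.1 (h3 j).1
    obtain ⟨i', h6, rfl⟩ := mem_image.1 h4
    exact ⟨i', mem_range.1 h6, by simpa only [pj, tcast_lf, H.hG.2.1] using h5⟩

/-- **`Dyn.fast`.** -/
theorem fast (m : ℕ) (z : Sd.V) (h : ¬ Evt ex ey N P G lo p p0 E Z B x0 U ξ (m + 1) z) (i : ℕ)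
    (hi : i < nb) (v : V L n T) (hv : v ∈ (g i).2) (hd : tdist (tcast L z) v.2.1 ≤ lo m) :
    ∃ x ∈ gp T n G.D z (G.lo m), pj L x ∈ (g i).2 := by
  simp only [Evt, not_forall, Nat.add_sub_cancel] at h
  obtain ⟨hm, hF, h⟩ := h
  have A := al_of (p := p) (C := {g i}) hξ (fun a ha => mem_singleton.1 ha ▸ hg i hi) hE hZ
  have hD := D_pos M.hT
  have hA : ∀ r y, ((ex r).1 = (ey r).1 ∨ ((r, ex r) ∈ E.2 ∧ (r, ey r) ∈ E.2)) →
      tdist (ex r).1 (ey r).1 ≠ 0 → (y = ex r ∨ y = ey r) →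
      y.1 ∉ Z ∧ tdist (tcast L z) y.1 ≤ N.ρm P x0 m (lo m) → (r, y) ∈ E.2 := fun r y a1 a2 a3 _ => by
    have := a1.resolve_left fun e => a2 (by rw [e, tdist_self])
    rcases a3 with rfl | rfl
    exacts [this.1, this.2]
  have hS : SL ex ey E Z P.D (tcast L z) (N.ρm P x0 m (lo m)) (N.v P m) := fun j a c γ h1 h2 h3 => by
    rcases le_or_gt m Mx with k | k
    · exact (slow_win' M.word.nn M.hl.1 H.ht.1 H.hρ H.ht.2 hA (fun u hu => ⟨fun k => hu.1 k.mem,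
        hU m k _ (Fre_not hF (hu.2.trans (H.rm m hm).2.1))⟩) j a c γ h1 h2 h3).trans
        (Nat.le_add_right _ _)
    · obtain ⟨F, R, c1, c2, c3⟩ := hC
      exact (slow_hole M.word.nn M.hl.1 H.ht.1 H.hρ H.ht.2 hA (fun u hu k => hu.1 k.mem) c1 c3 j a c
        γ h1 h2 h3).trans (v_ge k c2)
  have hM := mvm (r := lo m) M A hS le_rfl le_rfl (H.cm m hm).1 (H.cm m hm).2 h
  obtain ⟨y, a1, -, a2, -⟩ := back1 (i := v.1.val / P.D) (k := v.1.val) (y := v.2) A.inv hM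
    (Nat.div_mul_le_self _ _) (by rw [add_mul, one_mul]; exact (Nat.lt_div_mul_add hD).le)
    (by rw [tm_fin]; simpa [pts] using hv) hd
  refine ⟨_, grid_mem (y := y) (H.hG.2.1 ▸ M.hT) (v.1.val / P.D) ((tdist_triangle _ v.2.1 _).trans
    ((add_le_add hd a2).trans (H.rm m hm).1)), ?_⟩
  simpa [pj, tcast_lf, pts, H.hG.2.1] using a1

end dyn

end Crest.Agent.N337.Wk
private theorem rz_088e75fe01 : type_of% @_root_.Crest.Agent.N337.Wk.Ev1.eq_1 := @_root_.Crest.Agent.N337.Wk.Ev1.eq_1 -- L60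
private theorem rz_4b5ac3774c : type_of% @_root_.Crest.Agent.N337.Wk.hx.eq_def := @_root_.Crest.Agent.N337.Wk.hx.eq_def -- L29
private theorem rz_532827a955 : type_of% @_root_.Crest.Agent.N337.Wk.hx.eq_1 := @_root_.Crest.Agent.N337.Wk.hx.eq_1 -- L29
private theorem rz_3e5abf8fda : type_of% @_root_.Crest.Agent.N337.Wk.rad.eq_1 := @_root_.Crest.Agent.N337.Wk.rad.eq_1 -- L65
end

-- ▼ part N337/E/Inst
section

/-!
# Row 337, ENG (helper30): the engine on the classes of the chain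

`Uc` = junk family of the class `Cls d E Z M tm F R`; `Lc` = locally covered families; from `Lc`:
`UC` of the engine and `CovIn` of G1 (static junk, and junk with the failing cells of a state).
`core`, `f2a`, `n2` : the cell claims from `eng`, `Gl.ht` and the leaf events of `E/Dyn`.
-/

set_option autoImplicit false
set_option linter.unusedSectionVars false

namespace Crest.Agent.N337.En

open Finset Crest.MathPhysics.SpinModel Crest.Agent.N337.Rep Crest.Agent.N337.Free Sd Rg Tr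
open Crest.Agent.N337.Gas (Lp pts wd ub kill Hit)
open Crest.Agent.N337.Ld (Cls pb PC Ad)

section abs
variable {X α κ : Type} [Fintype X] [SemilatticeSup α] [Preorder κ] (S : Sys X α κ)

/-- off the junk of level `l + 1` the junk of level `l` is covered by few balls. -/
def Lc (U : ℕ → X → Prop) : Prop :=
  ∀ l c, ¬ U (l + 1) c → ∃ k ≤ S.tm, ∃ (F : Finset X) (s : ℕ),
    F.card ≤ S.N ∧ S.sep l ≤ s ∧ s ≤ S.Sx l ∧ S.Cv (U l) l k c F s 0

/-- the junk family of the class `Cls d E Z M tm F R`. -/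
def Uc (d : ℕ) (E : α) (Z : κ) (M : ℕ) (F : Finset X) (R l : ℕ) (y : X) : Prop :=
  (l < M ∧ S.Jk d E Z l y) ∨ (l = M ∧ ¬ S.Off F R y)

variable {S} {d M R R1 l m : ℕ} {E : α} {Z : κ} {F : Finset X} {y : X} {U U' : ℕ → X → Prop}
  {Lf : X → Prop}

lemma sep_Sx (S : Sys X α κ) (l : ℕ) : S.sep l ≤ S.Sx l :=
  (S.sep_le_rad l 0).trans (by simpa using Sys.rad_Sx (S := S) (m := l) (Nat.zero_le _) 0 (by omega))

lemma Uc_lt (h : l < M) : Uc S d E Z M F R l y ↔ S.Jk d E Z l y :=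
  ⟨fun k => k.elim (·.2) fun k => absurd k.1 h.ne, fun k => .inl ⟨h, k⟩⟩

lemma Uc_eq : Uc S d E Z M F R M y ↔ ¬ S.Off F R y :=
  ⟨fun k => k.elim (fun k => absurd k.1 (lt_irrefl _)) (·.2), fun k => .inr ⟨rfl, k⟩⟩

lemma Uc_gt (h : M < l) : ¬ Uc S d E Z M F R l y := fun k =>
  k.elim (fun k => absurd k.1 (by omega)) fun k => absurd k.1 (by omega)

/-- off the junk the cells are good. -/
theorem Uc.good (hc : Cls S d E Z M S.tm F R) (hd : S.k0 + S.oc + d ≤ S.tm) (hl : l ≤ M)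
    (h : ¬ Uc S d E Z M F R l y) : S.Good d E Z l S.tm y := by
  rcases hl.eq_or_lt with rfl | hl
  · exact hc y (not_not.1 fun k => h (Uc_eq.2 k))
  · exact Sys.Good.up (not_not.1 fun k => h ((Uc_lt hl).2 k)) hd

lemma cv_nil {k s h : ℕ} {c : X} (hU : ∀ y, ¬ U l y) : S.Cv (U l) l k c ∅ s h :=
  fun u _ hu => absurd hu (hU u)

theorem lc_Uc (hc : Cls S d E Z M S.tm F R) (hd : S.k0 + S.oc + d ≤ S.tm) (hF : F.card ≤ S.N)
    (hR : F.Nonempty → R ≤ S.Sx M) : Lc S (Uc S d E Z M F R) := fun l c h => by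
  rcases lt_trichotomy l M with hl | rfl | hl
  · have hg := Uc.good hc hd hl h
    have := hg.card_N le_rfl
    exact ⟨_, hg.rk_le, _, _, by omega, S.sep_le_rad _ _,
      by simpa using Sys.rad_Sx hg.rk_le 0 (by omega), hg.cv.mono fun u hu => (Uc_lt hl).1 hu⟩
  · rcases F.eq_empty_or_nonempty with rfl | h1
    · exact ⟨0, Nat.zero_le _, ∅, _, hF, le_rfl, sep_Sx S l,
        cv_nil fun y k => Uc_eq.1 k fun f hf => absurd hf (notMem_empty f)⟩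
    · refine ⟨0, Nat.zero_le _, F, max R (S.sep l), hF, le_max_right _ _,
        max_le (hR h1) (sep_Sx S l), fun u _ hu => ?_⟩
      have := Uc_eq.1 hu
      simp only [Sys.Off, not_forall, not_lt] at this
      obtain ⟨f, hf, h2⟩ := this
      exact ⟨f, hf, h2.trans (le_max_left _ _)⟩
  · exact ⟨0, Nat.zero_le _, ∅, _, by simp, le_rfl, sep_Sx S l, cv_nil fun y => Uc_gt hl⟩

lemma iso_nil (hU : ∀ y, ¬ U l y) (y : X) : S.Iso U l y :=
  ⟨_, ∅, le_rfl, sep_Sx S l, by simp, fun u hu => absurd hu (hU u), by simp⟩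

/-- cells far from the cover are isolated at all levels `≥ M`. -/
theorem Uc.iso (hF : F.card ≤ S.N)
    (hR : F.Nonempty → R ≤ S.Sx M ∧ S.Lam * max R (S.sep M) ≤ R1) (hy : S.Off F R1 y)
    (hl : M ≤ l) : S.Iso (Uc S d E Z M F R) l y := by
  rcases hl.eq_or_lt with rfl | hl
  · rcases F.eq_empty_or_nonempty with rfl | h1
    · exact iso_nil (fun y k => Uc_eq.1 k fun f hf => absurd hf (notMem_empty f)) y
    · refine ⟨max R (S.sep M), F, le_max_right _ _, max_le (hR h1).1 (sep_Sx S M), hF,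
        fun u hu _ => ?_, hy.mono Subset.rfl (hR h1).2⟩
      have := Uc_eq.1 hu
      simp only [Sys.Off, not_forall, not_lt] at this
      obtain ⟨f, hf, h2⟩ := this
      exact ⟨f, hf, h2.trans (le_max_left _ _)⟩
  · exact iso_nil (fun y => Uc_gt hl) y

lemma fl_mono (h : S.Fl U Lf m y) (hU : ∀ l < m, ∀ u, U' l u → U l u) : S.Fl U' Lf m y := by
  induction m generalizing y with
  | zero => exact h
  | succ m ih =>
    exact Sys.Sepd.mono h fun z hz => ⟨hz.1, hz.2.1.mono (hU m (by omega)),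
      ih hz.2.2 fun l hl => hU l (by omega)⟩

lemma fl_Uc (h : S.Fl (S.Jk d E Z) Lf m y) (hm : m ≤ M) : S.Fl (Uc S d E Z M F R) Lf m y :=
  fl_mono h fun _ hl _ hu => (Uc_lt (by omega)).1 hu

/-- a failing cell contains a leaf. -/
lemma fl_leaf (h : S.Fl U Lf m y) : ∃ z, Lf z ∧ S.d y z + S.ρ 0 ≤ S.loc m := by
  induction m generalizing y with
  | zero => exact ⟨y, h, by rw [S.d_self, zero_add]; rfl⟩
  | succ m ih =>
    obtain ⟨Y, h1, h2, -⟩ := h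
    obtain ⟨z, hz⟩ := card_pos.1 (by omega : 0 < Y.card)
    obtain ⟨u, h3, h4⟩ := ih (h2 z hz).2.2
    have := (h2 z hz).1
    have := S.d_tri y z u
    exact ⟨u, h3, by simp only [Sys.loc]; omega⟩

/-- no failing cell above the scale of the living region. -/
theorem not_fl {A : X → Prop} {D : ℕ} (ha : 1 ≤ S.a1)
    (hL : ∀ z, Lf z → ∃ u, A u ∧ S.d z u ≤ S.ρ 0) (hA : ∀ u u', A u → A u' → S.d u u' ≤ D)
    (hD : 2 * S.loc m + D ≤ S.sep m) : ¬ S.Fl U Lf (m + 1) y := by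
  rintro ⟨Y, h1, h2, h3⟩
  obtain ⟨a, ha, b, hb, hne⟩ := one_lt_card.1 (by omega : 1 < Y.card)
  obtain ⟨z, a1, a2⟩ := fl_leaf (h2 a ha).2.2
  obtain ⟨z', b1, b2⟩ := fl_leaf (h2 b hb).2.2
  obtain ⟨u, a3, a4⟩ := hL z a1
  obtain ⟨u', b3, b4⟩ := hL z' b1
  have := h3 a ha b hb hne
  have := hA u u' a3 b3
  have := S.d_tri a z u
  have := S.d_tri b z' u'
  have := S.d_tri a u u'
  have := S.d_tri a u' b
  have := S.d_comm u' b
  omega

end abs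

section tor
variable {L : ℕ} [NeZero L] {α κ : Type} [SemilatticeSup α] [Preorder κ]
  {S : Sys (Tor 3 L) α κ} {G : Eg} {U : ℕ → Tor 3 L → Prop}

/-- **`UC`** for locally covered junk. -/
theorem Lc.uc (h : Lc S U) (ok : Tr.Ok S G) (hN : 343 * S.N ≤ G.N0)
    (hH : ∀ l, 2 * ((3 * S.tm + 1) * S.H l) ≤ S.ρ (l + 1)) : UC S G U := fun m _ b hb => by
  classical
  have h3 : 3 ≤ S.ρ (m + 1) := by
    have a1 := (ok.kp m).1.trans (ok.kp m).2
    have a2 := ok.sep_Sg m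
    have a3 := ok.σ_sep m
    have a4 := ok.A_σ m
    have a5 := (ok.A m).1
    have : 1 * G.Sg m ≤ (G.c + 1) * G.Sg m := Nat.mul_le_mul_right _ (by omega)
    omega
  obtain ⟨P, p1, p2, p3⟩ := I.cover b 3 (S.ρ (m + 1) / 2)
  have key := fun p (hp : p ∈ P) => h m p (hb p ((p2 p hp).trans (by omega)))
  choose! k hk F s f1 f2 f3 f4 using key
  refine ⟨P.biUnion F, card_biUnion_le.trans ((sum_le_card_nsmul _ _ _ f1).trans
    ((Nat.mul_le_mul_right _ p1).trans hN)), fun y hy hU => ?_⟩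
  obtain ⟨p, hp, h1⟩ := p3 y (hy.trans (by omega))
  have a1 := Nat.mul_le_mul_right (S.H m) (hk p hp)
  have a2 := hH m
  have a3 : S.d p y + 3 * k p * S.H m + (0 + 1) * S.H m ≤ S.ρ (m + 1) := by
    rw [ok.d]; nlinarith [Nat.div_mul_le_self (S.ρ (m + 1)) 2]
  have a4 : S.Lam * s p ≤ G.Sg m := (Nat.mul_le_mul_left _ (f3 p hp)).trans (ok.Sg m).1
  rcases hU with hU | hU
  · obtain ⟨f, hf, h2⟩ := f4 p hp y (by omega) hU
    exact ⟨f, mem_biUnion.2 ⟨p, hp, hf⟩, ok.d _ _ ▸ h2.trans ((f3 p hp).trans (ok.Sx_Sg m))⟩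
  · by_contra hn
    refine hU ((f4 p hp).iso (f2 p hp) (f3 p hp) (f1 p hp) a3 fun f hf => lt_of_not_ge fun h2 =>
      hn ⟨f, mem_biUnion.2 ⟨p, hp, hf⟩, ok.d _ _ ▸ h2.trans a4⟩)

open Classical in
/-- the junk sets of G1: level `l + 1` = junk of scale `l`. -/
noncomputable def jf (J : ℕ → Tor 3 L → Prop) : ℕ → Finset (Tor 3 L)
  | 0 => ∅
  | l + 1 => univ.filter (J l)

lemma mem_jf {J : ℕ → Tor 3 L → Prop} {l : ℕ} {y : Tor 3 L} : y ∈ jf J (l + 1) ↔ J l y := by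
  simp [jf]

/-- the scales of G1 are large enough for the covers. -/
structure Fit (S : Sys (Tor 3 L) α κ) (P : G1.Scales) : Prop where
  d : ∀ x y, S.d x y = tdist x y
  a : ∀ l, S.N + S.a1 ≤ P.a (l + 1)
  σ : ∀ l, (S.Lam + 1) * S.Sx l ≤ P.σ (l + 1)
  η : ∀ l, 4 * P.η (l + 1) + (3 * S.tm + 1) * S.H l ≤ S.ρ (l + 1)

variable {P : G1.Scales}

/-- **`CovIn`** for the junk together with the failing cells. -/
theorem Lc.covFl (h : Lc S U) (f : Fit S P) (Lf : Tor 3 L → Prop) {m : ℕ} (hm : 1 ≤ m) :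
    G1.CovAt P (jf fun l y => U l y ∨ S.Fl U Lf l y) m := fun c hc => by
  classical
  obtain ⟨l, rfl⟩ : ∃ l, m = l + 1 := ⟨m - 1, by omega⟩
  rw [mem_jf, not_or] at hc
  obtain ⟨k, hk, F, s, f1, f2, f3, f4⟩ := h l c hc.1
  obtain ⟨F1, g1, g2⟩ := f4.stage (L := Lf) (n := S.a1) f2 f3 f1 hc.2
  refine ⟨F ∪ F1, (card_union_le _ _).trans ((add_le_add f1 g1).trans (f.a l)), fun y hy h1 => ?_⟩
  have a1 := Nat.mul_le_mul_right (S.H l) hk
  have a2 := f.η l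
  obtain ⟨u, hu, h2⟩ := g2 y (by rw [f.d]; nlinarith) (mem_jf.1 hy)
  exact ⟨u, hu, f.d _ _ ▸ h2.trans ((Nat.mul_le_mul_left _ f3).trans (f.σ l))⟩

theorem Lc.covIn {Γ : Type} [DecidableEq Γ] (h : Lc S U) (f : Fit S P)
    (Lf : Finset Γ → Tor 3 L → Prop) (C : Finset Γ) (m : ℕ) (hm : 1 ≤ m) :
    G1.CovIn P (jf (Jc S U Lf C)) m := fun c _ hc => h.covFl f (Lf C) hm c hc


end tor

/-! ### the leaves of the concrete system -/

section leaf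
variable {L n T : ℕ} [NeZero L] [NeZero T] {F : I.Lf} {B C E : I.Ev L n T} {Z : Finset (Tor 3 L)}
  {x : Tor 3 L}

lemma cnt_pos {R : Finset (I.V L n T)} {k r : ℕ} {z : Tor 3 L} (h : 0 < I.cnt (I.vis Z R) k z r) :
    ∃ u, ¬ I.dead Z u ∧ tdist z u ≤ r := by
  obtain ⟨y, hy⟩ := card_pos.1 h
  exact ⟨y.1, (I.mem_vis.1 (mem_filter.1 hy).2.1).2, (mem_filter.1 hy).2.2⟩

/-- a leaf sees a visible site. -/
theorem W0_alive (h : I.W0 F C E Z x) : ∃ u, ¬ I.dead Z u ∧ tdist x u ≤ F.r0 := by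
  classical
  rcases h with ⟨k, h⟩ | ⟨i, h⟩ | ⟨s, -, i, h⟩
  · exact cnt_pos (Nat.zero_lt_of_lt h)
  · obtain ⟨k, -, h1⟩ := exists_ne_zero_of_sum_ne_zero (Nat.zero_lt_of_lt h).ne'
    exact cnt_pos (Nat.pos_of_ne_zero h1)
  · obtain ⟨i', hi⟩ := card_pos.1 (Nat.zero_lt_of_lt h)
    obtain ⟨k, -, z, h1, h2⟩ := (mem_filter.1 hi).2.1
    obtain ⟨u, h3, h4⟩ := cnt_pos (lt_of_lt_of_le (by omega) h2)
    have := tdist_triangle x z u
    have := F.rr_le (s + 1)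
    exact ⟨u, h3, by omega⟩

theorem W0_bot : ¬ I.W0 F ⊥ E Z x := by
  classical
  rintro (⟨k, h⟩ | ⟨i, h⟩ | ⟨s, -, i, h⟩)
  · obtain ⟨y, hy⟩ := card_pos.1 (Nat.zero_lt_of_lt h)
    exact notMem_empty _ (I.vis_sub (mem_filter.1 hy).2.1)
  · obtain ⟨k, -, h1⟩ := exists_ne_zero_of_sum_ne_zero (Nat.zero_lt_of_lt h).ne'
    obtain ⟨y, hy⟩ := card_pos.1 (Nat.pos_of_ne_zero h1)
    exact notMem_empty _ (mem_sdiff.1 (I.vis_sub (mem_filter.1 hy).2.1)).1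
  · obtain ⟨i', hi⟩ := card_pos.1 (Nat.zero_lt_of_lt h)
    exact (mem_filter.1 hi).2.2 ((mem_filter.1 hi).2.1.mono (F.rr_anti (Nat.le_succ s))
      (I.vis_mono (union_empty _).subset Subset.rfl))

/-- locality of the leaves. -/
theorem W0_loc (h : I.W0 F (C ⊔ B) E Z x) (hB : ∀ z, I.hit B z → F.r0 < tdist x z) :
    I.W0 F C E Z x := by
  classical
  have key : ∀ v : I.V L n T, tdist x v.2.1 ≤ F.r0 → v ∉ B.1 ∧ v ∉ B.2 := fun v hv =>
    not_or.1 fun h1 => absurd hv (not_le.2 (hB _ ⟨v, h1, rfl⟩))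
  rcases h with ⟨k, h⟩ | ⟨i, h⟩ | ⟨s, hs, i, h⟩
  · exact .inl ⟨k, h.trans_le (I.cnt_le fun y h1 h2 => ⟨I.mem_vis.2 ⟨(mem_union.1
      (I.mem_vis.1 h1).1).resolve_right (key _ h2).1, (I.mem_vis.1 h1).2⟩, h2⟩)⟩
  · refine .inr (.inl ⟨i, h.trans_le (sum_le_sum fun k _ => I.cnt_le fun y h1 h2 => ⟨?_, h2⟩)⟩)
    obtain ⟨h3, h4⟩ := I.mem_vis.1 h1
    exact I.mem_vis.2 ⟨mem_sdiff.2 ⟨(mem_union.1 (mem_sdiff.1 h3).1).resolve_right (key _ h2).2,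
      (mem_sdiff.1 h3).2⟩, h4⟩
  · refine .inr (.inr ⟨s, hs, i, h.trans_le (card_le_card (monotone_filter_right _
      fun i' _ ⟨⟨k, hk, z, h1, h2⟩, h3⟩ => ⟨⟨k, hk, z, h1, h2.trans
        (I.cnt_le fun y h4 h5 => ⟨?_, h5⟩)⟩, h3⟩))⟩)
    have := tdist_triangle x z y.1
    have := F.rr_le (s + 1)
    obtain ⟨h6, h7⟩ := I.mem_vis.1 h4
    exact I.mem_vis.2 ⟨mem_union.2 ((mem_union.1 h6).imp_right fun h8 =>
      (mem_union.1 h8).resolve_right (key (_, y) (by simp only; omega)).1), h7⟩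

/-- a few more change points cost one rung. -/
theorem G0_add {t : ℕ} {X : Finset (I.V L n T)} (h : I.G0 F t E Z x) (hD : F.D ≤ T)
    (hX : X.card ≤ 2 * F.j1) : I.G0 F (t + 1) (E.1, E.2 ∪ X) Z x := fun i => by
  have k := (h i).mono (Nat.le_succ t) le_rfl Subset.rfl
  refine ⟨k.c1, fun i' hi => ?_, k.c3⟩
  have a1 := (h i).c2 i' hi
  have a2 := (I.chg_le_card (X := I.vis Z X) (i := i') (z := x) (r := F.r0) hD).trans
    ((card_le_card I.vis_sub).trans hX)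
  have a3 := I.chg_union (D := F.D) (R := I.vis Z E.2) (R' := I.vis Z X) (i := i') (z := x)
    (r := F.r0)
  rw [← I.vis_union] at a3
  exact a3.trans (by rw [mul_add, add_mul]; omega)

end leaf

/-! ### the engine on a class -/

section core
variable {L n T : ℕ} [NeZero L] [NeZero T]

/-- the word of the leaf events. -/
structure Lw (ex ey : Fin T → Tor 3 L × Fin n) (F : I.Lf) (p0 : Fin T → ℝ) (Es w B : ℕ) (θ : ℝ) :
    Prop where
  word : RR.Word ex ey p0 Es w B θ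
  blk : Wk.Blk ex ey p0
  hD : F.D = w * Es
  hl : 1 ≤ F.l ∧ F.l < B

/-- **all numbers of the engine** (`d` dense parties, living sites in a ball of radius `r`). -/
structure Pk (ex ey : Fin T → Tor 3 L × Fin n) (P : I.Num) (z0 : Tor 3 L) (G : Eg) (Q : Pz)
    (W : Gl.Wd T) (d r : ℕ) : Prop where
  ok : Tr.Ok (I.sys n T P z0) G
  nm : Nm (I.sys n T P z0) G Q L n T
  gr : ∃ (Sc : G1.Scales) (k k' th : ℕ → ℕ) (j d0 Nb : ℕ) (e : ℝ),
    Gl.Nu W L P.toLf Sc (P.tm + 2) 2 j ∧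
    Gl.NH (I.sys n T P z0) G Sc k k' Q P.toLf W.B W.κ 0 e d0 Nb ∧ W.er L n ≤ e ∧
    Tb.Nu (I.sys n T P z0) G Sc k k' th ∧ Fit (I.sys n T P z0) Sc ∧
    4 * (2 * r + 1) ^ 3 ≤ Gl.vT G k
  lf : ∃ (N : Wk.Lv) (Es w B : ℕ) (θ : ℝ), Lw ex ey P.toLf W.p0 Es w B θ ∧ P.tm ≤ N.t ∧
    Wk.NmE ex ey N P G Q.η (I.sys n T P z0).loc W.p0 d Es w B 2 θ
  hd : P.k0 + 27 + d ≤ P.tm
  N0 : 343 * P.N ≤ G.N0
  hH : ∀ l, 2 * ((3 * P.tm + 1) * P.H l) ≤ P.ρ (l + 1)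
  r0 : P.r0 + 1 ≤ P.ρ 0
  one : 1 ≤ P.a1 ∧ 1 ≤ P.j1
  top : 2 * (I.sys n T P z0).loc (G.mt - 1) + 2 * (r + 1) ≤ P.sep (G.mt - 1)
  hJ : n * (2 * r + 1) ^ 3 < 2 ^ Q.J

variable {ex ey : Fin T → Tor 3 L × Fin n} {P : I.Num} {z0 : Tor 3 L} {G : Eg} {Q : Pz}
  {W : Gl.Wd T} {d r M R m : ℕ} {p : Fin T → ℝ} {b : I.V L n T → ℝ} {Y : ℝ} {E : I.Ev L n T}
  {X0 : Finset (I.V L n T)} {Z F : Finset (Tor 3 L)} {c y : Tor 3 L}

open Classical in
/-- **the engine in a pinned model of a class.** -/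
theorem core (K : Pk ex ey P z0 G Q W d r) (hW : W.Ok ex ey P.toLf)
    (md : Gl.Md W ex ey p (E.1, E.2 ∪ X0)) (hX : X0.card ≤ 2) (hb : ∀ v, 0 ≤ b v ∧ b v ≤ 1)
    (hE : ∀ v ∈ E.1, b v = 0) (hZ : ∀ v, v.2.1 ∈ Z → b v = 0) (hY : 0 < Y ∧ Y < 1)
    (h0 : ∀ v, Bi.bs b Y v ≤ W.b0 v.1) (hr : ∀ z ∉ Z, tdist c z ≤ r) (hM : M < G.mt)
    (hc : Cls (I.sys n T P z0) d E Z M P.tm F R) (hF : F.card ≤ P.N)
    (hR : F.Nonempty → R ≤ P.Sx M) (hm : m < G.mt)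
    (hy : ∀ l, m ≤ l → (I.sys n T P z0).Iso (Uc (I.sys n T P z0) d E Z M F R) l y) :
    Bi.BM ex ey p b Y (fun _ l => if (I.sys n T P z0).Fl (Uc (I.sys n T P z0) d E Z M F R)
      (I.W0 P.toLf (I.ev ex ey l.toFinset) E Z) m y then 1 else 0) ≤ eps (I.sys n T P z0) G Q n m := by
  set S := I.sys n T P z0 with hS
  set U := Uc S d E Z M F R with hU
  obtain ⟨Sc, k, k', th, j, d0, Nb, e, nu, nh, er, tb, fit, vt⟩ := K.gr
  obtain ⟨N, Es, w, B, θ, lw, ht, ne⟩ := K.lf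
  have Md : Wk.Md ex ey P.toLf p W.p0 E X0 Es w B 2 θ :=
    ⟨lw.word, lw.blk, lw.hD, lw.hl, md.hp, md.free, md.rp, hX⟩
  have lc : Lc S U := lc_Uc hc K.hd hF hR
  have gd : ∀ l ≤ M, ∀ u, ¬ U l u → S.Good d E Z l P.tm u := fun l hl u hu => Uc.good hc K.hd hl hu
  have gd' : ∀ l ≤ M, ∀ u, ¬ U l u → S.Good d E Z l N.t u := fun l hl u hu => (gd l hl u hu).up ht
  have hF' : ∃ (F : Finset (Tor 3 L)) (R : ℕ), F.card ≤ P.N ∧ R ≤ P.Sx M ∧
      ∀ y, (∀ f ∈ F, R < tdist f y) → S.Good d E Z M N.t y := by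
    rcases F.eq_empty_or_nonempty with h | h
    · exact ⟨∅, 0, by simp, Nat.zero_le _, fun y _ => (hc y (by simp [h, Sys.Off])).up ht⟩
    · exact ⟨F, R, hF, hR h, fun y hy => (hc y hy).up ht⟩
  have top : ∀ C u, ¬ Jc S U (fun C => I.W0 P.toLf (I.ev ex ey C) E Z) C G.mt u := fun C u => by
    refine not_or.2 ⟨Uc_gt hM, ?_⟩
    rw [show G.mt = G.mt - 1 + 1 by omega]
    refine not_fl (A := fun u => ¬ I.dead Z u) K.one.1 (fun z hz => ?_) (fun u u' a a' => ?_) K.top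
    · obtain ⟨u, h1, h2⟩ := W0_alive hz
      exact ⟨u, h1, h2.trans P.r0_le⟩
    · simp only [I.dead, not_forall] at a a'
      obtain ⟨z, a1, a2⟩ := a
      obtain ⟨z', b1, b2⟩ := a'
      have := hr z a2
      have := hr z' b2
      have := tdist_triangle u z c
      have := tdist_triangle u c z'
      have := tdist_triangle u z' u'
      have := tdist_comm z c
      have := tdist_comm z' u'
      show tdist u u' ≤ _
      omega
  refine eng ex ey S G Q p b Y U (fun C => I.W0 P.toLf (I.ev ex ey C) E Z) _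
    ⟨md.hp, hb, hY, K.ok, K.nm, fun g hg => ?_, ?_, Wk.hp (Z := Z) Md ne, fun ξ l hξ _ hl => ?_⟩
    m hm y fun l hl _ => hy l hl
  · refine lt_of_le_of_lt (le_trans (card_le_card fun x hx => Wk.mem_sl.2 (hr _ fun a => ?_))
      (Wk.card_sl c r)) K.hJ
    exact prod_ne_zero_iff.1 hg _ (mem_filter.1 hx).2 (hZ _ a)
  · have z : ∀ v, b v = 0 → Bi.bs b Y v = 0 := fun v hv => by simp [Bi.bs, hv]
    refine Gl.ht (th := th) hW md nu le_rfl (Bi.bs_fld hb hY.1.le hY.2)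
      (I.le_bE h0 (fun v hv => z v (hE v hv)) fun v hv => z v (hZ v hv))
      (.inr ⟨le_rfl, c, r, hr, vt⟩) er nh fun ξ C _ _ => ⟨jf (Jc S U _ C), ⟨tb, ?_, fun l _ u hu =>
        ⟨u, by rw [tdist_self]; omega, mem_jf.1 hu⟩⟩, fun l hl _ => lc.covIn fit _ C l hl,
        fun u hu => ?_⟩
    · rw [tb.mt]
      exact eq_empty_of_forall_notMem fun u hu => top C u (mem_jf.1 hu)
    · rw [mem_jf, Jc, not_or] at hu
      refine fun i => (G0_add (S.G0_step hu.2 (gd 0 (Nat.zero_le _) u hu.1)) Md.DT.2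
        (hX.trans (by have := K.one.2; omega)) i).mono le_rfl ⟨Subset.rfl, ?_⟩ Subset.rfl
      exact (union_right_comm _ _ _).subset
  · have hg : ∀ i < l.length, sq l i ∈ Gas.L ex ey ξ ∧ ub b (sq l i) ≠ 0 := fun i hi =>
      hl _ (by rw [sq, List.getD_eq_getElem _ _ hi]; exact List.getElem_mem hi)
    refine ⟨lc.uc K.ok K.N0 K.hH, top _, fun C C' u h a => a.mono (I.ev_mono h),
      fun u a => W0_bot (I.ev_empty (ex := ex) (ey := ey) ▸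
        (show I.W0 _ (I.ev ex ey ∅) _ _ _ from a)), fun i hi u a a' => ?_,
      Wk.leaf Md ne gd' hF' hE hZ hξ hg, Wk.fast Md ne gd' hF' hE hZ hξ hg⟩
    by_contra hn
    have e : St (sq l) (i + 1) = St (sq l) i ∪ {sq l i} := by
      rw [St, St, range_add_one, image_insert, insert_eq, union_comm]
    change I.W0 _ (I.ev ex ey _) _ _ _ at a
    rw [e, I.ev_union] at a
    refine a' (W0_loc a fun z hz => lt_of_not_ge fun h1 => hn ?_)
    rw [I.ev_eq (ξ := ξ) (singleton_subset_iff.2 (hg i hi).1)] at hz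
    obtain ⟨v, h2, h3⟩ := I.hit_evp hW.nn hz
    have h4 := K.r0
    have := tdist_triangle u z v.2.1
    have := tdist_comm z v.2.1
    refine ⟨v, show v ∈ (sq l i).2 by simpa [pts] using h2, (?_ : tdist u v.2.1 ≤ P.ρ 0)⟩
    rcases h3 with h3 | h3
    · rw [h3]; omega
    · omega

variable {Gm : N337.M.Bs T (Tor 3 L × Fin n)} {B nc R0 R1 : ℕ} {Sd : Finset (I.V L n T) → Prop}
  {s : N337.M.Cfg T (Tor 3 L × Fin n)} {A : Finset (I.V L n T)} {ξ0 : Fin T → Bool}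

omit [NeZero L] in
/-- without fugacity there are no loops. -/
theorem pm_zero {Λ : Type} [Fintype Λ] [DecidableEq Λ] {Gm : N337.M.Bs T Λ} {p : Fin T → ℝ}
    {b : Fin T × Λ → ℝ} (hb : ∀ x, b (0, x) = 0) {A : Finset (Lp T Λ) → Prop} (hA : ¬ A ∅) :
    pb (C9.PM Gm p b) A = 0 := by
  classical
  refine sum_eq_zero fun ξ _ => mul_eq_zero_of_right _ (sum_eq_zero fun B hB => ?_)
  rcases B.eq_empty_or_nonempty with rfl | ⟨g, hg⟩
  · exact mul_eq_zero_of_right _ (if_neg hA)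
  · have h1 := mem_powerset.1 hB hg
    obtain ⟨x, hx⟩ := card_pos.1 (Cr.wd_pos h1)
    have h2 : ub b g = 0 := prod_eq_zero (mem_filter.1 hx).2 (hb x)
    have h3 : Pe.wt (ub b) (Gas.L Gm.ex Gm.ey ξ) B = 0 := prod_eq_zero h1 ((if_pos hg).trans h2)
    rw [h3, zero_mul]

/-- one cell in a configuration with an arc. -/
theorem cell (K : Pk Gm.ex Gm.ey P z0 G Q W d r) (w : C9.Wr W Gm P.toLf Y) {ε : ℝ} (h0 : 0 ≤ ε)
    (hε : eps (I.sys n T P z0) G Q n m ≤ ε)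
    (hs : Gm.Val s) (hr : ∀ v ∉ s.Z, tdist c v.2.1 ≤ r) (hA : Arc.ends Gm.ex Gm.ey ξ0 A ≤ 1)
    (hE : E = I.ev Gm.ex Gm.ey s.e ⊔ I.evp Gm.ex Gm.ey ξ0 A) (hM : M < G.mt)
    (hc : Cls (I.sys n T P z0) d E (I.kil s.Z) M P.tm F R) (hF : F.card ≤ P.N)
    (hR : F.Nonempty → R ≤ P.Sx M) (hm : m ≤ M)
    (hy : ∀ l, m ≤ l → (I.sys n T P z0).Iso (Uc (I.sys n T P z0) d E (I.kil s.Z) M F R) l y) :
    pb (C9.PM Gm (Arc.pin (Gm.pn s) (Arc.tch Gm.ex Gm.ey A) ξ0) (Arc.kill (Gm.mdl Y s).b A))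
      (fun C => Ld.Fl (I.sys n T P z0) d E (I.kil s.Z) (I.ev Gm.ex Gm.ey C) m y) ≤ ε := by
  classical
  rcases w.Y0.eq_or_lt with rfl | hY
  · refine (pm_zero (fun x => ?_) fun h => ?_).trans_le h0
    · simp [Arc.kill, N337.M.Bs.mdl, kill, Top.bt]
    · rw [I.ev_empty] at h
      obtain ⟨_, k, -⟩ := fl_leaf h
      exact W0_bot k
  refine le_trans ?_ hε
  obtain ⟨ξ, -, hξ⟩ := Gas.qq_supp hs
  have md : Gl.Md W Gm.ex Gm.ey (Gm.pn s) (I.ev Gm.ex Gm.ey s.e) :=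
    ⟨w.ok.pn s, fun r hr => by rw [w.p0]; exact if_neg hr, I.rp_ev _ hξ⟩
  have e : Bi.bs (kill (fun _ => 1) (s.K ∪ A)) Y = Arc.kill (Gm.mdl Y s).b A := by
    funext v
    simp only [Bi.bs, kill, Arc.kill, N337.M.Bs.mdl, Top.bt, mem_union]
    by_cases a : v ∈ s.K <;> by_cases a' : v ∈ A <;> simp [a, a']
  have hb := ((C9.fld (G := Gm) w.Y0 w.Y1 s).kill A).mem
  have hP := C9.pl_PM (G := Gm) (md.child A ξ0).hp hb
  subst hE
  have := core (b := kill (fun _ => 1) (s.K ∪ A)) (c := c) K w.wd (md.child A ξ0)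
    (I.card_opn.trans (by omega)) (fun v => by unfold kill; split_ifs <;> norm_num)
    (fun v hv => if_pos ((mem_union.1 hv).elim (fun a => mem_union_left _ (mem_union_right _ a))
      (mem_union_right _))) (fun v hv => if_pos (mem_union_left _ (mem_union_left _ (I.mem_of_kil hv))))
    ⟨hY, w.Y1⟩ (fun v => le_trans ?_ (w.b0 v)) (fun z hz => ?_) hM hc hF hR (hm.trans_lt hM) hy
  · refine (hP.pb_imp fun _ _ h => fl_Uc (F := F) (R := R) h hm).trans (le_trans (le_of_eq ?_) this)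
    rw [Ld.pb_eq, Bi.BM_set _ _ _ fun _ C => if (I.sys n T P z0).Fl _
      (I.W0 P.toLf (I.ev Gm.ex Gm.ey C) _ _) m y then 1 else 0, e]
    simp only [Ld.sum_bw]
    rfl
  · simp only [Bi.bs, kill, Top.bt]
    split_ifs <;> simp [hY.le]
  · simp only [I.mem_kil, not_forall] at hz
    obtain ⟨t, a, hz⟩ := hz
    exact hr _ hz

/-- **F2 given an arc.** -/
theorem f2a (K : Pk Gm.ex Gm.ey P z0 G Q W d r) (w : C9.Wr W Gm P.toLf Y)
    (hS : ∀ Z, Sd Z → ∃ c, ∀ v ∉ Z, tdist c v.2.1 ≤ r) (hm : m < G.mt) (hN : nc ≤ P.N)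
    (hR : nc ≠ 0 → R0 ≤ P.Sx m ∧ P.Lam * max R0 (P.sep m) ≤ R1) {ε : ℝ} (h0 : 0 ≤ ε)
    (hε : eps (I.sys n T P z0) G Q n m ≤ ε) {hT : T = B * P.D} {hp : C9.PtN P.toLf B} :
    C9.F2A (C9.ppI Gm P z0 hT hp) Sd Y d m nc R0 R1 ε :=
  fun s F _ _ _ hs h1 hF hc hA hx => by
  obtain ⟨c, h2⟩ := hS _ h1
  have h3 : F.Nonempty → _ := fun h => hR fun a => h.card_pos.ne' (by omega)
  exact cell K w h0 hε hs h2 hA rfl hm hc (hF.trans hN) (fun h => (h3 h).1) le_rfl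
    fun l hl => Uc.iso (hF.trans hN) h3 hx hl

/-- **N2.** -/
theorem n2 (K : Pk Gm.ex Gm.ey P z0 G Q W d r) (w : C9.Wr W Gm P.toLf Y)
    (hS : ∀ Z, Sd Z → ∃ c, ∀ v ∉ Z, tdist c v.2.1 ≤ r) (hm : m + 1 < G.mt) {ε : ℝ} (h0 : 0 ≤ ε)
    (hε : eps (I.sys n T P z0) G Q n m ≤ ε) :
    Ld.N2 (I.ins Gm.ex Gm.ey P z0) Gm Sd Y d m (vol (P.ρ (m + 1)) * ε) := fun s x a => by
  classical
  obtain ⟨c, h2⟩ := hS _ a.sd
  have hP := Ld.pl_PC w.ok w.Y0 w.Y1.le s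
  set S := I.sys n T P z0
  set E := I.ev Gm.ex Gm.ey s.e
  refine (Ld.Sub.un hP.sub ((Geo.bl x (P.ρ (m + 1))).filter (S.Iso (S.Jk d E (I.kil s.Z)) m))
    (fun y C => Ld.Fl S d E (I.kil s.Z) (I.ev Gm.ex Gm.ey C) m y) (ε := ε) ?_ fun y hy => ?_).trans ?_
  · rintro C ⟨Y, h3, h4, -⟩
    obtain ⟨y, hy⟩ := card_pos.1 (by omega : 0 < Y.card)
    exact ⟨y, mem_filter.2 ⟨Geo.mem_bl.2 (h4 y hy).1, (h4 y hy).2.1⟩, (h4 y hy).2.2⟩
  · have := cell (A := ∅) (ξ0 := fun _ => false) (E := E) (y := y) K w h0 hε a.val h2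
      (by rw [Arc.ends_empty]; omega) (by rw [I.evp_empty, sup_bot_eq]) hm a.cl (by simp) (by simp)
      (Nat.le_succ m) fun l hl => ?_
    · rw [Arc.pin_empty, Arc.kill_empty] at this
      exact this
    · rcases hl.eq_or_lt with rfl | hl
      · exact (mem_filter.1 hy).2.mono fun u hu => (Uc_lt (Nat.lt_succ_self _)).1 hu
      · exact Uc.iso (R1 := 0) (by simp) (by simp) (by simp [Sys.Off]) hl
  · refine mul_le_mul_of_nonneg_right ((Nat.cast_le.2 (card_filter_le _ _)).trans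
      ((Geo.card_bl x _).trans_eq ?_)) h0
    rw [vol]; push_cast; ring

end core

end Crest.Agent.N337.En
private theorem rz_bb613f11d7 : type_of% @_root_.Crest.Agent.N337.En.jf.eq_1 := @_root_.Crest.Agent.N337.En.jf.eq_1 -- L175
end

-- ▼ part N337/Par/LeafE

/-!
# Row 337 (helper86): the numbers of the coin events of the engine on the tiers
-/

set_option autoImplicit false
set_option linter.unusedSectionVars false

namespace Crest.Agent.N337.Wk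

open Finset Filter Crest.Agent.N337.Rep Free KV Geo I Tr Par

/-- the numbers. -/
noncomputable def lv (u : ℕ) (P : I.Num) (G : Eg) (t x0 : ℕ) : Lv where
  t := t
  m := G.n1
  f := 9 * Y u 0
  W := 9 * Y u 0 + 27 * (2 * t * P.j1 + x0)
  τ := Y u 3
  k := P.l1 / (G.n1 * Y u 3)
  c := 8 * Y u 0
  Γ := s u 2
  fm m := 14 * Y u 0 * (2 * (2 * t * P.j1 + P.lw t m + hx P m) + 1) ^ 3 + Y u (48 * m + 11)
  cm m := (14 * Y u 0 * (2 * (2 * t * P.j1 + P.lw t m + hx P m) + 1) ^ 3 : ℕ)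

/-- **the tiers** (no `L`, no word). -/
structure TE (u : ℕ) (P : I.Num) (G : Eg) (S : G1.Scales) (t d n x0 : ℕ) : Prop where
  hu : 100 ≤ u
  fac : (D ^ 101 + 1).factorial ≤ Y u 0
  g1 : (11 * S.ρ 0 + 6 ≤ P.A ∧ P.A ≤ S.η 0) ∧ S.η 0 ≤ Y u 5 ∧ 2 * (t + 1) * P.n1 ≤ S.a 0 ∧
    S.a 0 ≤ Y u 0 ∧ Rb u 1 1 (S.K 0)
  lg : P.sm * G.n1 ≤ u
  c0 : n ≤ Y u 0 ∧ t ≤ Y u 0 ∧ x0 ≤ Y u 0 ∧ P.n1 ≤ Y u 0
  n1 : 0 < G.n1 ∧ G.n1 ≤ P.n1 + 1
  A : Y u 0 ≤ P.A ∧ P.A ≤ Y u 1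
  j1 : P.j1 = Y u 1
  l : 1 ≤ P.l ∧ Y u 4 ≤ P.l1
  dl : P.l * Y u 2 ≤ P.dl ∧ P.l * Y u 2 ≤ P.r0 ∧ P.r0 ≤ Y u 5
  hG : 0 < G.mt ∧ G.D = P.D ∧ 2 * P.r0 ≤ G.r0
  ht : P.k0 + 27 + d ≤ t
  hρ : ∀ m, (t + 1) * P.a * (2 * P.rad m t + 1) + 3 * t * P.H m ≤ P.ρ (m + 1)
  ρ : ∀ m, P.ρ m ≤ Y u (48 * m + 11) ∧ P.N * (2 * P.Sx m + 1) ≤ Y u (48 * (m + 1) + 11)
  lo : ∀ m < G.mt, Y u (48 * m + 12) ≤ G.lo m

variable {L n T : ℕ} [NeZero L] [NeZero T] {ex ey : Fin T → Tor 3 L × Fin n}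

/-- **the word is fine** (`w` large). -/
structure WE (u mt L n : ℕ) (S : G1.Scales) (W : Gl.Wd T) (θ : ℝ) : Prop where
  hL : 2 * Y u 6 ≤ L ∧ S.Ok L
  B : W.B ≤ Y u 11
  κ : G1.Cg W.κ ≤ Y u 0
  fine : 2 * (W.Bd.card + L ^ 3 * Y u 2 + 1) ≤ W.w
  er : W.er L n ≤ s u 4
  θ0 : 0 ≤ θ ∧ θ * W.w ≤ Y u 0
  θ1 : θ ≤ s u (48 * mt + 12)

variable {u t d x0 : ℕ} {P : I.Num} {G : Eg} {S : G1.Scales} {W : Gl.Wd T} {θ : ℝ}

lemma clock_b2 {F : Lf} (h : W.Ok ex ey F) :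
    G1.Clock ex ey W.p0 b2 W.E0 W.w W.B W.q W.κ W.Bd :=
  { h.clock with
    one := fun i hi hb a ha => if_neg fun e => by
      have := h.clock.one i hi hb a ha
      rw [e] at this
      linarith [h.h0, h.hY.2] }

lemma err_half {F : Lf} (h : W.Ok ex ey F) : G1.err W.q (1 / 2) L n W.B ≤ 4 * W.er L n := by
  have h1 : 1 ≤ (1 / (1 - W.Y)) ^ 2 :=
    one_le_pow₀ (one_le_one_div (by linarith [h.hY.2]) (by linarith [h.hY.1]))
  have h2 := mul_le_mul_of_nonneg_left h1 (by positivity : (0 : ℝ) ≤ 4 * W.q ^ 2 * L ^ 3 * n * W.B)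
  unfold Gl.Wd.er G1.err
  norm_num at h2 ⊢
  linarith

namespace TE
variable (h : TE u P G S t d n x0)
include h

lemma m_le : G.n1 ≤ Y u 1 := h.n1.2.trans (by have := h.hu; have := h.c0.2.2.2; tier! 0)

lemma lW {a b : ℕ} (ha : a ≤ Y u 1) (hb : b ≤ Y u 1) :
    a * (b + (2 * P.l + 1) * (lv u P G t x0).W + 2) ≤ P.l * Y u 2 := by
  obtain ⟨_, _, _, _⟩ := h.c0
  have := h.hu
  have := h.j1.le
  have h1 : a * (b + 3 * (9 * Y u 0 + 27 * (2 * t * P.j1 + x0)) + 2) ≤ Y u 2 := by tier! 1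
  refine le_trans ?_ (Nat.mul_le_mul_left _ h1)
  rw [mul_left_comm]
  refine Nat.mul_le_mul_left _ ?_
  have := h.l.1
  simp only [lv]
  nlinarith [Nat.zero_le b, Nat.zero_le (9 * Y u 0 + 27 * (2 * t * P.j1 + x0))]

lemma ρ_le : (lv u P G t x0).ρ P.toLf ≤ 2 * P.r0 := by
  have := h.lW (one_le_Y u 1) (Nat.zero_le _)
  have := h.dl.2.1
  simp only [Lq.ρ]
  omega

lemma R_le : (lv u P G t x0).R P.toLf ≤ 2 * P.r0 :=
  le_trans (by simp only [Lq.R, Lq.ρ]; nlinarith [Nat.zero_le (lv u P G t x0).W]) h.ρ_le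

lemma loc_le (z0 : Tor 3 L) (m : ℕ) : (sys n T P z0).loc m ≤ 2 * Y u (48 * m + 11) := by
  have := h.hu
  induction m with
  | zero => exact (h.ρ 0).1.trans (by omega)
  | succ m ih =>
    have h1 : 2 * Y u (48 * m + 11) ≤ Y u (48 * (m + 1) + 11) := by tier! (48 * m + 11)
    have h2 := (h.ρ (m + 1)).1
    change P.ρ (m + 1) + _ ≤ _
    omega

lemma lw_le (m : ℕ) : P.lw t m ≤ 2 * Y u (48 * m + 11) := by
  have := h.hu
  induction m with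
  | zero => exact Nat.zero_le _
  | succ m ih =>
    have h1 : 2 * Y u (48 * m + 11) ≤ Y u (48 * (m + 1) + 11) := by tier! (48 * m + 11)
    have h2 := (h.ρ (m + 1)).1
    have h3 := h.hρ m
    simp only [Num.lw]
    omega

lemma hx_le (m : ℕ) : hx P m ≤ 2 * Y u (48 * m + 11) := by
  have := h.hu
  induction m with
  | zero => exact Nat.zero_le _
  | succ m ih =>
    have h1 : 2 * Y u (48 * m + 11) ≤ Y u (48 * (m + 1) + 11) := by tier! (48 * m + 11)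
    have h2 := (h.ρ m).2
    simp only [hx]
    omega

lemma pb2 {a k : ℕ} (ha : a ≤ 2 * Y u k) : Pb u k 2 a :=
  ha.trans (Pb.mul (.num h.hu (by norm_num)) (.tier le_rfl))

lemma exp_le (k : ℕ) : Real.exp (-(Y u k : ℝ)) ≤ s u (k + 101) := exp_neg_le h.fac

lemma Dp_le {j : ℕ} (hj : j ≤ 101) : D ^ j ≤ Y u 0 := (Nat.pow_le_pow_right D_pos hj).trans
  ((Nat.le_succ _).trans ((Nat.self_le_factorial _).trans h.fac))

theorem nm0 (hW : W.Ok ex ey P.toLf) (hw : WE u G.mt L n S W θ) :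
    Nm0 ex ey (lv u P G t x0).toLq P.toLf W.p0 W.E0 W.w W.B x0 θ := by
  obtain ⟨c1, c2, c3, c4⟩ := h.c0
  have hu := h.hu
  have hj := h.j1.le
  have hm := h.m_le
  have hA := h.A.2
  have h12 : θ ≤ s u 12 := hw.θ1.trans (s_anti (by omega))
  have hs : ∀ a : ℕ, a ≤ Y u 2 → a * θ ≤ 1 := fun a ha =>
    (mul_le_mul_of_nonneg_left h12 (Nat.cast_nonneg a)).trans
      (le_trans (by rtier! 2) (s_le_one u 0))
  have y1 : (1 : ℝ) ≤ Y u 0 := by exact_mod_cast one_le_Y u 0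
  refine ⟨h.n1.2, le_rfl, ?_, by simpa using hs 7 (le_trans (by norm_num) (num_le hu 2)), ?_, ?_, ?_,
    ⟨Y_pos u 3, ?_⟩, S, W.q, W.κ, W.Bd, Y u 2, u * D ^ 6, hw.hL.2, clock_b2 hW, h.g1.1,
    h.g1.2.2.1, ?_, hw.fine, ?_, ?_, ?_, ?_⟩
  · have := h.lW (one_le_Y u 1) (Nat.zero_le _)
    have := h.dl.2.1
    omega
  · have := hs (7 * (27 * (2 * t * P.j1 + x0))) (by tier! 1)
    have := hw.θ0.2
    simp only [lv]
    push_cast at *
    linarith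
  · have := h.n1.2
    have h1 : x0 + 2 * ((P.n1 + 1) * (9 * Y u 0) + (P.n1 + 1) * n ^ 2) ≤ Y u 1 := by tier! 0
    refine le_trans ?_ (h1.trans h.j1.ge)
    simp only [lv]
    gcongr
  · refine le_trans (Nat.mul_le_mul_left _ ?_) ((h.lW hm hA).trans h.dl.1)
    nlinarith [Nat.zero_le (lv u P G t x0).W]
  · simp only [lv]
    rw [← mul_assoc]
    exact Nat.mul_div_le _ _
  · have := h.g1.2.2.2.1
    simp only [lv]
    tier! 1
  · have := hw.hL.1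
    have := one_le_Y u 6
    rw [← Y_def]
    omega
  · have := h.g1.2.1
    have h1 : S.η 0 < Y u 6 := by tier! 5
    rw [← Y_def]
    omega
  · have := h.dl.2.2
    have h1 : 4 * (2 * P.r0 + 1) ^ 3 ≤ Y u 6 := by tier! 5
    rw [← Y_def]
    exact h1.trans (le_trans (by have := one_le_Y u 6; omega) (Nat.le_self_pow three_ne_zero _))
  · have k1 : Rb u 0 1 (G1.Cg W.κ) :=
      .of_le (by have := hW.clock.hκ; unfold G1.Cg; positivity) hw.κ le_rfl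
    have k2 := h.g1.2.2.2.2
    have k3 : G1.err W.q (1 / 2) L n W.B ≤ s u 3 := (err_half hW).trans
      ((mul_le_mul_of_nonneg_left hw.er (by norm_num)).trans (by rtier! 3))
    simp only [lv, G1.Cc, Nat.log_one_right, Nat.cast_zero, add_zero, one_pow, mul_one, tsub_self]
    generalize S.K 0 = K at *
    have k4 : ((Y u 2 * (n * (2 * (2 * P.A + (9 * Y u 0 + 27 * (2 * t * P.j1 + x0))) + 1) ^ 3) : ℕ) *
        (G1.Cg W.κ * (16 * (P.A : ℝ) + 2 * (3 * 10 ^ 6 * K) + 1))) * s u 3 ≤ s u 2 := by rtier! 2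
    refine le_trans ?_ k4
    rw [mul_assoc _ _ (s u 3), mul_assoc _ _ (s u 3), add_one_mul, div_eq_mul_inv]
    have := k1.1
    exact mul_le_mul_of_nonneg_left (mul_le_mul_of_nonneg_left (add_le_add le_rfl k3) this)
      (Nat.cast_nonneg _)

/-- the returns of the base leaf. -/
lemma ret (hB : W.B ≤ Y u 11) {R : ℕ} (hR : R ≤ 2 * P.r0) :
    (W.B * ((P.r0 + 1) * (G.n1 * (n * (2 * R + 1) ^ 3 + 1) ^ G.n1 * (n * (2 * R + 1) ^ 3))) : ℕ) *
      ((Y u 3 * 2 ^ (P.l / Y u 3 + 1) : ℕ) * (2 * s u 2 ^ (P.l1 / (G.n1 * Y u 3)))) ≤ s u 63 ^ 2 := by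
  have hu := h.hu
  have hm := h.m_le
  have hn := h.c0.1
  have r5 := h.dl.2.2
  have hR' : Pb u 5 2 R := h.pb2 (hR.trans (Nat.mul_le_mul_left 2 r5))
  have hR6 : R ≤ Y u 6 := hR'.up (by norm_num) (by norm_num)
  have d1 := h.Dp_le (j := 5) (by norm_num)
  have d2 := h.Dp_le (j := 63) (by norm_num)
  have p0 := Nat.mul_pos h.n1.1 (Y_pos u 3)
  have k1 : D ^ 5 * G.n1 + D ^ 63 ≤ P.l1 / (G.n1 * Y u 3) := (Nat.le_div_iff_mul_le p0).2
    (le_trans (by tier! 3) h.l.2)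
  have k2 := Nat.lt_div_mul_add (a := P.l1) p0
  generalize P.l1 / (G.n1 * Y u 3) = k at *
  have k3 : 1 ≤ k := (one_le_Dp 63).trans (le_trans (Nat.le_add_left _ _) k1)
  have k4 : P.l / Y u 3 + 1 ≤ u * D ^ 1 * k := by
    have a1 : P.l / Y u 3 ≤ P.sm * G.n1 * (k + 1) := Nat.div_le_of_le_mul (P.hl.trans
      ((Nat.mul_le_mul_left _ k2.le).trans (le_of_eq (by ring))))
    have a2 := Nat.mul_le_mul_right (k + 1) h.lg
    have a3 := Nat.mul_le_mul_left u k3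
    have a4 := Nat.mul_le_mul_left (u * k) D_ge
    rw [pow_one, mul_right_comm]
    rw [mul_add_one u] at a2
    omega
  have k5 : ((2 ^ (P.l / Y u 3 + 1) : ℕ) : ℝ) * s u 2 ^ k ≤ s u 1 ^ k := by
    have a1 : ((2 ^ (P.l / Y u 3 + 1) : ℕ) : ℝ) ≤ Y u 1 ^ k := by
      rw [Y_def u 1, ← Nat.cast_pow, ← pow_mul]
      exact Nat.cast_le.2 (Nat.pow_le_pow_right two_pos k4)
    refine (mul_le_mul_of_nonneg_right a1 (pow_pos (s_pos u 2) k).le).trans ?_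
    rw [← mul_pow]
    exact pow_le_pow_left₀ (mul_pos (Yr_pos u 1) (s_pos u 2)).le (by rtier! 1) k
  have k6 : (((n * (2 * R + 1) ^ 3 + 1) ^ G.n1 : ℕ) : ℝ) * s u 1 ^ k ≤ s u 64 := by
    have a1 : (n * (2 * R + 1) ^ 3 + 1) ^ G.n1 ≤ Y u 1 ^ (D ^ 5 * G.n1) := by
      rw [pow_mul, ← Y_add]
      exact Nat.pow_le_pow_left (by tier! 5) _
    refine (mul_le_mul (Nat.cast_le.2 a1) (pow_le_pow_of_le_one (s_pos u 1).le (s_le_one u 1) k1)
      (pow_pos (s_pos u 1) k).le (Nat.cast_nonneg _)).trans (le_of_eq ?_)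
    rw [pow_add, ← s_add, Nat.cast_pow, ← mul_assoc, ← mul_pow, mul_comm _ (s u 1), s_mul, one_pow,
      one_mul]
  have k7 : ((W.B * (P.r0 + 1) * G.n1 * (n * (2 * R + 1) ^ 3) * Y u 3 * 2 : ℕ) : ℝ) * s u 64 ≤
      s u 63 ^ 2 := by rtier! 63
  refine le_trans ?_ k7
  calc _ = ((W.B * (P.r0 + 1) * G.n1 * (n * (2 * R + 1) ^ 3) * Y u 3 * 2 : ℕ) : ℝ) *
        ((((n * (2 * R + 1) ^ 3 + 1) ^ G.n1 : ℕ) : ℝ) *
          (((2 ^ (P.l / Y u 3 + 1) : ℕ) : ℝ) * s u 2 ^ k)) := by push_cast; ring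
    _ ≤ _ := mul_le_mul_of_nonneg_left ((mul_le_mul_of_nonneg_left k5 (Nat.cast_nonneg _)).trans k6)
      (Nat.cast_nonneg _)

/-- **all side conditions of the coin events.** -/
theorem nmE {z0 : Tor 3 L} (hO : Tr.Ok (sys n T P z0) G) (hW : W.Ok ex ey P.toLf)
    (hw : WE u G.mt L n S W θ) : NmE ex ey (lv u P G t x0) P G (fun l => s u (48 * l + 63))
      (sys n T P z0).loc W.p0 d W.E0 W.w W.B x0 θ := by
  obtain ⟨c1, c2, c3, c4⟩ := h.c0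
  have hu := h.hu
  have hj := h.j1.le
  have hB := hw.B
  have r1 := h.R_le
  have r2 := h.ρ_le
  have r3 := h.hG.2.2
  have r4 : P.r0 ≤ (sys n T P z0).ρ 0 := P.r0_le
  have r5 := h.dl.2.2
  have r6 := (Nat.mul_pos h.l.1 (Y_pos u 2)).trans_le h.dl.2.1
  have key : ∀ m, (lv u P G t x0).ρm P x0 m ((sys n T P z0).loc m) ≤ Y u (48 * m + 12) := fun m => by
    have := h.pb2 (h.loc_le (T := T) z0 m)
    have := h.pb2 (h.lw_le m)
    have := h.pb2 (h.hx_le m)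
    simp only [Lv.ρm, Lv.Wm, Lv.v, lv]
    tier! (48 * m + 11)
  have y1 : (1 : ℝ) ≤ Y u 0 := by exact_mod_cast one_le_Y u 0
  refine ⟨h.nm0 hW hw, ⟨h.hG.1, h.hG.2.1, le_rfl, r1.trans r3⟩, ⟨?_, ?_⟩, ⟨h.ht, ?_⟩, h.hρ,
    fun m hm => ?_, fun m hm => ⟨?_, ?_⟩, ⟨(s_pos u 2).le, ?_⟩, fun m hm => ?_⟩
  · have := (hO.A 0).2.1
    omega
  · have := hO.rr0
    have := hO.rrσ 0
    omega
  · refine le_trans ?_ ((Nat.le_mul_of_pos_left _ h.l.1).trans h.dl.2.1)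
    simp only [lv]
    tier! 1
  · have a1 := (key m).trans (h.lo m hm)
    have a2 := a1.trans (hO.A m).2.2
    have a3 : G.A m ≤ G.σ m := (Nat.le_mul_of_pos_left _ four_pos).trans
      (Nat.le_mul_of_pos_right _ (Nat.mul_pos (hO.jl m).1 (hO.jl m).2.1))
    have := hO.rr m
    have := hO.rrσ (m + 1)
    exact ⟨(Nat.le_succ _).trans a1, a2, by omega⟩
  · have := h.pb2 (h.lw_le m)
    have := h.pb2 (h.hx_le m)
    have a1 : ((7 * (2 * (2 * t * P.j1 + P.lw t m + hx P m) + 1) ^ 3 : ℕ) : ℝ) * s u (48 * m + 12) ≤ s u 0 := by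
      rtier! (48 * m + 11)
    refine le_trans ?_ (((mul_le_mul_of_nonneg_left (hw.θ1.trans (s_anti (by omega)))
      (Nat.cast_nonneg _)).trans a1).trans (s_le_one u 0))
    simp only [Lv.v, lv]
    push_cast
    exact le_of_eq (by ring)
  · have a1 : θ * (W.w + x0) ≤ 2 * Y u 0 := by
      have b1 : (x0 : ℝ) ≤ Y u 0 := Nat.cast_le.2 c3
      have b2 := mul_le_of_le_one_left (Nat.cast_nonneg (α := ℝ) x0) (hw.θ1.trans (s_le_one _ _))
      linarith [hw.θ0.2]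
    have a2 := mul_le_mul_of_nonneg_left a1
      (by positivity : (0 : ℝ) ≤ 7 * (2 * ((lv u P G t x0).v P m : ℕ) + 1) ^ 3)
    simp only [Lv.v, lv] at a2 ⊢
    push_cast at a2 ⊢
    linarith
  · have a1 := h.ret hB r1
    have a2 : (lv u P G t x0).ρ P.toLf ≤ Y u 6 :=
      (h.pb2 (r2.trans (Nat.mul_le_mul_left 2 r5))).up (by norm_num) (by norm_num)
    have a3 : ((W.B * (n * (2 * (lv u P G t x0).ρ P.toLf + 1) ^ 3) : ℕ) : ℝ) * s u (0 + 101) ≤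
        s u 63 ^ 2 := by rtier! 63
    have a4 : Real.exp ((lv u P G t x0).c - (lv u P G t x0).f) ≤ s u (0 + 101) := by
      refine le_trans (le_of_eq (congrArg _ ?_)) (h.exp_le 0)
      simp only [lv]
      push_cast
      ring
    have a5 := (mul_le_mul_of_nonneg_left a4 (Nat.cast_nonneg _)).trans a3
    have a6 : s u 63 ^ 2 ≤ s u 63 / 4 := by nlinarith [s_le_num hu 63, s_pos u 63]
    exact (add_le_add a5 a1).trans (by linarith [s_pos u 63])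
  · have a1 := key m
    have a2 : Real.exp ((lv u P G t x0).cm m - (lv u P G t x0).fm m) ≤ s u (48 * m + 11 + 101) := by
      refine le_trans (le_of_eq (congrArg _ ?_)) (h.exp_le _)
      simp only [lv]
      push_cast
      ring
    refine (mul_le_mul_of_nonneg_left a2 (Nat.cast_nonneg _)).trans ?_
    rtier! (48 * m + 111)

end TE

/-! ### the objects of `Par/Defs` and the Trotter word -/

lemma te_par (h : Bg n u) (Dw : ℕ) {mt : ℕ} (hm : 0 < mt) (h1 : ck0 + 27 + d ≤ t)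
    (h2 : t ≤ ctm + 1) (h3 : t ≤ Y u 0) (h4 : x0 ≤ Y u 0) :
    TE u (Par.num h Dw 12) (eg u Dw mt) (gs u 1) t d n x0 where
  hu := h.hu
  fac := fac_le h (by norm_num)
  g1 := ⟨(gh_gs u 1).hA h, η0_le h, Nat.mul_le_mul_right _ (by omega), h.a0,
    .of_le ((gh_gs u 1).K0 h).1 (((gh_gs u 1).K0 h).up (by norm_num) one_pos) le_rfl⟩
  lg := le_trans (by change csm * cE ≤ _; nlinarith [Nat.zero_le cE]) h.lg
  c0 := ⟨h.hn, h3, h4, h.E⟩
  n1 := ⟨lt_of_lt_of_le (one_le_Dp 0) (Dp_le_cE (by norm_num)), Nat.le_succ _⟩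
  A := ⟨le_rfl, Y_mono zero_le_one⟩
  j1 := rfl
  l := ⟨ll_pos u, Nat.le_self_pow (by norm_num) _⟩
  dl := ⟨Nat.mul_le_mul_left _ (Nat.le_self_pow (by norm_num) _),
    Nat.mul_le_mul_left _ (Y_mono (by norm_num)), r0_le h⟩
  hG := ⟨hm, rfl, le_rfl⟩
  ht := h1
  hρ := hρ h Dw 12 le_rfl (by omega)
  ρ m := ⟨le_rfl, by
    have := h.hu; have := h.N; have := Sx_le h m
    change cN * (2 * (cS * x u m 12) + 1) ≤ _
    generalize cS * x u m 12 = a at *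
    tier! (48 * m + 24)⟩
  lo _ _ := le_rfl

section word
open M Top
variable [NeZero n] {β Yt : ℝ} {w mt : ℕ} {sy : List (Sl L n × Sl L n × ℝ)}

lemma we_par (h : Bg n u) (hB : Bw β ≤ Y u 11) (W : Wd β w sy) (h2 : Yt < 1)
    (h3 : 1 / (1 - Yt) ≤ L) (hL : Y u (48 * mt + 49) ≤ L) :
    WE u mt L n (gs u 1) (wdT β w sy Yt) (θw n w) := by
  have hu := h.hu
  have k : ∀ i ≤ 48 * mt + 49, Y u i ≤ L := fun i hi => (Y_mono hi).trans hL
  have k2 : ∀ i ≤ 48 * mt + 49, Y u i ≤ L ^ 2 := fun i hi =>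
    (k i hi).trans (Nat.le_self_pow two_ne_zero _)
  refine ⟨⟨le_trans (by tier! 6) (k 7 (by omega)), gs_ok h le_rfl
    (lt_of_lt_of_le (by tier! 48) (k 49 (by omega)))⟩, hB, h.Cg.2.trans_eq (pow_one _),
    W.fine (k2 2 (by omega)), W.er_le h2 h3 ?_, ⟨θw_nn n w, (θw_mul n w).le.trans ?_⟩, ?_⟩
  · rw [one_div]
    exact inv_anti₀ (Yr_pos u 4) (Nat.cast_le.2 (k 4 (by omega)))
  · refine le_trans ?_ (by simpa using h.Cg.2)
    have a1 : (1 : ℝ) ≤ n ^ 2 := one_le_pow₀ (by exact_mod_cast NeZero.one_le)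
    have a2 := le_self_pow₀ (show (1 : ℝ) ≤ 8 * n ^ 2 by linarith) three_ne_zero
    have a3 := Real.one_le_exp (show (0 : ℝ) ≤ 2 * (8 * n ^ 2) by linarith)
    unfold G1.Cg
    nlinarith
  · have := W.θ_le (c := 1) (r := 0) (by norm_num) (k2 (48 * mt + 12) (by omega)) (Nat.zero_le _)
    rw [s, ← one_div, le_div_iff₀ (Yr_pos _ _)]
    simpa using this

/-- **`NmE` on the tiers for the Trotter word.** -/
theorem nmE_par (h : Bg n u) (hB : Bw β ≤ Y u 11) (W : Wd β w sy) (hL : Y u (48 * mt + 49) ≤ L)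
    (hm : 0 < mt) (h1 : ck0 + 27 + d ≤ t) (h2 : t ≤ ctm + 1) (h3 : t ≤ Y u 0) (h4 : x0 ≤ Y u 0)
    {z0 : Tor 3 L} (hO : Tr.Ok (sys n (TT β w sy) (Par.num h (Dw w sy) 12) z0) (eg u (Dw w sy) mt)) :
    NmE (Top.ex β w sy) (Top.ey β w sy) (lv u (Par.num h (Dw w sy) 12) (eg u (Dw w sy) mt) t x0)
      (Par.num h (Dw w sy) 12) (eg u (Dw w sy) mt) (fun l => s u (48 * l + 63))
      (sys n (TT β w sy) (Par.num h (Dw w sy) 12) z0).loc (pp β w sy) d (lay sy).length (w + 1) (Bw β)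
      x0 (θw n w) :=
  (te_par h _ hm h1 h2 h3 h4).nmE hO (W.gl (Y := 1 / 2) rfl le_rfl (by norm_num))
    (we_par h hB W (by norm_num) (by
      have : (3 : ℝ) ≤ L := by exact_mod_cast W.hL
      linarith [show (1 : ℝ) / (1 - 1 / 2) = 2 by norm_num]) hL)


end word

end Crest.Agent.N337.Wk
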