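import Crest.Agent.N337.E.MDefs
import Crest.Agent.N337.Par.Y

-- ▼ part N337/E/Num
section

/-!
# Row 337, ENG (helper14): the numbers of the engine from a short list

`Pd` = what the producers of `HT`, `HP` fix, `v l` = a bound for `γ l ^ (1 / 48)`;
`Pd.pz` = the prices, `Sh.nm : Nm`, `Sh.eps_le`.
-/

set_option autoImplicit false
set_option linter.unusedSectionVars false

namespace Crest.Agent.N337.En

open Finset Crest.MathPhysics.SpinModel Rg Tr

variable {L : ℕ} {α κ : Type} [SemilatticeSup α] [Preorder κ] (S : Sys (Tor 3 L) α κ) (G : Eg)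

/-- free data. -/
structure Pd where
  B : ℕ
  J : ℕ
  dd : ℕ → ℕ
  γ : ℕ → ℝ
  γ0 : ℝ
  η : ℕ → ℝ
  wp : ℕ → ℝ
  v : ℕ → ℝ
  φ : ℕ → ℝ

namespace Pd
variable (D : Pd) (n : ℕ)

/-- level of the winding class `j`. -/
def lev (j : ℕ) : ℕ := Nat.findGreatest (fun l => n * (2 * D.dd l) ^ 3 < 2 ^ j) G.mt

/-- the prices. -/
noncomputable def pz : Pz where
  B := D.B
  J := D.J
  lev := D.lev G n
  dd := D.dd
  γ := D.γ
  γ0 := D.γ0
  th l := (D.v l ^ 3)⁻¹
  aa l := 96 * ((D.v l ^ 3)⁻¹) ^ 4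
  η := D.η
  wt l := 10 ^ 5 * D.v l
  wf l := Real.exp (22 * (((range D.J).filter fun j => D.lev G n j ≤ l).card : ℕ)) / D.v l
  ws l := ((1 + Real.log (n * vol (G.Rl (l - 1)) : ℕ)) ^ G.Ns (l - 1) /
    (G.Ns (l - 1)).factorial) ^ ((3 : ℕ) : ℝ)⁻¹
  wp := D.wp
  φ := D.φ

/-- bound for the number of classes of level `≤ l`. -/
def cl (l : ℕ) : ℕ := Nat.log 2 (n * (2 * D.dd (l + 1)) ^ 3) + 1

/-- bound for the price of a tag. -/
noncomputable def Wf (l : ℕ) : ℝ := (2 * n * (2 * D.dd (l + 1)) ^ 3) ^ 32 / D.v l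

/-- bound for the weight of the terminals. -/
noncomputable def tm' (m : ℕ) : ℝ := vol (2 * S.ρ (m + 1)) * (D.wp (m + 1) +
  D.B * n * vol (G.σ m) / 2 ^ G.Ns m + (10 ^ 5 * D.B * n * vol (G.σ m) * D.v (m + 1)) ^ G.jl m)

end Pd

/-- **the short list.** -/
structure Sh (D : Pd) (n T : ℕ) : Prop where
  hn : 0 < n
  mt : 0 < G.mt
  Q : 2 ≤ G.Q
  hL : ∀ m ≤ G.mt, 4 * G.rr m < L
  hB : (univ.filter fun s : Fin T => G.D ∣ s.val).card ≤ D.B
  dd : ∀ l, 1 ≤ D.dd l ∧ 4 * D.dd l ≤ G.σ l ∧ D.dd (l + 1) ≤ G.Rl l ∧ 4 * G.Rl l ≤ G.σ (l + 1)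
  v : Antitone D.v ∧ ∀ l, 0 < D.v l
  γ : ∀ l, 0 ≤ D.γ l ∧ D.γ l ≤ D.v l ^ 48
  γ0 : 0 ≤ D.γ0 ∧ D.γ0 ≤ D.v 0 ^ 48
  pair : ∀ l < G.mt, D.v l ≤ (1 / (2 * G.Q)) ^ 4 ^ (l + 3)
  one : ∑ l ∈ range G.mt, D.cl n l * D.v l + D.J * D.v G.mt ≤ 1 / 2
  sc : ∀ l < G.mt, 0 < D.B * (G.A l * G.jl l) ∧ 3 * (1 + Real.log (n * vol (G.Rl l) : ℕ)) *
    (2 * 10 ^ 5 * D.B * n * (G.A l * G.jl l) ^ 3) ^ 3 ≤ G.Ns l
  wp : ∀ l, 0 ≤ D.wp l ∧ D.η l ≤ D.wp l ^ 3
  φ0 : (1 + G.Q * D.Wf n 0) * (D.wp 0 + D.B * (10 ^ 5 * n * vol G.r0 * D.v 0) ^ G.n1) ≤ D.φ 0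
  φ1 : ∀ m, m + 1 < G.mt → (1 + G.Q ^ (m + 2) * D.Wf n (m + 1)) *
    (D.tm' S G n m + (vol (2 * S.ρ (m + 1)) * D.φ m) ^ ar S) ≤ D.φ (m + 1)

variable {S G} {D : Pd} {n T : ℕ}

lemma pow_le_fact (k : ℕ) : ((k : ℝ) / 3) ^ k ≤ k.factorial := by
  have h := Real.pow_div_factorial_le_exp (k : ℝ) (Nat.cast_nonneg k) k
  have h2 : Real.exp k ≤ 3 ^ k := by
    rw [← Real.exp_one_pow]
    exact pow_le_pow_left₀ (Real.exp_pos _).le (by linarith [Real.exp_one_lt_d9]) k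
  rw [div_le_iff₀ (by positivity)] at h
  rw [div_pow, div_le_iff₀' (by positivity)]
  exact h.trans (mul_le_mul_of_nonneg_right h2 (by positivity))

lemma exp_le_pow (k : ℕ) : Real.exp k ≤ 2.72 ^ k := by
  rw [← Real.exp_one_pow]
  exact pow_le_pow_left₀ (Real.exp_pos _).le (by linarith [Real.exp_one_lt_d9]) k

lemma nc_le {l : ℕ} (hl : l < G.mt) : (D.pz G n).nc l ≤ D.cl n l := by
  refine (card_le_card fun j hj => mem_range.2 ?_).trans (card_range _).le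
  have h := Nat.findGreatest_is_greatest (Nat.lt_succ_of_le (mem_filter.1 hj).2) hl
  exact Nat.lt_succ_of_le (Nat.le_log_of_pow_le one_lt_two (not_lt.1 h))

namespace Sh
variable (h : Sh S G D n T)
include h

lemma v_le (l : ℕ) : D.v l ≤ 1 / 4 := by
  have hQ : (2 : ℝ) ≤ G.Q := by exact_mod_cast h.Q
  have h1 : (1 / (2 * G.Q) : ℝ) ≤ 1 / 4 := one_div_le_one_div_of_le (by norm_num) (by linarith)
  exact (h.v.1 (Nat.zero_le l)).trans ((h.pair 0 h.mt).trans ((pow_le_of_le_one (by positivity)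
    (by linarith) (by positivity)).trans h1))

lemma vp (l : ℕ) {a b : ℕ} (hab : a ≤ b) : D.v l ^ b ≤ D.v l ^ a :=
  pow_le_pow_of_le_one (h.v.2 l).le (by linarith [h.v_le l]) hab

lemma th_mono : Monotone fun l => (D.v l ^ 3)⁻¹ := fun a b hab =>
  inv_anti₀ (pow_pos (h.v.2 b) 3) (pow_le_pow_left₀ (h.v.2 b).le (h.v.1 hab) 3)

lemma th1 (l : ℕ) : 1 ≤ (D.v l ^ 3)⁻¹ :=
  (one_le_inv₀ (pow_pos (h.v.2 l) 3)).2 (pow_le_one₀ (h.v.2 l).le (by linarith [h.v_le l]))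

lemma aa_le {l : ℕ} {g : ℝ} (hg : g ≤ D.v l ^ 48) :
    (96 * ((D.v l ^ 3)⁻¹) ^ 4) ^ 2 * g ≤ D.v l := by
  have h0 := h.v.2 l
  have h1 : D.v l ^ 7 ≤ (1 / 4) ^ 7 := pow_le_pow_left₀ h0.le (h.v_le l) 7
  have h2 := h.vp l (show 8 ≤ 24 by norm_num)
  refine (mul_le_mul_of_nonneg_left hg (by positivity)).trans ?_
  rw [show (96 * ((D.v l ^ 3)⁻¹) ^ 4) ^ 2 * D.v l ^ 48 = 96 ^ 2 * D.v l ^ 24 by field_simp]
  nlinarith [pow_succ (D.v l) 7]

lemma g1_le (l : ℕ) : (2 * (D.pz G n).g1 l) ^ (1 / 8 : ℝ) ≤ 2 * D.v l ^ 6 := by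
  have h0 := h.v.2 l
  have h1 : 0 ≤ (D.pz G n).g1 l ∧ (D.pz G n).g1 l ≤ 2 * D.v l ^ 48 := by
    unfold Pz.g1
    split_ifs with k
    · subst k; exact ⟨h.γ0.1, h.γ0.2.trans (by linarith [pow_pos h0 48])⟩
    · exact ⟨mul_nonneg zero_le_two (h.γ l).1, mul_le_mul_of_nonneg_left (h.γ l).2 zero_le_two⟩
  rw [show (1 / 8 : ℝ) = ((8 : ℕ) : ℝ)⁻¹ by norm_num,
    Real.rpow_inv_le_iff_of_pos (by linarith [h1.1]) (by positivity) (by norm_num),
    Real.rpow_natCast, mul_pow, ← pow_mul, show 6 * 8 = 48 from rfl]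
  linarith [h1.2, pow_pos h0 48]

lemma sum_v : ∑ j ∈ range D.J, D.v (D.lev G n j) ≤ 1 / 2 := by
  refine le_trans ?_ h.one
  rw [← sum_fiberwise_of_maps_to (t := range (G.mt + 1)) (g := D.lev G n)
    fun j _ => mem_range.2 (Nat.lt_succ_of_le (Nat.findGreatest_le _)), sum_range_succ]
  have key : ∀ l N : ℕ, ((range D.J).filter fun j => D.lev G n j = l).card ≤ N →
      ∑ j ∈ range D.J with D.lev G n j = l, D.v (D.lev G n j) ≤ N * D.v l := fun l N hN => by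
    rw [sum_congr rfl fun j hj => by rw [(mem_filter.1 hj).2], sum_const, nsmul_eq_mul]
    exact mul_le_mul_of_nonneg_right (Nat.cast_le.2 hN) (h.v.2 l).le
  exact add_le_add (sum_le_sum fun l hl => key l _ ((card_le_card (monotone_filter_right _
    fun _ _ e => e.le)).trans (nc_le (mem_range.1 hl))))
    (key _ _ ((card_filter_le _ _).trans (card_range _).le))

lemma wf_le {l : ℕ} (hl : l < G.mt) : (D.pz G n).wf l ≤ D.Wf n l := by
  refine div_le_div_of_nonneg_right ?_ (h.v.2 l).le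
  have h1 : 0 < n * (2 * D.dd (l + 1)) ^ 3 := by
    have := h.hn; have := (h.dd (l + 1)).1; positivity
  have h2 : (2 : ℝ) ^ D.cl n l ≤ 2 * n * (2 * D.dd (l + 1)) ^ 3 := by
    rw [Pd.cl, pow_succ', mul_assoc]
    exact mul_le_mul_of_nonneg_left (by exact_mod_cast Nat.pow_log_le_self 2 h1.ne') zero_le_two
  refine (Real.exp_le_exp.2 (mul_le_mul_of_nonneg_left (Nat.cast_le.2 (nc_le hl))
    (by norm_num))).trans ?_
  rw [mul_comm, Real.exp_nat_mul]
  refine (pow_le_pow_left₀ (Real.exp_pos _).le (show Real.exp 22 ≤ 2 ^ 32 from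
    (exp_le_pow 22).trans (by norm_num)) _).trans ?_
  rw [← pow_mul, mul_comm, pow_mul]
  exact pow_le_pow_left₀ (by positivity) h2 32

lemma tm_le {m : ℕ} (hm : m < G.mt) : tm S G (D.pz G n) n m ≤ D.tm' S G n m := by
  refine mul_le_mul_of_nonneg_left (add_le_add (add_le_add le_rfl ?_) (le_of_eq ?_))
    (Nat.cast_nonneg _)
  · obtain ⟨h1, h2⟩ := h.sc m hm
    set a : ℝ := 10 ^ 5 * D.B * n * (G.A m * G.jl m) ^ 3 with ha
    have a0 : 0 < a := by
      have := h.hn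
      have := Nat.pos_of_mul_pos_right h1
      have : (0 : ℝ) < G.A m * G.jl m := by exact_mod_cast Nat.pos_of_mul_pos_left h1
      positivity
    have l0 := Real.log_natCast_nonneg (n * vol (G.Rl m))
    have h3 : (D.pz G n).ws (m + 1) ≤ ((2 * a)⁻¹) ^ G.Ns m := by
      change (_ : ℝ) ^ _ ≤ _
      rw [Nat.add_sub_cancel, Real.rpow_inv_le_iff_of_pos (by positivity) (by positivity)
        (by norm_num), Real.rpow_natCast, ← pow_mul, mul_comm (G.Ns m) 3, pow_mul,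
        div_le_iff₀ (by positivity)]
      refine le_trans ?_ (mul_le_mul_of_nonneg_left (pow_le_fact _) (by positivity))
      rw [← mul_pow]
      refine pow_le_pow_left₀ (by positivity) ?_ _
      rw [inv_pow, le_inv_mul_iff₀ (by positivity), show 2 * a =
        2 * 10 ^ 5 * D.B * n * (G.A m * G.jl m) ^ 3 by rw [ha]; ring]
      linarith
    change _ * a ^ _ * _ ≤ _
    rw [mul_assoc _ (a ^ _), div_eq_mul_inv]
    refine mul_le_mul_of_nonneg_left ((mul_le_mul_of_nonneg_left h3 (by positivity)).trans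
      (le_of_eq ?_)) (by positivity)
    rw [← mul_pow, ← inv_pow]
    congr 1
    field_simp
  · change (_ * (10 ^ 5 * D.v (m + 1))) ^ _ = _
    congr 1
    change (D.B : ℝ) * _ * _ * _ = _
    ring

lemma φ_nn (m : ℕ) (hm : m < G.mt) : 0 ≤ D.φ m := by
  induction m with
  | zero =>
    refine le_trans ?_ h.φ0
    have := h.v.2 0; have := (h.wp 0).1; unfold Pd.Wf; positivity
  | succ m ih =>
    refine le_trans ?_ (h.φ1 m hm)
    have := h.v.2 (m + 1); have := (h.wp (m + 1)).1; have := ih (by omega)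
    unfold Pd.Wf Pd.tm'; positivity

/-- **the numbers of the engine.** -/
theorem nm : Nm S G (D.pz G n) L n T where
  hn := h.hn
  hL := h.hL
  hB := h.hB
  lev j := ⟨Nat.findGreatest_le _, fun k => Nat.findGreatest_of_ne_zero
    (P := fun l => n * (2 * D.dd l) ^ 3 < 2 ^ j) (n := G.mt) rfl k⟩
  dd := h.dd
  γ l := ⟨(h.γ l).1, (h.γ l).2.trans ((h.vp l (show 1 ≤ 48 by norm_num)).trans
    (by linarith [h.v_le l]))⟩
  γ0 := ⟨h.γ0.1, h.γ0.2.trans ((h.vp 0 (Nat.zero_le _)).trans_eq (pow_zero _))⟩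
  aa := ⟨by have := one_le_pow₀ (n := 4) (h.th1 0); change (6 : ℝ) ≤ 96 * _; linarith,
    fun a b hab => mul_le_mul_of_nonneg_left (pow_le_pow_left₀ (zero_le_one.trans (h.th1 a))
      (h.th_mono hab) 4) (by norm_num)⟩
  th := ⟨h.th1 0, h.th_mono, fun l => by
    have h0 := h.v.2 l
    change (D.v l ^ 3)⁻¹ * (6 / (96 * ((D.v l ^ 3)⁻¹) ^ 4)) ^ (1 / 4 : ℝ) ≤ _
    rw [show 6 / (96 * ((D.v l ^ 3)⁻¹) ^ 4) = (D.v l ^ 3 / 2) ^ 4 by field_simp; norm_num,
      show (1 / 4 : ℝ) = ((4 : ℕ) : ℝ)⁻¹ by norm_num,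
      Real.pow_rpow_inv_natCast (by positivity) (by norm_num)]
    exact le_of_eq (by field_simp)⟩
  pair0 := (h.aa_le h.γ0.2).trans ((h.pair 0 h.mt).trans (pow_le_pow_of_le_one (by positivity)
    ((div_le_one (by have := h.Q; positivity)).2 (by
      have : (2 : ℝ) ≤ G.Q := by exact_mod_cast h.Q
      linarith)) (by norm_num)))
  pair l hl := (h.aa_le (h.γ l).2).trans (h.pair l hl)
  one l _ := by
    have h0 := h.v.2 l
    change (D.v l ^ 3)⁻¹ * _ ≤ _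
    rw [inv_mul_le_iff₀ (by positivity)]
    refine (sum_le_sum (g := fun j => D.v l ^ 3 * 2 * D.v (D.lev G n j)) fun j _ =>
      (h.g1_le _).trans ?_).trans ?_
    · have h1 := h.v.2 (max l (D.lev G n j))
      have := mul_le_mul (pow_le_pow_left₀ h1.le (h.v.1 (le_max_left l (D.lev G n j))) 3)
        (h.v.1 (le_max_right l (D.lev G n j))) h1.le (by positivity)
      have h2 := h.vp (max l (D.lev G n j)) (show 3 + 1 ≤ 6 by norm_num)
      rw [pow_succ _ 3] at h2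
      change 2 * D.v (max l (D.lev G n j)) ^ 6 ≤ _
      linarith
    · rw [← mul_sum, mul_assoc]
      exact mul_le_mul_of_nonneg_left (by have := h.sum_v; change 2 * ∑ j ∈ range D.J, _ ≤ _; linarith)
        (by positivity)
  wt l := ⟨by have := h.v.2 l; change 0 ≤ 10 ^ 5 * D.v l; positivity, by
    have := h.v.2 l
    change _ ≤ (D.v l ^ 3)⁻¹ * (10 ^ 5 * D.v l) ^ 3
    rw [show (D.v l ^ 3)⁻¹ * (10 ^ 5 * D.v l) ^ 3 = 10 ^ 15 by field_simp]
    exact (exp_le_pow 32).trans (by norm_num)⟩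
  wf l := ⟨div_nonneg (Real.exp_pos _).le (h.v.2 l).le, by
    change (D.v l ^ 3)⁻¹ * _ ≤ (Real.exp (22 * ((D.pz G n).nc l : ℕ)) / D.v l) ^ 3
    rw [div_pow, div_eq_inv_mul, ← Real.exp_nat_mul]
    refine mul_le_mul_of_nonneg_left (Real.exp_le_exp.2 ?_) (zero_le_one.trans (h.th1 l))
    have : (0 : ℝ) ≤ (D.pz G n).nc l := Nat.cast_nonneg _
    push_cast
    linarith⟩
  ws l := by
    have l0 := Real.log_natCast_nonneg (n * vol (G.Rl l))
    refine ⟨Real.rpow_nonneg (by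
      have := Real.log_natCast_nonneg (n * vol (G.Rl (l - 1))); positivity) _, ?_⟩
    change _ ≤ _ * ((_ : ℝ) ^ _) ^ 3
    rw [Nat.add_sub_cancel, Real.rpow_inv_natCast_pow (by positivity) (by norm_num)]
    exact le_of_eq (by field_simp)
  wp := h.wp
  φ0 := le_trans (mul_le_mul (add_le_add le_rfl (mul_le_mul_of_nonneg_left (h.wf_le h.mt)
    (Nat.cast_nonneg _))) (le_of_eq (by
      change _ + _ * (_ * (10 ^ 5 * D.v 0)) ^ _ = _
      congr 3; ring)) (by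
      have := h.v.2 0; have := (h.wp 0).1
      change 0 ≤ D.wp 0 + _ * (_ * (10 ^ 5 * D.v 0)) ^ _; positivity) (by
      have := h.v.2 0; unfold Pd.Wf; positivity)) h.φ0
  φ1 m hm := by
    have h0 := h.v.2 (m + 1)
    have h1 := h.wf_le hm
    have h2 := h.tm_le (show m < G.mt by omega)
    have h3 : 0 ≤ (D.pz G n).wf (m + 1) := div_nonneg (Real.exp_pos _).le h0.le
    have h4 : 0 ≤ D.tm' S G n m + (vol (2 * S.ρ (m + 1)) * D.φ m) ^ ar S := by
      have := h.φ_nn m (by omega); have := (h.wp (m + 1)).1; unfold Pd.tm'; positivity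
    exact le_trans ((mul_le_mul_of_nonneg_left (add_le_add h2 le_rfl) (by positivity)).trans
      (mul_le_mul_of_nonneg_right (add_le_add le_rfl (mul_le_mul_of_nonneg_left h1
        (by positivity))) h4)) (h.φ1 m hm)

theorem eps_le (m : ℕ) : eps S G (D.pz G n) n m ≤
    ∑ l ∈ Ico m G.mt, vol (G.kp l) * (D.tm' S G n l + vol (2 * S.ρ (l + 1)) * D.φ l) :=
  sum_le_sum fun _ hl => mul_le_mul_of_nonneg_left
    (add_le_add (h.tm_le (mem_Ico.1 hl).2) le_rfl) (Nat.cast_nonneg _)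

end Sh

end Crest.Agent.N337.En
end

-- ▼ part N337/Par/Eng

/-!
# Row 337 (helper14): the numbers of the engine on the tiers
-/

set_option autoImplicit false
set_option linter.unusedSectionVars false

namespace Crest.Agent.N337.En

open Finset Crest.MathPhysics.SpinModel Rg Tr Par

/-- logarithms of higher tiers. -/
lemma lg_le {u k k' : ℕ} (hu : 100 ≤ u) (hk : 1 ≤ k) (hk' : k' ≤ k + 1000) :
    Pb u k 2 (u * D ^ k') := by
  have h2 : D ^ 1000 ≤ Y u k := by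
    rw [Y_def]
    calc D ^ 1000 ≤ (2 ^ 20) ^ 1000 := Nat.pow_le_pow_left (by rw [D_eq]; norm_num) _
      _ = 2 ^ (20 * 1000) := (pow_mul _ _ _).symm
      _ ≤ _ := Nat.pow_le_pow_right two_pos (le_trans (le_trans (by rw [D_eq]; norm_num)
        (Nat.le_self_pow (by omega) D)) (Nat.le_mul_of_pos_left _ (by omega)))
  calc u * D ^ k' ≤ u * D ^ (k + 1000) := Nat.mul_le_mul_left _ (Nat.pow_le_pow_right D_pos hk')
    _ = u * D ^ k * D ^ 1000 := by rw [pow_add, mul_assoc]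
    _ ≤ _ := by rw [pow_two]; exact Nat.mul_le_mul (lg_lt u k).le h2

/-- a polynomial times a high power of the small number of the same tier. -/
lemma sm0 {u k e j : ℕ} {r : ℝ} (h : Rb u k e r) (he : e + 1 ≤ j) : r * s u k ^ j ≤ s u k := by
  obtain ⟨i, rfl⟩ := Nat.exists_eq_add_of_le he
  have h0 := s_pos u k
  have h1 : r * s u k ^ e ≤ 1 := (mul_le_mul_of_nonneg_right h.2 (by positivity)).trans_eq
    (by rw [← mul_pow, mul_comm, s_mul, one_pow])
  rw [show r * s u k ^ (e + 1 + i) = r * s u k ^ e * s u k ^ i * s u k by ring]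
  exact mul_le_of_le_one_left h0.le (mul_le_one₀ h1 (by positivity) (pow_le_one₀ h0.le (s_le_one _ _)))

lemma s_up {u k k' j : ℕ} (hk : k < k') (hj : j ≤ 1000000) : s u k' ≤ s u k ^ j := by
  have := Rb.sm (u := u) (k := k) (k' := k') (j := j) (i := k) (e := 0) (r := 1)
    ⟨zero_le_one, (pow_zero _).ge⟩ (by omega) hk le_rfl
  rwa [one_mul] at this

/-- tier of `1 / v l`. -/
def tv : ℕ → ℕ
  | 0 => 5
  | l + 1 => 48 * l + 20

lemma tv_ge (l : ℕ) : l + 4 ≤ tv l ∧ 48 * l ≤ tv l + 28 ∧ tv l ≤ 48 * l + 5 := by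
  cases l <;> simp only [tv] <;> omega

lemma tv_lt (l : ℕ) : tv l < tv (l + 1) := by cases l <;> simp only [tv] <;> omega

/-- the data on the tiers. -/
noncomputable def Pd.tier (u B J : ℕ) (dd : ℕ → ℕ) (γ : ℕ → ℝ) (γ0 : ℝ) (η : ℕ → ℝ) : Pd :=
  ⟨B, J, dd, γ, γ0, η, fun l => s u (48 * l + 62), fun l => s u (tv l) ^ 200,
    fun l => s u (48 * l + 61)⟩

variable {L : ℕ} {α κ : Type} [SemilatticeSup α] [Preorder κ] (S : Sys (Tor 3 L) α κ) (G : Eg)

/-- **position of the parameters on the tiers** (`x m i = Y u (48 m + 11 + i)`). -/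
structure Ti (u n T B J : ℕ) (dd : ℕ → ℕ) (γ : ℕ → ℝ) (γ0 : ℝ) (η : ℕ → ℝ) : Prop where
  hu : 100 ≤ u
  hn : 0 < n ∧ n ≤ Y u 0
  mt : 0 < G.mt
  Q : 2 ≤ G.Q ∧ G.Q ≤ Y u 0
  hL : ∀ m ≤ G.mt, 4 * G.rr m < L
  hB : (univ.filter fun s : Fin T => G.D ∣ s.val).card ≤ B ∧ 1 ≤ B ∧ B ≤ Y u 11
  hJ : J ≤ u * D ^ (48 * G.mt + 100)
  har : D ^ 50 ≤ ar S
  n1 : D ^ 57 ≤ G.n1
  jl : ∀ l, D ^ 90 ≤ G.jl l ∧ G.jl l ≤ Y u 0
  r0 : G.r0 ≤ Y u 5
  ρ : ∀ l, S.ρ l ≤ Y u (48 * l + 11)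
  A : ∀ l, 1 ≤ G.A l ∧ G.A l ≤ Y u (48 * l + 18)
  Ns : ∀ l, G.Ns l = Y u (48 * l + 19)
  kp : ∀ l, G.kp l ≤ Y u (48 * l + 25)
  Rl : ∀ l, G.Rl l ≤ Y u (48 * l + 27) ∧ 1 ≤ dd (l + 1) ∧ dd (l + 1) ≤ G.Rl l
  dd0 : 1 ≤ dd 0 ∧ dd 0 ≤ Y u 19
  hγ : ∀ l, 0 ≤ γ l ∧ γ l ≤ s u (tv l + 1)
  hγ0 : 0 ≤ γ0 ∧ γ0 ≤ s u 6
  hη : ∀ l, η l ≤ s u (48 * l + 63)

variable {S G} {u n T B J : ℕ} {dd : ℕ → ℕ} {γ η : ℕ → ℝ} {γ0 : ℝ}

namespace Ti
variable (h : Ti S G u n T B J dd γ γ0 η)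
include h

lemma σ_le (l : ℕ) : G.σ l ≤ Y u (48 * l + 20) := by
  have hu := h.hu; have := (h.A l).2; have := (h.jl l).2
  rw [Eg.σ, h.Ns]
  tier! (48 * l + 19)

lemma le_σ (l : ℕ) : 4 * Y u (48 * l + 19) ≤ G.σ l := by
  rw [Eg.σ, h.Ns]
  exact Nat.mul_le_mul (Nat.le_mul_of_pos_right _ (h.A l).1) (Nat.le_mul_of_pos_right _
    ((one_le_Dp _).trans (h.jl l).1))

/-- the price of the tags. -/
lemma tag (l : ℕ) :
    1 + (G.Q : ℝ) ^ (l + 1) * (Pd.tier u B J dd γ γ0 η).Wf n l ≤ Y u (48 * l + 28) := by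
  have hu := h.hu; have := h.hn.2; have := (h.Rl l).2.2.trans (h.Rl l).1; have := tv_ge l
  have h1 : G.Q ^ (l + 1) ≤ Y u (l + 1) := pow_pow_le h.Q.2 (lt_Dp _).le
  change 1 + _ * ((2 * n * (2 * dd (l + 1)) ^ 3) ^ 32 / s u (tv l) ^ 200) ≤ _
  rw [s, inv_pow, div_inv_eq_mul, ← Nat.cast_pow]
  generalize G.Q ^ (l + 1) = q at h1
  rtier! (48 * l + 27)

lemma tm_le (m : ℕ) :
    (Pd.tier u B J dd γ γ0 η).tm' S G n m ≤ Y u (48 * m + 61) * s u (48 * m + 110) := by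
  have hu := h.hu; have := h.hn.2; have := h.hB.2.2; have := h.σ_le m; have := h.ρ (m + 1)
  have h0 := s_pos u (48 * m + 110)
  have a1 : (B : ℝ) * n * vol (G.σ m) ≤ Y u (48 * m + 60) := by unfold vol; rtier! (48 * m + 20)
  have a2 : (Y u (48 * m + 110) : ℝ) ≤ 2 ^ G.Ns m := by
    rw [Y_def, h.Ns]; push_cast
    exact pow_le_pow_right₀ one_le_two ((lg_le (k := 48 * m + 18) hu (by omega) (by omega)).up
      (by norm_num) (by omega))
  have a3 : (10 ^ 5 * B * n * vol (G.σ m) * s u (48 * m + 20) ^ 200) ^ G.jl m ≤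
      s u (48 * m + 20 + 90) := by
    refine pow_small (by have := s_pos u (48 * m + 20); positivity) ?_ (h.jl m).1
    unfold vol; apply sm0; (· r_bd); norm_num
  have a4 : (B : ℝ) * n * vol (G.σ m) / 2 ^ G.Ns m ≤ Y u (48 * m + 60) * s u (48 * m + 110) :=
    mul_le_mul a1 (inv_anti₀ (Yr_pos _ _) a2) (by positivity) (by positivity)
  have a5 : (vol (2 * S.ρ (m + 1)) : ℝ) * (2 + Y u (48 * m + 60)) ≤ Y u (48 * m + 61) := by
    unfold vol; rtier! (48 * m + 60)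
  refine le_trans (mul_le_mul_of_nonneg_left (add_le_add (add_le_add le_rfl a4) a3)
    (Nat.cast_nonneg _)) (le_trans (le_of_eq ?_) (mul_le_mul_of_nonneg_right a5 h0.le))
  change _ * (s u (48 * m + 110) + _ + s u (48 * m + 110)) = _
  ring

lemma volφ (m : ℕ) : (vol (2 * S.ρ (m + 1)) : ℝ) * s u (48 * m + 61) ≤ s u (48 * m + 60) ^ 200 := by
  have hu := h.hu; have := h.ρ (m + 1)
  unfold vol; rtier! (48 * m + 60)

/-- **the short list holds on the tiers.** -/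
theorem sh : Sh S G (Pd.tier u B J dd γ γ0 η) n T where
  hn := h.hn.1
  mt := h.mt
  Q := h.Q.1
  hL := h.hL
  hB := h.hB.1
  dd l := by
    have a1 := h.le_σ l
    have a2 := h.le_σ (l + 1)
    have a3 := Y_mono (u := u) (show 48 * l + 27 ≤ 48 * (l + 1) + 19 by omega)
    have a4 := h.Rl l
    change 1 ≤ dd l ∧ 4 * dd l ≤ _ ∧ dd (l + 1) ≤ _ ∧ _
    rcases l with _ | l
    · have : 1 ≤ dd 0 ∧ dd 0 ≤ Y u (48 * 0 + 19) := h.dd0
      omega
    · have := h.Rl l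
      have := Y_mono (u := u) (show 48 * l + 27 ≤ 48 * (l + 1) + 19 by omega)
      omega
  v := ⟨antitone_nat_of_succ_le fun l => pow_le_pow_left₀ (s_pos _ _).le (s_anti (tv_lt l).le) _,
    fun l => pow_pos (s_pos _ _) _⟩
  γ l := ⟨(h.hγ l).1, (h.hγ l).2.trans ((s_up (Nat.lt_succ_self _) (j := 200 * 48)
    (by norm_num)).trans_eq (pow_mul _ _ _))⟩
  γ0 := ⟨h.hγ0.1, h.hγ0.2.trans ((s_up (k := 5) (by norm_num) (j := 200 * 48)
    (by norm_num)).trans_eq (pow_mul _ _ _))⟩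
  pair l _ := by
    have hQ : (0 : ℝ) < G.Q := Nat.cast_pos.2 (by have := h.Q.1; omega)
    refine (pow_le_of_le_one (s_pos _ _).le (s_le_one _ _) (by norm_num)).trans ?_
    rw [one_div, inv_pow]
    refine inv_anti₀ (by positivity) ?_
    have h1 : (2 * G.Q) ^ 4 ^ (l + 3) ≤ Y u (tv l) := by
      refine (Nat.pow_le_pow_left (Nat.mul_le_mul (two_le_Y h.hu 0) h.Q.2) _).trans ?_
      rw [← pow_two, ← pow_mul]
      refine (pow_pow_le le_rfl (le_trans ?_ (four_le_Dp (l + 4)))).trans (Y_mono (tv_ge l).1)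
      rw [pow_succ' 4 (l + 3)]; omega
    exact_mod_cast h1
  one := by
    have hu := h.hu
    have key : ∀ l c : ℕ, c ≤ u * D ^ (48 * l + 100) + 1 →
        c * s u (tv l) ^ 200 ≤ s u (tv l) := fun l c hc => by
      have h1 := tv_ge l
      have h2 := (lg_le (k := tv l) (k' := 48 * l + 100) hu (by omega) (by omega)).add hu
        (Pb.num hu (a := 1) (by norm_num))
      exact sm0 (Rb.cast (hc.trans h2)) (by norm_num)
    have s1 := sum_s hu tv_lt 0 G.mt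
    have s2 := s_le_num hu (tv 0)
    have s3 := s_le_num hu (tv G.mt)
    rw [← range_eq_Ico] at s1
    refine (add_le_add (sum_le_sum fun l _ => key l _ ?_) (key _ _ (h.hJ.trans
      (Nat.le_succ _)))).trans (by linarith)
    refine Nat.succ_le_succ ?_
    rw [← log_Y]
    refine Nat.log_mono_right ?_
    have := h.hn.2; have := (h.Rl l).2.2.trans (h.Rl l).1
    change n * (2 * dd (l + 1)) ^ 3 ≤ _
    tier! (48 * l + 27)
  sc l _ := by
    refine ⟨Nat.mul_pos h.hB.2.1 (Nat.mul_pos (h.A l).1 ((one_le_Dp _).trans (h.jl l).1)), ?_⟩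
    have hu := h.hu; have := h.hn.2; have := h.hB.2.2; have := (h.A l).2; have := (h.jl l).2
    have := (h.Rl l).1
    have h2 : n * vol (G.Rl l) ≤ Y u (48 * l + 28) := by unfold vol; tier! (48 * l + 27)
    have h1 : Rb u (48 * l + 18) 2 (Real.log (n * vol (G.Rl l) : ℕ)) := by
      refine ⟨Real.log_natCast_nonneg _, le_trans ?_
        (Rb.cast (lg_le (k' := 48 * l + 28) hu (by omega) (by omega))).2⟩
      refine (Real.log_le_log (Nat.cast_pos.2 (Nat.mul_pos h.hn.1 (by unfold vol; positivity)))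
        (Nat.cast_le.2 h2)).trans ?_
      rw [Y_def, Nat.cast_pow, Real.log_pow]
      exact mul_le_of_le_one_right (Nat.cast_nonneg _) (by
        have := Real.log_two_lt_d9; push_cast; linarith)
    rw [h.Ns]
    change 3 * _ * (2 * 10 ^ 5 * (B : ℝ) * _ * _) ^ 3 ≤ _
    rtier! (48 * l + 18)
  wp l := ⟨(s_pos _ _).le, (h.hη l).trans (s_up (by omega) (by norm_num))⟩
  φ0 := by
    have hu := h.hu; have := h.hn.2; have := h.hB.2.2; have := h.r0
    have a1 := h.tag 0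
    rw [zero_add, pow_one] at a1
    have h5 := s_pos u 5
    have h0 := s_pos u 62
    have a2 : (10 ^ 5 * n * vol G.r0 * s u 5 ^ 200) ^ G.n1 ≤ s u (5 + 57) := by
      refine pow_small (by positivity) ?_ h.n1
      unfold vol; apply sm0; (· r_bd); norm_num
    refine (mul_le_mul a1 (add_le_add le_rfl (mul_le_mul_of_nonneg_left a2 (Nat.cast_nonneg _)))
      (by change 0 ≤ s u 62 + B * (_ * s u 5 ^ 200) ^ _; positivity) (Yr_pos _ _).le).trans ?_
    change (Y u 28 : ℝ) * (s u 62 + B * s u 62) ≤ s u 61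
    rw [← one_add_mul, ← mul_assoc]
    rtier! 61
  φ1 m _ := by
    have hu := h.hu
    have h0 := s_pos u (48 * m + 61)
    have a3 : (vol (2 * S.ρ (m + 1)) * s u (48 * m + 61)) ^ ar S ≤ s u (48 * m + 60 + 50) :=
      pow_small (by positivity) ((h.volφ m).trans
        (pow_le_of_le_one (s_pos _ _).le (s_le_one _ _) (by norm_num))) h.har
    refine (mul_le_mul (h.tag (m + 1)) (add_le_add (h.tm_le m) a3) (by
      have := s_pos u (48 * (m + 1) + 62); have := s_pos u (tv (m + 1))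
      unfold Pd.tm' Pd.tier; positivity) (Yr_pos _ _).le).trans ?_
    change _ * (_ + s u (48 * m + 110)) ≤ s u (48 * m + 109)
    rw [← add_one_mul, ← mul_assoc]
    rtier! (48 * m + 109)

theorem nm : Nm S G ((Pd.tier u B J dd γ γ0 η).pz G n) L n T := h.sh.nm

/-- **the bound of the engine on the tiers**: `eps m ≤ 1 / x (m + 1) 1`. -/
theorem eps_le (m : ℕ) : eps S G ((Pd.tier u B J dd γ γ0 η).pz G n) n m ≤ s u (48 * m + 60) := by
  have hu := h.hu
  refine (h.sh.eps_le m).trans ((sum_le_sum (g := fun l => s u (48 * l + 60) ^ 100 *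
    s u (48 * l + 60)) fun l hl => ?_).trans ?_)
  · have a1 : (Y u (48 * l + 61) : ℝ) * s u (48 * l + 110) ≤ s u (48 * l + 60) ^ 200 := by
      rtier! (48 * l + 61)
    refine (mul_le_mul_of_nonneg_left (add_le_add ((h.tm_le l).trans a1) (h.volφ l))
      (Nat.cast_nonneg _)).trans ?_
    rw [← two_mul, ← mul_assoc, show 200 = 100 + 100 from rfl, pow_add, mul_left_comm]
    refine mul_le_mul_of_nonneg_left ?_ (pow_pos (s_pos _ _) _).le
    have := h.kp l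
    unfold vol; apply sm0; (· r_bd); norm_num
  · refine (sum_le_sum fun l _ => mul_le_mul_of_nonneg_right ((pow_le_of_le_one (s_pos _ _).le
      (s_le_one _ _) (by norm_num)).trans ((s_le_num hu _).trans (show _ ≤ (1 / 2 : ℝ) by norm_num)))
      (s_pos _ _).le).trans ?_
    rw [← mul_sum]
    have := sum_s hu (t := fun l => 48 * l + 60) (fun l => by omega) m G.mt
    linarith

end Ti

end Crest.Agent.N337.En
private theorem rz_e90ac27c0b : type_of% @_root_.Crest.Agent.N337.En.tv.eq_1 := @_root_.Crest.Agent.N337.En.tv.eq_1 -- L43
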