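import Crest.Agent.N337.Ld.Us
import Crest.Agent.N337.Gl.Ht
import Crest.Agent.N337.Rg.Vis
import Crest.Agent.N337.Par.G1s
import Crest.Agent.N337.Par.Sm
import Crest.Agent.N337.Par.Eng
import Crest.Agent.N337.Par.Defs
import Crest.Agent.N337.E.Tube

-- ▼ part N337/Ld/GcP
section

/-!
# Row 337 (helper77): the numbers of `GC`, `UL`, `Sm` on the tiers
-/

set_option autoImplicit false
set_option linter.unusedSectionVars false

namespace Crest.Agent.N337.Ld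

open Finset Crest.Agent.N337.Free Crest.Agent.N337.I Crest.Agent.N337.Rg Crest.Agent.N337.Par

variable {L n T u Dw mt kt l : ℕ} [NeZero L] [NeZero T]

section gain
variable {α κ : Type} [SemilatticeSup α] [Preorder κ] {S : Sys (Tor 3 L) α κ} {G : Tr.Eg}
  {P : G1.Scales} {i : ℕ}

/-- the cost of the tube from the level `l` on. -/
theorem tau_sm (h : Bg n u) (H : GH u i P) (hi : i ≤ 15) (hQ : Tb.QQ S G ≤ Y u 1) (hl : l < mt) :
    Par.Sm u (48 * l + 15) 3 (Tb.tau S G P (kT u mt kt) (kT' u) l G.mt) := by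
  have hu := h.hu
  have key : ∀ {k a r : ℕ} {c : ℝ}, Rb u (k + 1) 75 c → Y u a ≤ r → k + 1 < a →
      Par.Sm u k 0 (√(c / (2 * (r : ℝ) + 1))) := fun {k a r c} h1 h2 h3 =>
    (Par.Sm.div h1 (k' := a) (by
      have : (Y u a : ℝ) ≤ r := by exact_mod_cast h2
      linarith [Yr_pos u a]) h3).sqrt (by norm_num)
  have a1 : Par.Sm u (48 * l + 15) 0 (Tb.cw P (2 ^ kT u mt kt l) (l + 1)) :=
    key (((H.K_le h l).lift (by omega)).mono (by norm_num)) (two_kT hl).ge (by omega)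
  have a2 : Par.Sm u (48 * l + 15) 0 (∑ j ∈ Ico l G.mt, Tb.cw P (2 ^ kT' u j) (j + 2)) := by
    refine .of_le (sum_nonneg fun j _ => Tb.cw_nn _ _) (k' := 48 * l + 25) (le_trans
      (sum_le_sum fun j _ => ?_) ((sum_s hu (t := fun j => 48 * j + 26) (fun j => by omega) l
        G.mt).trans (by sm! (48 * l + 25)))) (by omega)
    exact (key (k := 48 * j + 26) ((H.K h j).lift (by omega)) (two_kT' u j).ge (by omega)).le1
      (by norm_num) le_rfl
  unfold Tb.tau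
  exact Par.Sm.mono (by s_bd) (by norm_num)

/-- the Green bound at distance `q ≥ x l (a + 1) / 2`. -/
theorem gain (h : Bg n u) (H : GH u i P) (hi : i ≤ 15) (hQ : Tb.QQ S G ≤ Y u 1) (hl : l < mt)
    {a q : ℕ} {c e : ℝ} (hc : Rb u 0 1 c) (ha : a ≤ 4) (h1 : x u l (a + 1) ≤ 2 * q)
    (h2 : q ≤ x u l 6) (e0 : 0 ≤ e) (he : e ≤ s u (48 * l + 16)) :
    c * (0 + Gl.gF S G P (kT u mt kt) (kT' u) (Y u 0) l q + e) ≤ sx u l a ^ 16 := by
  have hu := h.hu
  have b1 := tau_sm (kt := kt) h H hi hQ hl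
  have b2 := b1.rb (k' := 0) (by norm_num)
  have b3 : Par.Sm u (48 * l + 11 + a) 3 (Tb.tau S G P (kT u mt kt) (kT' u) l G.mt) := by
    rcases ha.eq_or_lt with rfl | k
    · exact b1
    · exact (b1.down (by norm_num) (by omega)).mono (by norm_num)
  have b4 := H.K_le h l
  have b5 := H.η_le h l
  have b6 := log_pb (k := 48 * l + 1) hu (by omega) h2 (by omega)
  have b7 : Par.Sm u (48 * l + 11 + a) 0 e := .of_le e0 he (by omega)
  have b6' : Rb u (48 * l + 1) 2 (Nat.log 2 q : ℝ) := .cast b6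
  refine (mul_le_mul_of_nonneg_left (add_le_add (add_le_add le_rfl (Gl.gF_le _ _ _)) le_rfl)
    hc.1).trans ?_
  rw [← mul_div_mul_left _ _ (two_ne_zero (α := ℝ)), ← Nat.cast_two (R := ℝ), ← Nat.cast_mul 2 q,
    Nat.cast_two, sq (Tb.tau _ _ _ _ _ _ _)]
  sm! (48 * l + 11 + a)

end gain

/-- the prices of the covering bound. -/
noncomputable def tauX (u k r : ℕ) : ℝ := if r < x u k 12 then sx u k 2 else sx u k 4

lemma tauX_ge (u k r : ℕ) : sx u k 4 ≤ tauX u k r := by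
  unfold tauX; split_ifs; exacts [s_anti (by omega), le_rfl]

/-- **`GcN`** on the tiers. -/
theorem gcN (h : Bg n u) (z0 : Tor 3 L) {B K μ d nc R R' : ℕ} {th : ℕ → ℕ} {κ e : ℝ}
    (ok : Tr.Ok (sys n T (Par.num h Dw 12) z0) (eg u Dw mt))
    (tb : Tb.Nu (sys n T (Par.num h Dw 12) z0) (eg u Dw mt) (gs u (mt + 1)) (kT u mt kt) (kT' u) th)
    (hκ : Rb u 0 1 (G1.Cg κ)) (hμ : μ < mt) (hd : d ≤ 176) (hn : nc ≤ cN) (hR : R ≤ cS * x u μ 12)
    (hR' : nc ≠ 0 → cLam * max R (x u μ 12) ≤ R') (e0 : 0 ≤ e) (he : e ≤ s u (48 * μ)) :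
    GcN (cxI L n T B Dw K μ (fun k => x u k 1) (fun k => x u k 3) (tauX u)) (Par.num h Dw 12) z0
      (gs u (mt + 1)) (eg u Dw mt) (kT u mt kt) (kT' u) th κ 0 e d nc R R' := by
  have hu := h.hu
  have htm := h.tm
  have c1 : (ctm + 1) * ca ≤ cN := by unfold cN; omega
  have c2 : cN ≤ cN0 := by unfold cN0; omega
  have c3 : cN0 ≤ cqf := by unfold cqf; omega
  have hQ : Tb.QQ (sys n T (Par.num h Dw 12) z0) (eg u Dw mt) ≤ Y u 1 := by
    have := h.qf
    change 2 * cqf + 2 ≤ _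
    tier! 0
  refine ⟨rfl, ok, tb, ⟨?_, ?_, fun l _ => ?_, ⟨hn.trans c2, hn⟩, hR⟩, ⟨fun l _ => ⟨c1.trans
    (c2.trans c3), (rad_le h Dw 12 le_rfl (by exact Nat.le_add_right _ _)).trans (Sx_le h l), ?_⟩,
    hn.trans (c2.trans c3), hR.trans (Sx_le h μ)⟩, hμ, hR', fun l _ => Y_mono (by omega),
    fun l hl r r1 r2 => ?_⟩
  · change ck0 + 27 + d ≤ ctm
    unfold ctm; omega
  · change 125 * ((ctm + 1) * ca) ≤ cN0
    unfold cN0; omega
  · change 5 * ((3 * ctm + 1) * x u l 20) ≤ 2 * x u (l + 1) 0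
    exact le_trans (by tier! (48 * l + 31)) (Nat.le_mul_of_pos_left _ two_pos)
  · change 4 * x u l 15 + 3 * ctm * x u l 20 ≤ x u (l + 1) 0
    tier! (48 * l + 31)
  · change l < μ at hl
    change x u l 3 ≤ r at r1
    change r ≤ x u l 12 at r2
    have hη := (gh_gs u (mt + 1)).η_le h l
    have e1 : e ≤ s u (48 * l + 16) := he.trans (s_anti (by omega))
    have a1 : 4 * x u l 1 + 8 * (gs u (mt + 1)).η l + 2 ≤ x u l 3 := by tier! (48 * l + 12)
    have a2 : 2 * (x u l 5 + Y u 0) ≤ x u l 6 := by tier! (48 * l + 16)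
    have a3 : x u l 5 + 2 * x u l 1 ≤ x u l 12 := by tier! (48 * l + 16)
    have a4 : x u l 3 ≤ x u l 5 := Y_mono (by omega)
    change ∃ q, 1 ≤ q ∧ q + 2 * x u l 1 ≤ r ∧ 2 * (q + Y u 0) ≤ 2 ^ kT u mt kt l ∧
      4 * (gs u (mt + 1)).η l ≤ q ∧ G1.Cg κ * (0 + Gl.gF _ _ _ _ _ (Y u 0) l q + e) ≤ tauX u l r ^ 16
    rw [two_kT (hl.trans hμ), tauX]
    split_ifs with c
    · exact ⟨x u l 3 - 2 * x u l 1, by omega, by omega, by omega, by omega,
        gain (a := 2) h (gh_gs u _) (by omega) hQ (hl.trans hμ) hκ (by omega)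
          (show x u l 3 ≤ _ by omega) (by omega) e0 e1⟩
    · exact ⟨x u l 5, by omega, by omega, a2, by omega,
        gain (a := 4) h (gh_gs u _) (by omega) hQ (hl.trans hμ) hκ (by omega)
          (show x u l 5 ≤ _ by omega) (by omega) e0 e1⟩

/-- the numbers of `ul_grd`. -/
theorem sep_σ (h : Bg n u) (k : ℕ) : 2 * (Par.num h Dw 12).sep k ≤ (Par.num h Dw 12).σ k := by
  have hu := h.hu
  change 2 * x u k 12 ≤ x u k 13
  tier! (48 * k + 23)


end Crest.Agent.N337.Ld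
end

-- ▼ part N337/Par/Trk
section

/-!
# Row 337 (helper14): `Tr.Ok`, `Tb.Nu`, `En.Ti` on the parameter table
-/

set_option autoImplicit false
set_option linter.unusedSectionVars false

namespace Crest.Agent.N337.Par

open Finset Crest.MathPhysics.SpinModel Rg Tr Free

variable {L T : ℕ} [NeZero L] [NeZero T] {n u Dw mt sp kt B J : ℕ}

lemma one_le_cE : 1 ≤ cE := Dp_le_cE (j := 0) (by norm_num)

lemma σ_eg (u Dw mt l : ℕ) : (eg u Dw mt).σ l = 4 * x u l 7 * (x u l 8 * cE) := rfl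

lemma le_σ_eg (u Dw mt l : ℕ) : 4 * x u l 8 ≤ (eg u Dw mt).σ l :=
  Nat.mul_le_mul (Nat.le_mul_of_pos_right _ (Y_pos _ _)) (Nat.le_mul_of_pos_right _ one_le_cE)

lemma σ_eg_le (h : Bg n u) (Dw mt l : ℕ) : (eg u Dw mt).σ l ≤ x u l 9 := by
  have hu := h.hu
  have := h.E
  rw [σ_eg]
  tier! (48 * l + 19)


lemma QQ_eq (h : Bg n u) (hs : sp ≤ 12) (z0 : Tor 3 L) :
    Tb.QQ (I.sys n T (num h Dw sp hs) z0) (eg u Dw mt) = 2 * cqf + 2 := rfl

lemma QQ_le (h : Bg n u) : 2 * cqf + 2 ≤ Y u 0 := le_trans (by unfold cc; omega) h.c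

/-- **the tube numbers** for any G1 scales with `ρ (l + 1), η (l + 1) ≤ x l 17`. -/
theorem tb_nu (h : Bg n u) (hs : sp ≤ 12) (z0 : Tor 3 L) {P : G1.Scales} {th : ℕ → ℕ}
    (hmt : P.mt = mt + 1) (hth : ∀ l < mt, th l ≤ x u l 6) (hρ : ∀ l < mt, P.ρ (l + 1) ≤ x u l 17)
    (η0 : P.η 0 ≤ Y u 5) (hη : ∀ l < mt, P.η (l + 1) ≤ x u l 17) (hk : Y u (48 * mt + 6) ≤ 2 ^ kt)
    (hL : Y u 1 * 2 ^ kt ≤ L) :
    Tb.Nu (I.sys n T (num h Dw sp hs) z0) (eg u Dw mt) P (kT u mt kt) (kT' u) th := by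
  have hu := h.hu
  have hq := QQ_le h
  have hR : ∀ l < mt, Tb.Rw (I.sys n T (num h Dw sp hs) z0) (eg u Dw mt) P (kT' u) l +
      x u l 2 + th l ≤ x u l 18 := fun l hl => by
    have := hρ l hl; have := hth l hl
    rw [Tb.Rw, two_kT', QQ_eq]
    change x u l 2 + _ + _ + _ + _ ≤ _
    generalize 2 * cqf + 2 = q at hq
    tier! (48 * l + 28)
  have hp : ∀ {a b : ℕ}, 2 ^ a ≤ 2 ^ b → a ≤ b := fun h => (Nat.pow_le_pow_iff_right one_lt_two).1 h
  have ht : kT u mt kt mt = kt := if_neg (lt_irrefl _)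
  have h6 : ∀ l ≤ mt, Y u (48 * l + 6) ≤ 2 ^ kT u mt kt l := fun l hl => by
    rcases hl.eq_or_lt with rfl | hl
    · rwa [ht]
    · rw [two_kT hl]; exact Y_mono (by omega)
  refine ⟨hmt, by rw [QQ_eq]; change _ ≤ cc; unfold cc; omega, fun l hl => ⟨hp ?_, hp ?_⟩,
    fun l hl => le_trans ?_ (h6 l hl), fun l hl => ⟨?_, (hth l hl).trans_eq (two_kT (mt := mt) hl).symm, ?_⟩,
    fun l _ => ⟨?_, Y_mono (by omega)⟩, hR, fun l hl => ?_, fun l hl => (hη l hl).trans_eq (two_kT' u l).symm,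
    fun m hm => le_trans ?_ (h6 mt le_rfl), ?_⟩
  · rw [two_kT (mt := mt) hl, two_kT']; exact Y_mono (by omega)
  · rw [two_kT']; exact (Y_mono (by omega)).trans (h6 _ hl)
  all_goals try rw [QQ_eq]
  all_goals try rw [two_kT (mt := mt) hl]
  · generalize 2 * cqf + 2 = q at hq
    tier! 0
  · exact (Y_mono (by omega)).trans (Nat.le_mul_of_pos_left _ (by omega))
  · change _ ≤ x u l 7
    generalize 2 * cqf + 2 = q at hq
    tier! (48 * l + 17)
  · exact le_trans (le_trans (Y_mono (Nat.le_succ _)) (Nat.le_mul_of_pos_left _ (by norm_num)))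
      (le_σ_eg u Dw mt l)
  · have := hR l (Nat.lt_of_succ_lt hl)
    have : x u l 18 ≤ x u (l + 1) 6 := Y_mono (by omega)
    have := Nat.le_mul_of_pos_left (x u (l + 1) 6) (show 0 < 2 * (2 * cqf + 2) by omega)
    omega
  · rcases m with _ | m
    · tier! 5
    · have := hη m hm
      have : m + 1 ≤ mt := hm
      tier! (48 * m + 28)
  · change _ * 2 ^ kT u mt kt mt < L
    rw [ht]
    refine lt_of_lt_of_le (Nat.mul_lt_mul_of_pos_right ?_ (Nat.two_pow_pos kt)) hL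
    generalize 2 * cqf + 2 = q at hq
    tier! 0

lemma gs_ρ (h : Bg n u) (mt l : ℕ) : (gs u mt).ρ (l + 1) ≤ x u l 14 := by
  have hu := h.hu
  have := h.p3
  have := h.tS
  change 3 ^ cqf * (2 * G1.tS + x u l 13) + G1.tS ≤ _
  generalize 3 ^ cqf = q at *
  tier! (48 * l + 24)

/-- the tube numbers for `gs`. -/
theorem tb_gs (h : Bg n u) (hs : sp ≤ 12) (z0 : Tor 3 L) {th : ℕ → ℕ}
    (hth : ∀ l < mt, th l ≤ x u l 6) (hk : Y u (48 * mt + 6) ≤ 2 ^ kt) (hL : Y u 1 * 2 ^ kt ≤ L) :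
    Tb.Nu (I.sys n T (num h Dw sp hs) z0) (eg u Dw mt) (gs u (mt + 1)) (kT u mt kt) (kT' u) th :=
  tb_nu h hs z0 rfl hth (fun l _ => (gs_ρ h _ l).trans (Y_mono (by omega))) (η0_le h)
    (fun l _ => Y_mono (k := 48 * l + 11 + 15) (by omega)) hk hL

/-- **the numbers of the deterministic tree.** -/
theorem tr_ok (h : Bg n u) (z0 : Tor 3 L) (hL : Y u (48 * mt + 12) ≤ L) :
    Tr.Ok (I.sys n T (num h Dw 12) z0) (eg u Dw mt) := by
  have hu := h.hu
  have hc := h.c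
  have hCm := h.Cm
  have hLam := h.Lam
  have hN : cN0 + 27 * cE ≤ Y u 0 := le_trans (by unfold cqf; omega) h.qf
  have hσ := σ_eg_le h Dw mt
  have hE := one_le_cE
  have hS := h.S
  have hr := pb_r0 h
  have e1 : Cm (I.sys n T (num h Dw 12) z0) (eg u Dw mt) = cCm := rfl
  have e2 : Lm (I.sys n T (num h Dw 12) z0) (eg u Dw mt) = 4 * cCm + 2 := rfl
  refine ⟨fun _ _ => rfl, by change _ ≤ cc; unfold cc; omega, Nat.le_add_right _ _,
    ⟨le_rfl, Nat.le_succ _, Nat.succ_le_succ hE⟩,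
    fun m => ⟨Y_pos _ _, hE, (Nat.le_succ _).trans (Nat.le_self_pow (by omega) _)⟩,
    fun m => ?_, fun m => ⟨?_, Nat.le_mul_of_pos_left _ (by unfold cS; positivity)⟩, fun m => ?_,
    fun m => ?_, fun m => ⟨?_, Y_mono (by omega)⟩, fun m => ⟨Y_pos _ _, ?_, Y_mono (by omega)⟩,
    fun m => ⟨?_, Y_mono (by omega), Y_mono (by omega), ?_⟩, ?_, fun m => ?_,
    fun m => le_trans ?_ (le_trans (Nat.le_mul_of_pos_left _ (by norm_num)) (le_σ_eg u Dw mt m)),
    fun m hm => lt_of_lt_of_le ?_ hL⟩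
  rotate_left 8
  · change 2 * r0 u ≤ x u 0 2
    exact ((Pb.num hu (by norm_num)).mul hr).up (by norm_num) (by omega)
  all_goals have := hσ m
  all_goals try rw [e1]
  all_goals try rw [e2]
  all_goals generalize Eg.σ _ m = w at *
  all_goals simp only [eg, I.sys, num]
  all_goals clear e1 e2 hr hE hσ
  all_goals generalize cN0 + 27 * cE = e at *
  all_goals generalize cCm = a at *
  all_goals generalize cc = c at *
  all_goals generalize cLam = b at *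
  all_goals generalize cS = f at *
  · tier! (48 * (m + 1) + 11)
  · tier! (48 * m + 13)
  · have : m + 1 ≤ mt := hm
    tier! (48 * (m + 1) + 11)
  · tier! (48 * m + 20)
  · tier! (48 * m + 23)
  · tier! (48 * m + 24)
  · tier! (48 * m + 25)
  · tier! (48 * m + 24)
  · tier! (48 * m + 11)
  · tier! (48 * m + 24)
  · tier! (48 * m + 24)

lemma gam_le (u l : ℕ) : 0 ≤ gam u l ∧ gam u l ≤ s u (En.tv l + 1) := by
  cases l with
  | zero => exact ⟨(s_pos _ _).le, le_rfl⟩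
  | succ l => exact ⟨(s_pos _ _).le, le_rfl⟩

/-- probabilities of the coin events. -/
noncomputable def etaE (u l : ℕ) : ℝ := s u (48 * l + 63)

/-- the prices of the engine (`J` = number of winding classes). -/
noncomputable def pzE (n u Dw mt B J : ℕ) : En.Pz :=
  (En.Pd.tier u B J (dd u) (gam u) (s u 6) (etaE u)).pz (eg u Dw mt) n

/-- **the numbers of the engine.** -/
theorem ti (h : Bg n u) (hs : sp ≤ 12) (z0 : Tor 3 L) (hn : 0 < n) (hmt : 0 < mt)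
    (hL : Y u (48 * mt + 14) ≤ L)
    (hB : (univ.filter fun s : Fin T => Dw ∣ s.val).card ≤ B ∧ 1 ≤ B ∧ B ≤ Y u 11)
    (hJ : J ≤ u * D ^ (48 * mt + 100)) :
    En.Ti (I.sys n T (num h Dw sp hs) z0) (eg u Dw mt) u n T B J (dd u) (gam u) (s u 6) (etaE u) where
  hu := h.hu
  hn := ⟨hn, h.hn⟩
  mt := hmt
  Q := ⟨Nat.succ_le_succ one_le_cE, le_trans ((Nat.le_mul_of_pos_left _ two_pos).trans
    (Nat.le_self_pow (by norm_num) _)) h.Q⟩
  hL m hm := by
    have hu := h.hu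
    have : m ≤ mt := hm
    refine lt_of_lt_of_le ?_ hL
    change 4 * x u m 2 < _
    tier! (48 * m + 13)
  hB := hB
  hJ := hJ
  har := (Dp_le_cE (by norm_num)).trans (Nat.le_succ _)
  n1 := Dp_le_cE (by norm_num)
  jl _ := ⟨Dp_le_cE (by norm_num), h.E⟩
  r0 := ((Pb.num h.hu (by norm_num)).mul (pb_r0 h)).up (by norm_num) (by omega)
  ρ _ := le_rfl
  A _ := ⟨Y_pos _ _, le_rfl⟩
  Ns _ := rfl
  kp _ := le_rfl
  Rl _ := ⟨le_rfl, Y_pos _ _, le_rfl⟩
  dd0 := ⟨Y_pos _ _, Y_mono (k := 11) (by norm_num)⟩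
  hγ := gam_le u
  hγ0 := ⟨(s_pos _ _).le, le_rfl⟩
  hη _ := le_rfl

theorem nm_pzE (h : Bg n u) (hs : sp ≤ 12) (z0 : Tor 3 L) (hn : 0 < n) (hmt : 0 < mt)
    (hL : Y u (48 * mt + 14) ≤ L)
    (hB : (univ.filter fun s : Fin T => Dw ∣ s.val).card ≤ B ∧ 1 ≤ B ∧ B ≤ Y u 11)
    (hJ : J ≤ u * D ^ (48 * mt + 100)) :
    En.Nm (I.sys n T (num h Dw sp hs) z0) (eg u Dw mt) (pzE n u Dw mt B J) L n T ∧ ∀ m,
      En.eps (I.sys n T (num h Dw sp hs) z0) (eg u Dw mt) (pzE n u Dw mt B J) n m ≤ eps u m :=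
  ⟨(ti h hs z0 hn hmt hL hB hJ).nm, (ti h hs z0 hn hmt hL hB hJ).eps_le⟩

/-- the number of grid slices. -/
lemma card_grid (hT : T = B * Dw) : (univ.filter fun s : Fin T => Dw ∣ s.val).card ≤ B := by
  have hD : 0 < Dw := Nat.pos_of_ne_zero fun e => NeZero.ne T (by rw [hT, e, mul_zero])
  refine (card_le_card_of_injOn (fun s => s.val / Dw) (fun s _ => mem_coe.2 (mem_range.2
    ((Nat.div_lt_iff_lt_mul hD).2 (hT ▸ s.2)))) fun s hs s' hs' e => Fin.ext ?_).trans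
    (card_range B).le
  rw [← Nat.div_mul_cancel (mem_filter.1 hs).2, ← Nat.div_mul_cancel (mem_filter.1 hs').2]
  exact congrArg (· * Dw) e

end Crest.Agent.N337.Par
end

-- ▼ part N337/Par/Cx

/-!
# Row 337 (helper99): the numbers of the covisit trees on the tiers
-/

set_option autoImplicit false

namespace Crest.Agent.N337.Par.Cv

open Finset Crest.Agent.N337.Free Crest.Agent.N337.Rg

/-- prices of the covisits. -/
noncomputable def τc (u k r : ℕ) : ℝ := if r < x u k 12 then sx u k 2 else sx u k 4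

/-- the data of the covering bound (root scale `μ`). -/
noncomputable abbrev cx (L n T : ℕ) [NeZero L] [NeZero T] (u B Dw μ : ℕ) :
    Cx T (Tor 3 L × Fin n) (Tor 3 L) :=
  cxI L n T B Dw cQ μ (fun k => x u k 1) (fun k => x u k 3) (τc u)

def volc (u k : ℕ) : ℕ := (2 * x u (k + 1) 0 + 1) ^ 3
def ncc (u k : ℕ) : ℕ := (2 * (x u k 3 + 1)) ^ 3
def gc (u k : ℕ) : ℕ := x u k 0 ^ 2
def vjc (n u B k : ℕ) : ℕ := B * C9.Vn n (x u k 1)

variable {n u : ℕ} {L T : ℕ} [NeZero L] [NeZero T]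

lemma τc_lt {k r : ℕ} (h : r < x u k 12) : τc u k r = sx u k 2 := if_pos h
lemma τc_sep (u k : ℕ) : τc u k (x u k 12) = sx u k 4 := if_neg (lt_irrefl _)
lemma τc_le (u k r : ℕ) : τc u k r ≤ sx u k 2 := by
  unfold τc; split_ifs; exacts [le_rfl, s_anti (by omega)]
lemma le_τc (u k r : ℕ) : sx u k 4 ≤ τc u k r := by
  unfold τc; split_ifs; exacts [s_anti (by omega), le_rfl]

lemma x_lt (hu : 100 ≤ u) {k i j : ℕ} (h : i < j) : x u k i < x u k j := by tier! (48 * k + 11 + i)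

lemma locN_le (h : Bg n u) (Dw sp : ℕ) (hs : sp ≤ 12) (m : ℕ) :
    Ld.locN (num h Dw sp hs) m ≤ 2 * x u m 0 := by
  have hu := h.hu
  induction m with
  | zero => exact Nat.le_mul_of_pos_left _ two_pos
  | succ m ih =>
    have h1 : 2 * x u m 0 ≤ x u (m + 1) 0 := by tier! (48 * m + 11)
    change x u (m + 1) 0 + _ ≤ _
    omega

variable (h : Bg n u) (Dw : ℕ) (z0 : Tor 3 L)
include h

/-- colours and counts of one scale. -/
theorem snum (k : ℕ) : (I.sys n T (num h Dw 12) z0).Num cQ (fun k => x u k 3) (volc u) (ncc u)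
    (gc u) k := by
  have hu := h.hu
  have x0 := Y_pos u (48 * k + 11 + 0)
  refine ⟨Nat.lt_succ_self _, Nat.lt_succ_self _, fun y => I.col_lt (Nat.succ_pos _) y,
    fun y y' a b => I.col_sep (Nat.succ_pos _) a b, Y_mono (by omega), fun y => card_ball_le y _,
    pow_pos x0 _, ?_, fun l hl => ?_⟩
  · change cE * (volc u k / gc u k + 1) ≤ 2 * cE * x u k 0 ^ (ck0 - 1 - 0)
    have h1 : Pb u (48 * k + 11 + 48) 10 (volc u k / gc u k + 1) := by
      apply Pb.mono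
      · unfold volc; p_bd
      · norm_num
    rw [Pb, Y_add, ← pow_mul] at h1
    have h2 : D ^ 48 * 10 ≤ ck0 - 1 - 0 :=
      (fun a b (_ : 1 ≤ a) (_ : a * 1000000 ≤ b) => by omega : ∀ a b : ℕ, 1 ≤ a → a * 1000000 ≤ b →
        a * 10 ≤ b - 1 - 0) _ _ (one_le_Dp 48)
        ((Nat.mul_le_mul_left _ D_ge).trans ((pow_succ D 48).symm.trans ck0_eq.symm).le)
    rw [mul_comm 2, mul_assoc]
    exact Nat.mul_le_mul_left _ ((h1.trans (Nat.pow_le_pow_right x0 h2)).trans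
      (Nat.le_mul_of_pos_left _ two_pos))
  · change cE * ((ctm + 1) * (2 * cE * x u k 0 ^ (ck0 - 1 - l)) / x u k 0 ^ 2 + 1) ≤
      2 * cE * x u k 0 ^ (ck0 - 1 - (l + 1))
    change l + 1 < ck0 at hl
    obtain ⟨j, hj⟩ : ∃ j, ck0 - 1 - l = j + 1 := ⟨ck0 - 1 - (l + 1), by omega⟩
    rw [hj, show ck0 - 1 - (l + 1) = j by omega, mul_comm 2 cE, mul_assoc cE 2 (_ ^ j)]
    refine Nat.mul_le_mul_left _ ?_
    have h1 : (ctm + 1) * (cE * 2) ≤ x u k 0 := by
      have := h.tm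
      have := h.E
      tier! 0
    have h2 : (ctm + 1) * (cE * 2 * x u k 0 ^ (j + 1)) / x u k 0 ^ 2 ≤ x u k 0 ^ j := by
      refine Nat.div_le_of_le_mul ?_
      rw [← mul_assoc, show x u k 0 ^ 2 * x u k 0 ^ j = x u k 0 * x u k 0 ^ (j + 1) by ring]
      exact Nat.mul_le_mul_right _ h1
    have h3 : 1 ≤ x u k 0 ^ j := Nat.one_le_pow j _ x0
    omega

theorem cx_ok (B μ : ℕ) : (cx L n T u B Dw μ).Ok (I.sys n T (num h Dw 12) z0) := by
  have hu := h.hu
  refine ⟨Nat.succ_le_succ (cE_eq ▸ one_le_Dp 100), fun k _ => ?_, fun k _ => ⟨?_, Y_mono (by omega)⟩,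
    fun k _ l hl => ?_, fun k y v hv => gsl_d hv, fun k r => ⟨(s_pos _ _).trans_le (le_τc u k r),
      (τc_le u k r).trans ((s_le_num hu _).trans (by norm_num))⟩, fun k _ r _ _ => ?_,
    fun k _ l hl r _ _ => (τc_sep u k).trans_le ((s_anti (by omega)).trans (le_τc u l r))⟩
  · change x u k 1 + x u (k + 1) 0 ≤ x u (k + 1) 1
    tier! (48 * (k + 1) + 11)
  · change 2 * x u k 1 ≤ x u k 3
    tier! (48 * k + 12)
  · change x u l 12 + 2 * x u k 1 ≤ x u k 12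
    tier! (48 * k + 12)
  · have h0 := ((s_pos _ _).trans_le (le_τc u k r)).le
    have h1 : (2 * cQ) ^ 4 ^ (k + 1 + 1) ≤ Y u (48 * k + 11 + 2) :=
      (pow_pow_le ((Nat.le_self_pow (by norm_num) _).trans h.Q) (four_le_Dp _)).trans
        (Y_mono (by omega))
    refine (pow_le_of_le_one h0 ((τc_le u k r).trans (s_le_one _ _)) (by norm_num)).trans
      ((τc_le u k r).trans ?_)
    change _ ≤ (1 / (2 * (cQ : ℝ))) ^ 4 ^ (k + 1 + 1)
    rw [one_div, inv_pow]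
    exact inv_anti₀ (by unfold cQ; positivity) (by exact_mod_cast h1)

/-- **the numerics of `F3`, `N3`.** -/
theorem cx_nm {B : ℕ} (hB : B ≤ Y u 11) (μ : ℕ) : (cx L n T u B Dw μ).Nm
    (I.sys n T (num h Dw 12) z0) (volc u) (ncc u) (gc u) (vjc n u B) (eps u) := by
  have hu := h.hu
  refine ⟨cx_ok h Dw z0 B μ, fun k _ => snum h Dw z0 k, fun k y => card_gsl B Dw y _,
    fun k => (s_pos _ _).le, fun k _ => ?_⟩
  change ((ck0 * ncc u k * (volc u k / gc u k + 1) : ℕ) : ℝ) *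
      (gc u k * (8 * vjc n u B k * τc u k (x u k 3))) ^ (cE + 1) +
    (((ncc u k * ((ctm + 1) * (2 * cE * x u k 0 ^ (ck0 - 1 - (ck0 - 1)))) : ℕ) *
      (8 * vjc n u B k * τc u k (x u k 12))) ^ (cE + 1) + (volc u k * eps u k) ^ (cE + 1)) ≤
    s u (48 * (k + 1 + 1) + 11 + 1)
  have hE : D ^ 100 ≤ cE + 1 := cE_eq ▸ Nat.le_succ _
  have a1 := h.hn
  have a2 := h.k0
  have a3 := h.tm
  have a4 := h.E
  have s0 := fun i => (s_pos u i).le
  rw [τc_lt (x_lt hu (by norm_num)), τc_sep, Nat.sub_self, pow_zero, mul_one, ← mul_assoc (gc u k : ℝ),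
    ← mul_assoc (Nat.cast _ : ℝ) (8 * _) (sx u k 4)]
  have b1 := pow_small (x := gc u k * (8 * vjc n u B k) * sx u k 2) (k := 48 * k + 12)
    (mul_nonneg (by positivity) (s0 _)) (by unfold gc vjc C9.Vn; rtier! (48 * k + 12)) hE
  have b2 := pow_small (x := ((ncc u k * ((ctm + 1) * (2 * cE)) : ℕ) : ℝ) * (8 * vjc n u B k) *
    sx u k 4) (k := 48 * k + 14) (mul_nonneg (by positivity) (s0 _))
    (by unfold ncc vjc C9.Vn; rtier! (48 * k + 14)) hE
  have b3 := pow_small (x := volc u k * eps u k) (k := 48 * k + 59)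
    (mul_nonneg (by positivity) (s0 _)) (by unfold volc eps; rtier! (48 * k + 59)) hE
  have b4 : ((ck0 * ncc u k * (volc u k / gc u k + 1) : ℕ) : ℝ) * s u (48 * k + 12 + 100) ≤
      s u (48 * k + 109) := by unfold ncc volc; rtier! (48 * k + 109)
  have b5 := mul_le_mul_of_nonneg_left b1
    (Nat.cast_nonneg (α := ℝ) (ck0 * ncc u k * (volc u k / gc u k + 1)))
  have b6 : 3 * s u (48 * k + 109) ≤ s u (48 * (k + 1 + 1) + 11 + 1) := by rtier! (48 * k + 108)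
  have b7 := s_anti (u := u) (show 48 * k + 109 ≤ 48 * k + 14 + 100 by omega)
  have b8 := s_anti (u := u) (show 48 * k + 109 ≤ 48 * k + 59 + 100 by omega)
  linarith

/-- slow pins. -/
theorem slN {d t τ : ℕ} (sp : ℕ) (hs : sp ≤ 12) (hd : ck0 + 27 + d ≤ τ) (ht : t ≤ τ)
    (hτ : τ ≤ ctm + 13) : C9.SlN (num h Dw sp hs) d t τ :=
  ⟨ll_pos u, hd, ht, hρ h Dw sp hs hτ, hJ h Dw sp hs hτ⟩

lemma vv_le {τ : ℕ} (hτ : τ ≤ ctm + 13) (sp : ℕ) (hs : sp ≤ 12) (k : ℕ) :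
    vv (num h Dw sp hs) τ k ≤ Y u (48 * k + 2) := by
  have hu := h.hu
  have h1 := lw_le h Dw sp hs hτ k
  have h2 : τ ≤ Y u 1 := hτ.trans (by have := h.tm; tier! 0)
  change 2 * τ * Y u 1 + _ ≤ _
  tier! (48 * k + 1)

/-- **visits.** -/
theorem vn {d : ℕ} (hd : d ≤ 176) (μ : ℕ) : VN (num h Dw 12) d ctm μ fun k => x u k 1 := by
  have hu := h.hu
  refine ⟨slN h Dw 12 le_rfl (by unfold ctm; omega) le_rfl (by omega), ?_,
    fun k _ => ⟨?_, x_lt hu (by norm_num), x_lt hu (by norm_num)⟩⟩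
  · change 2 ≤ cLam
    have := Nat.one_le_pow cN (2 * cc + 2) (by omega)
    unfold cLam; omega
  · have h1 := vv_le h Dw (τ := ctm) (by omega) 12 le_rfl k
    refine (Nat.add_le_add_right (Nat.add_le_add_right (locN_le h Dw 12 le_rfl k) _) _).trans ?_
    tier! (48 * k + 11)

end Crest.Agent.N337.Par.Cv
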