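import Crest.Agent.N337.Par.Y
import Crest.Agent.N337.G4.Inst
import Crest.Agent.N337.G4.RDefs
import Crest.Agent.N337.G4.Fst
import Crest.Agent.N337.I.Geom
import Crest.Agent.N337.Par.G1s
import Crest.Agent.N337.Par.Eng
import Crest.Agent.N337.Gl.Ht
import Crest.Agent.N337.R.Pt
import Crest.Agent.N337.Top.BWord
import Crest.Agent.N337.G4.RStep
import Crest.Agent.N337.Gl.Tb
import Crest.Agent.N337.I.Slow
import Crest.Agent.N337.Ld.Cov
import Crest.Agent.N337.Ld.Jnk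
import Crest.Agent.N337.Par.Defs
import Crest.Agent.N337.M.Defs
import Crest.Agent.N337.C9.Ins
import Crest.Agent.N337.M.Ctx

-- ▼ part N337/Par/G4
section

/-!
# Row 337 (helper42): the numbers of G4 on the tiers (`x l i = Y u (48 l + 11 + i)`)
-/

set_option autoImplicit false
set_option linter.unusedSectionVars false

namespace Crest.Agent.N337.Par

open Finset Crest.Agent.N337.Free Crest.Agent.N337.Rg Crest.Agent.N337.Tr G4

/-- prices. -/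
noncomputable def pz4 (u : ℕ) : Rs.Pz where
  k0 := 6 * Y u 4
  η := s u 60 / 2
  cF := (Y u 4 : ℝ) ^ 2 * s u 6
  dd l := Y u (48 * l + 15)
  γ l := s u (48 * l + 6)
  ε l := s u (48 * l + 60)

/-- fronts. -/
def gp4 (u N c : ℕ) : Rs.Gp where
  N := N
  c := c
  Rm l := Y u (48 * l + 25)
  dc l := Y u (48 * l + 26)
  W l := Y u (48 * l + 30)
  sg l := Y u (48 * l + 22)
  un l := Y u (48 * l + 21)
  A l := Y u (48 * l + 20)
  fr := Y u 11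

/-- paths. -/
def np4 (u mt vol : ℕ) (v lc Sc : ℕ → ℕ) (Kr : ℕ → ℝ) : Sp.Np where
  K l := 6 * Y u (48 * l + 6) * if l < mt then Y u (48 * l + 11) else 3 * vol * Y u (48 * l + 6)
  ρ _ := 1
  σ l := Y u (48 * l + 13)
  Δ l := if l = 0 then 1 else Y u (48 * (l - 1) + 12)
  v := v
  f l := Y u (48 * l + 14)
  Nn l := if l < mt then Y u (48 * l + 27) else vol
  lc := lc
  Sc := Sc
  Hc l := Y u (48 * l + 31)
  r0 := Y u 11
  Kr := Kr

variable {L : ℕ} {α κ : Type} [SemilatticeSup α] [Preorder κ]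

/-- what the numbers need of the internal rung system and of the routes. -/
structure H4 (u : ℕ) (S : Sys (Tor 3 L) α κ) (G : Eg) (N c : ℕ) : Prop where
  hu : 100 ≤ u
  d : ∀ x y, S.d x y = tdist x y
  a1 : 2 * D ^ 48 ≤ S.a1 + 1 ∧ 2 * (S.a1 + 1) ≤ Y u 0
  ρ : ∀ l, S.ρ l = Y u (48 * l + 11)
  sep : ∀ l < G.mt, Y u (48 * l + 16) ≤ S.sep l ∧ S.sep l ≤ G.σ l
  c : G.c ≤ c ∧ 1 ≤ G.c ∧ G.c ≤ Y u 0
  q : N + S.a1 ≤ qf S G
  A : ∀ l < G.mt, G.A l ≤ Y u (48 * l + 20)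
  σ : ∀ l < G.mt, Pb u (48 * l + 19) 10 (G.σ l)
  W : ∀ l < G.mt, Y u (48 * l + 26) ≤ G.W l
  Rs : ∀ l < G.mt, Y u (48 * l + 20) ≤ G.Rs l ∧ G.Rs l ≤ Y u (48 * l + 29)
  rr : ∀ l < G.mt, Y u 11 ≤ G.rr l
  hL : ∀ l < G.mt, 2 * (2 * G.Rs l + G.W l) < L
  mt : 1 ≤ G.mt

variable {u N c : ℕ} {S : Sys (Tor 3 L) α κ} {G : Eg}

lemma loc_le4 (hu : 100 ≤ u) (h : ∀ l, S.ρ l = Y u (48 * l + 11)) (l : ℕ) :
    S.loc l ≤ Y u (48 * l + 12) := by
  induction l with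
  | zero => exact (h 0).trans_le (Y_mono (by omega))
  | succ l ih => rw [Sys.loc, h]; tier! (48 * (l + 1) + 11)

/-- one step of a tree recursion. -/
lemma rec_le {k j e a : ℕ} {r : ℝ} (h : Rb u k e r) (he : 2 * e ≤ 1000000) (ha : 2 * D ^ j ≤ a) :
    (r * s u (k + 1)) ^ a ≤ s u (k + 1 + j) := by
  have s0 := s_pos u (k + 1)
  have h0 : 0 ≤ r * s u (k + 1) := mul_nonneg h.1 s0.le
  have h1 : r ^ 2 * s u (k + 1) ≤ 1 := by
    simpa using (h.pow (j := 2)).sm (j := 0) (i := 0) (by omega) k.lt_succ_self (Nat.zero_le _)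
  have h2 : (r * s u (k + 1)) ^ 2 ≤ s u (k + 1) := by nlinarith
  have h3 : r * s u (k + 1) ≤ 1 := by nlinarith [s_le_one u (k + 1)]
  refine (pow_le_pow_of_le_one h0 h3 ha).trans ?_
  rw [pow_mul]
  exact pow_small (by positivity) h2 le_rfl

lemma rec4 (hu : 100 ≤ u) (a1 : 2 * D ^ 48 ≤ S.a1 + 1) (hρ : ∀ l, S.ρ l = Y u (48 * l + 11)) (k : ℕ) :
    ((2 * S.ρ (k + 1) + 1 : ℕ) ^ 3 * s u (48 * k + 60) : ℝ) ^ (S.a1 + 1) ≤ s u (48 * (k + 1) + 60) := by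
  rw [hρ]
  exact rec_le (k := 48 * k + 59) (j := 48) (by r_bd) (by norm_num) a1

/-- the trees (internal or external system). -/
theorem nt4 {m : ℕ} (hu : 100 ≤ u) (hd : ∀ x y, S.d x y = tdist x y)
    (a1 : 2 * D ^ 48 ≤ S.a1 + 1 ∧ 2 * (S.a1 + 1) ≤ Y u 0) (hρ : ∀ l, S.ρ l = Y u (48 * l + 11))
    (hs : ∀ l < m, Y u (48 * l + 16) ≤ S.sep l) : Rs.NT S (pz4 u) m := by
  have a2 := a1.2
  refine ⟨hd, ?_, ⟨by have := s_pos u 60; simp only [pz4]; positivity, by simp [pz4, mul_div_cancel₀]⟩,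
    mul_pos (pow_pos (Yr_pos _ _) _) (s_pos _ _), fun k => ⟨(s_pos _ _).le, ?_⟩, fun k => (s_pos _ _).le,
    fun k _ => rec4 hu a1.1 hρ k, fun k hk => ⟨one_le_Y _ _, le_trans ?_ (hs k hk)⟩⟩
  · have := a1.1
    have := one_le_Dp 48
    omega
  · simp only [pz4]
    rw [one_div, inv_pow, ← div_eq_mul_inv, le_div_iff₀ (by positivity)]
    have e : ((S.a1 + 1 : ℕ) : ℝ) ^ (k + 1) * (((6 * Y u 4 : ℕ) : ℝ) * (2 * s u (48 * k + 6))) *
        2 ^ (k + 1) = (((2 * (S.a1 + 1)) ^ (k + 1) * 12 * Y u 4 : ℕ) : ℝ) * s u (48 * k + 6) := by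
      push_cast; rw [mul_pow]; ring
    rw [e]
    rcases k with _ | k
    · refine mul_le_mul_of_nonneg_right ?_ (s_pos _ _).le
      have : (2 * (S.a1 + 1)) ^ (0 + 1) * 12 ≤ Y u 4 := by tier! 0
      exact_mod_cast (Nat.mul_le_mul_right _ this).trans_eq (sq _).symm
    · have b := pow_pow_le a2 (lt_Dp (k + 1 + 1)).le
      refine le_trans (b := s u 6) (by rtier! (k + 6)) (le_mul_of_one_le_left (s_pos _ _).le ?_)
      exact one_le_pow₀ (by exact_mod_cast one_le_Y u 4)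
  · have := loc_le4 hu hρ k
    simp only [pz4]
    tier! (48 * k + 15)

theorem H4.nt (h : H4 u S G N c) : Rs.NT S (pz4 u) G.mt :=
  nt4 h.hu h.d h.a1 h.ρ fun l hl => (h.sep l hl).1

theorem H4.ng (h : H4 u S G N c) : Rs.NG S G (gp4 u N c) := by
  have hu := h.hu
  have hc := h.c.2.2
  refine ⟨⟨h.c.1, h.c.2.1⟩, h.q, fun l hl => ?_, fun l hl => ?_, fun l hl => ?_, fun l i hl hi => ?_,
    fun l hl => (h.ρ 0).trans_le (h.rr l hl), h.hL, Y_mono (by omega), h.mt⟩ <;>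
    have h1 := loc_le4 hu h.ρ l <;> simp only [gp4]
  · have h2 := h.σ l hl
    exact ⟨h.A l hl, by tier! (48 * l + 19), (h.Rs l hl).1, by tier! (48 * l + 20)⟩
  · have h2 := h.σ l hl
    exact ⟨(h.sep l hl).2, by tier! (48 * l + 19), le_trans (by tier! (48 * l + 25)) (h.W l hl)⟩
  · have h2 := (h.Rs l hl).2
    exact ⟨by tier! (48 * l + 29), h.ρ _ ▸ h2.trans (Y_mono (by omega))⟩
  · have h2 := (h.Rs l (by omega)).2
    tier! (48 * l + 29)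

theorem H4.sum (h : H4 u S G N c) (l : ℕ) : ∑ i ∈ Ico l G.mt,
    ((2 * (gp4 u N c).A i + 1 : ℕ) ^ 3 * (pz4 u).ε i +
      ((2 * S.ρ (i + 1) + 1 : ℕ) ^ 3 * (pz4 u).ε i) ^ (S.a1 + 1)) ≤ (pz4 u).γ l / 2 := by
  have hu := h.hu
  have h1 := sum_s hu (t := fun i => 48 * i + 59) (fun i => by omega) l G.mt
  have h2 : 8 * s u (48 * l + 59) ≤ s u (48 * l + 6) := by rtier! (48 * l + 6)
  refine (sum_le_sum (g := fun i => 2 * s u (48 * i + 59)) fun i _ => ?_).trans ?_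
  · have h3 := (rec4 hu h.a1.1 h.ρ i).trans (s_anti (show 48 * i + 59 ≤ _ by omega))
    have h4 : ((2 * Y u (48 * i + 20) + 1 : ℕ) : ℝ) ^ 3 * s u (48 * i + 60) ≤ s u (48 * i + 59) := by
      rtier! (48 * i + 59)
    simp only [pz4, gp4]
    linarith
  · rw [← mul_sum]
    simp only [pz4]
    linarith

theorem np4_ok {n vol : ℕ} {v lc Sc : ℕ → ℕ} {Kr : ℕ → ℝ} (hu : 100 ≤ u)
    (hf : (D ^ 20 + 1).factorial ≤ Y u 0) (hn : n ≤ Y u 0) (hN : N ≤ Y u 0)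
    (hc : (2 * c + 2) ^ N ≤ Y u 0) (hv : ∀ l < G.mt, v l ≤ Y u (48 * l + 12))
    (hlc : ∀ l < G.mt, lc l ≤ Y u (48 * l + 13)) (hS : ∀ l < G.mt, Sc l ≤ Y u (48 * l + 24))
    (hK : ∀ l < G.mt, Kr l ≤ Y u (48 * l + 13)) :
    Sp.NP G (gp4 u N c) (pz4 u) (np4 u G.mt vol v lc Sc Kr) n vol := by
  refine ⟨fun l => ⟨s_pos _ _, (s_le_one _ _).trans (by norm_num)⟩,
    fun a b hab => s_anti (by omega), le_rfl, fun l hl => ?_, fun l hl => ⟨?_, ?_⟩, fun l hl => ?_,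
    by simp [np4], fun l hl => ?_, fun l hl => ?_, fun l hl => ⟨?_, ?_⟩, fun l hl => ?_,
    fun l hl => ?_, fun l hl => ?_⟩ <;> simp only [np4, gp4, pz4]
  · have : (if l = 0 then 1 else Y u (48 * (l - 1) + 12)) ≤ Y u (48 * l + 11) := by
      split_ifs; exacts [one_le_Y _ _, Y_mono (by omega)]
    rw [if_pos hl, if_neg l.succ_ne_zero, Nat.add_sub_cancel]
    tier! (48 * l + 11)
  · have h1 := self_le_Y hu l
    refine le_trans (b := 1 + (l + 1) * Y u (48 * l + 12)) (Nat.add_le_add_left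
      ((sum_le_card_nsmul _ _ (Y u (48 * l + 12)) fun t ht => ?_).trans (by simp)) _) ?_
    · rw [if_neg t.succ_ne_zero]
      exact Y_mono (by have := mem_range.1 ht; omega)
    · tier! (48 * l + 12)
  · tier! (48 * l + 21)
  · have y0 := Yr_pos u (48 * l + 6)
    have e : ∀ a : ℕ, s u (48 * l + 6) * ((6 * Y u (48 * l + 6) * a : ℕ) : ℝ) / 6 = a := fun a => by
      rw [s]; push_cast; field_simp
    rw [e, s, inv_mul_eq_div, le_div_iff₀ y0]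
    split_ifs
    · refine le_trans ?_ (Y_le_exp (k := 48 * l + 11) hf)
      rtier! (48 * l + 27)
    · exact le_trans (by push_cast; linarith) (Real.add_one_le_exp _)
  · have h1 : 40 * Y u (48 * l + 13) + Y u (48 * l + 11) ≤ Y u (48 * l + 14) := by
      tier! (48 * l + 13)
    have h2 : (40 * Y u (48 * l + 13) + Y u (48 * l + 11) : ℝ) ≤ Y u (48 * l + 14) := by
      exact_mod_cast h1
    rw [if_pos hl]
    refine le_trans (mul_le_mul_of_nonneg_left ((Real.exp_le_exp.2 (by linarith [hK l hl])).trans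
      (exp_neg_le (k := 48 * l + 11) hf)) (Nat.cast_nonneg _)) ?_
    rtier! (48 * l + 27)
  · have h1 := hv l hl
    have h2 := hlc l hl
    rw [if_pos hl]
    tier! (48 * l + 25)
  · rw [one_mul]; exact Y_mono (by omega)
  · have h1 := hv l hl
    have h2 := hlc l hl
    rw [one_mul]
    tier! (48 * l + 14)
  · have h1 := hS l hl
    tier! (48 * l + 24)
  · have h1 := hS l hl
    tier! (48 * l + 25)
  · tier! (48 * l + 30)

end Crest.Agent.N337.Par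
end

-- ▼ part N337/G4/LDefs
section

/-!
# Row 337, G4 (helper76): the pairs of the claims, the additional bad event, the leaf numbers
-/

set_option autoImplicit false
set_option linter.unusedSectionVars false

namespace Crest.Agent.N337.G4.Le

open Finset Free KV Geo Rep
open Crest.Agent.N337.I (V Ev vis cnt chg acp evp Cl W0 G0 Rp)
open Crest.Agent.N337.G1 (lag)

/-- numbers of the leaves at `θ = 2`. -/
structure Ln where
  /-- pins per window, shadow of the environment, free jumps per window -/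
  m : ℕ
  j : ℕ
  f : ℕ
  /-- exposed radius, exposed windows of a short pair, windows of a label, long lag -/
  d : ℕ
  τ : ℕ
  k : ℕ
  Lg : ℕ
  /-- offset of the short pairs -/
  o : ℝ

variable {L n T : ℕ} [NeZero L] [NeZero T] (ex ey : Fin T → Tor 3 L × Fin n) (F : I.Lf) (N : Ln)
  (E : Ev L n T) (Z : Finset (Tor 3 L))

/-- short pairs: the lag contains the windows `S`, exposed for `E` within `r` of `y`. -/
structure Short (y : Tor 3 L) (v u : V L n T) (r : ℕ) (S : Finset ℕ) : Prop where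
  lag_le : lag u.1 v.1 ≤ F.l * F.D
  near : tdist y v.2.1 + N.d ≤ r
  rad : r + F.A ≤ F.r0
  card : N.τ ≤ S.card
  win : ∀ i ∈ S, ¬ Cl F r (vis Z E.1) y i ∧ u.1.val ≤ i * F.D ∧
    (i + 1) * F.D ≤ u.1.val + lag u.1 v.1

/-- **the pairs** (`al` = alive): far pairs, long lags, short pairs. -/
def Pr (al : V L n T → Prop) (ρ0 : ℕ) (dd : ℕ → ℕ) (l : ℕ) (y : Tor 3 L) (v u : V L n T) (o : ℝ) :
    Prop :=
  tdist y v.2.1 ≤ ρ0 ∧ al v ∧ al u ∧ ((dd l ≤ tdist v.2.1 u.2.1 ∧ o = 0) ∨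
    (l = 0 ∧ N.Lg * F.D ≤ lag u.1 v.1 ∧ o = 0) ∨ (l = 0 ∧ o = N.o ∧ ∃ r S, Short F N E Z y v u r S))

open Classical in
/-- half of the windows `S` contain a cluster. -/
def Bad (y : Tor 3 L) (r : ℕ) (S : Finset ℕ) (ω : CR T (Tor 3 L × Fin n)) : Prop :=
  S.card ≤ 2 * (S.filter fun i => Cl F r (vis Z (E.1 ∪ ω.2)) y i).card

/-- the leaves of the red set. -/
def Lw (ω : CR T (Tor 3 L × Fin n)) (y : Tor 3 L) : Prop := W0 F (evp ex ey ω.1 ω.2) E Z y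

open Classical in
/-- the shadow of the environment in the window `i`. -/
noncomputable def Sh (y : Tor 3 L) (i : ℕ) : Finset (Tor 3 L × Fin n) :=
  univ.filter fun e => tdist y e.1 ≤ F.r0 ∧
    ∃ k ∈ Ico (i * F.D) ((i + 1) * F.D), (tm T k, e) ∈ vis Z E.1

/-- the environment is tame near `y`. -/
structure Tm (y : Tor 3 L) : Prop where
  few : Fs.Few Z E.2 F.D N.m F.r0 (2 * F.r0 + 2) y
  sh : ∀ i, (Sh F E Z y i).card ≤ N.j

/-- cost of the coin family. -/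
noncomputable def cC (n B w : ℕ) (θ : ℝ) : ℝ :=
  B * (n * (2 * ((2 * F.r0 + 2 : ℕ) : ℝ) + 1) ^ 3) * Real.exp (56 * θ * (w + 1 + N.m) - N.f)

/-- cost of a new cluster in one window, `lam` = price of a point. -/
noncomputable def cW (n : ℕ) (lam : ℝ) : ℝ :=
  N.j * (n * (2 * (2 * F.A + (N.f + N.m)) + 1) ^ 3 : ℕ) * lam +
    (2 * F.r0 + 1) ^ 3 * ((n * (2 * (F.A + (N.f + N.m)) + 1) ^ 3 : ℕ) * lam) ^ 6

/-- cost of the point families (`g` = bound for long lags). -/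
noncomputable def cP (n B : ℕ) (g cF : ℝ) : ℝ :=
  B * ((n * (4 * F.r0 + 1) ^ 3 : ℕ) * (2 * Real.exp 1 * ((F.n1 + 1 : ℕ) * g + cF))) ^ (F.n1 + 1) +
    (F.sm * B * N.τ * 2 ^ (F.l / N.τ + 1) : ℕ) *
      cW F N n (2 * Real.exp 1 * ((6 * N.k : ℕ) * (g + N.o) + cF)) ^ N.k

/-- the word and the integer side conditions. -/
structure Ok (p0 : Fin T → ℝ) (Es w B : ℕ) (θ : ℝ) (ρ0 : ℕ) : Prop where
  hW : RR.Word ex ey p0 Es w B θ
  hθ : 50 * θ ≤ 1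
  blk : Fs.Blk ex ey p0
  hD : F.D = w * Es
  hr : N.f + N.m + 1 ≤ F.r0
  j1 : 2 * (F.n1 * (N.f + n ^ 2)) ≤ F.j1
  dl : F.A + (N.f + N.m) + N.d ≤ F.dl
  τ : 1 ≤ N.τ ∧ N.τ * N.k ≤ F.l1
  Lg : N.Lg + F.l ≤ B
  ρ0 : 3 * F.r0 + 3 ≤ ρ0
  o : 0 ≤ N.o

variable {ex ey F N E Z} {Z' : Finset (Tor 3 L)} {y : Tor 3 L} {v u : V L n T} {r : ℕ}
  {S : Finset ℕ} {al al' : V L n T → Prop} {ρ0 l : ℕ} {dd : ℕ → ℕ} {o : ℝ} {ξ : Fin T → Bool}
  {R R' : Finset (V L n T)}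

lemma Short.mono (h : Short F N E Z y v u r S) (hZ : Z ⊆ Z') : Short F N E Z' y v u r S :=
  ⟨h.lag_le, h.near, h.rad, h.card, fun i hi =>
    ⟨fun k => (h.win i hi).1 (k.mono le_rfl (I.vis_mono Subset.rfl hZ)), (h.win i hi).2⟩⟩

lemma Pr.mono (h : Pr F N E Z al ρ0 dd l y v u o) (hZ : Z ⊆ Z') (hv : al' v) (hu : al' u) :
    Pr F N E Z' al' ρ0 dd l y v u o :=
  ⟨h.1, hv, hu, h.2.2.2.imp id (Or.imp id fun ⟨a, b, r, S, c⟩ => ⟨a, b, r, S, c.mono hZ⟩)⟩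

lemma Pr.far (h1 : tdist y v.2.1 ≤ ρ0) (hv : al v) (hu : al u) (h2 : dd l ≤ tdist v.2.1 u.2.1) :
    Pr F N E Z al ρ0 dd l y v u 0 := ⟨h1, hv, hu, .inl ⟨h2, rfl⟩⟩

lemma Bad.mono (hR : R ⊆ R') (h : Bad F E Z y r S (ξ, R)) : Bad F E Z y r S (ξ, R') := by
  classical
  exact h.trans (Nat.mul_le_mul_left 2 (card_le_card (monotone_filter_right _ fun _ _ k =>
    k.mono le_rfl (I.vis_mono (union_subset_union_right hR) Subset.rfl))))

/-- off the bad event half of the windows are free of clusters near the target. -/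
theorem Short.good {ω : CR T (Tor 3 L × Fin n)} (h : Short F N E Z y v u r S)
    (hB : ¬ Bad F E Z y r S ω) : ∃ S' : Finset ℕ, N.τ < 2 * S'.card ∧ ∀ i ∈ S',
      G1.NoCl (vis Z (E.1 ∪ ω.2)) F.D F.A N.d v.2.1 i ∧ u.1.val ≤ i * F.D ∧
        (i + 1) * F.D ≤ u.1.val + lag u.1 v.1 := by
  classical
  refine ⟨S.filter fun i => ¬ Cl F r (vis Z (E.1 ∪ ω.2)) y i, ?_, fun i hi =>
    ⟨I.noCl (mem_filter.1 hi).2 Subset.rfl h.near, (h.win i (mem_filter.1 hi).1).2⟩⟩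
  have := card_filter_add_card_filter_not (s := S) fun i => Cl F r (vis Z (E.1 ∪ ω.2)) y i
  have := h.card
  rw [Bad, not_le] at hB
  omega

lemma Lw.mono (hR : R ⊆ R') (h : Lw ex ey F E Z (ξ, R) y) : Lw ex ey F E Z (ξ, R') y :=
  W0.mono h (I.evp_mono hR)

lemma Lw.zero : ¬ Lw ex ey F E Z (ξ, ∅) y := by
  classical
  rw [Lw, I.evp_empty]
  rintro (⟨k, h⟩ | ⟨i, h⟩ | ⟨s, -, i, h⟩)
  · exact absurd (h.trans_eq (I.cnt_zero fun _ h => absurd (I.vis_sub h) (notMem_empty _)))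
      (Nat.not_lt_zero _)
  · exact absurd (h.trans_eq (sum_eq_zero fun k _ => I.cnt_zero fun _ h =>
      absurd (mem_sdiff.1 (I.vis_sub h)).1 (notMem_empty _))) (Nat.not_lt_zero _)
  · exact absurd (h.trans_eq (card_eq_zero.2 (filter_eq_empty_iff.2 fun _ _ k => k.2 (k.1.mono
      (F.rr_anti (Nat.le_succ s)) (I.vis_mono (union_subset Subset.rfl (empty_subset _))
        Subset.rfl))))) (Nat.not_lt_zero _)

/-- tame environments from the rung. -/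
theorem Tm.of {p : Fin T → ℝ} {t B x0 : ℕ} {X X0 : Finset (V L n T)} (hT : T = B * F.D)
    (hl : 1 ≤ F.l) (hp : Rp ex ey p E.1 X) (hX : X ⊆ E.2 ∪ X0) (h0 : X0.card ≤ x0)
    (hm : 2 * t * F.j1 ≤ N.m) (hj : 2 * t * F.n1 + 2 * (2 * t * F.j1 + x0) ≤ N.j)
    (h : ∀ z, tdist y z ≤ 2 * F.r0 + 2 → G0 F t E Z z) : Tm F N E Z y := by
  classical
  refine ⟨fun z hz i => ((h z hz).chg_le hl i).trans hm, fun i => le_trans (card_le_card fun e he => ?_)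
    (((h y (by rw [tdist_self]; omega)).leaf hT hl hp Subset.rfl hX h0 le_rfl hj (x := y) (r := F.r0)
      (by rw [tdist_self, zero_add])).shd i)⟩
  simp only [Sh, mem_filter, mem_univ, true_and] at he ⊢
  obtain ⟨h1, k, h2, h3⟩ := he
  exact ⟨h1, k, Ico_subset_Ico le_rfl (Nat.mul_le_mul_right _ (by omega)) h2, h3⟩

end Crest.Agent.N337.G4.Le
end

-- ▼ part N337/Par/Leaf
section

/-!
# Row 337 (helper76): the costs of the leaves at `θ = 2` on the tiers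
-/

set_option autoImplicit false

namespace Crest.Agent.N337.Par

open Crest.Agent.N337.G4.Le

variable {u t n B w : ℕ} {F : I.Lf} {N : Ln} {θ g cF : ℝ}

lemma rb_e (hu : 100 ≤ u) (k : ℕ) : Rb u k 1 (Real.exp 1) :=
  .num hu ⟨(Real.exp_pos 1).le, by linarith [Real.exp_one_lt_d9]⟩

lemma sq_le_half (hu : 100 ≤ u) (k : ℕ) : s u k ^ 2 ≤ s u k / 4 := by
  nlinarith [s_le_num hu k, s_pos u k]

/-- the tiers of the leaf numbers (`t` = tier of the costs). -/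
structure TL (u t : ℕ) (F : I.Lf) (N : Ln) (n B : ℕ) (g cF : ℝ) : Prop where
  hu : 100 ≤ u
  ht : 11 ≤ t
  fac : (D ^ (t + 1) + 1).factorial ≤ Y u 0
  n : n ≤ Y u 0
  B : B ≤ Y u 11
  n1 : D ^ (t - 4) ≤ F.n1 + 1 ∧ F.n1 ≤ Y u 0
  sm : 2 ^ (F.sm + 1) ≤ Y u 0
  A : F.A ≤ Y u 2
  f : Y u 0 ≤ N.f ∧ N.f ≤ Y u 2
  m : N.m ≤ Y u 2
  j : N.j ≤ Y u 2
  k : N.k = Y u 4
  τ : N.τ ≤ Y u 5 ∧ F.l / N.τ ≤ F.sm * N.k
  r0 : F.r0 ≤ Y u 3 ^ 2 * Y u 4 ^ 10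
  g : 0 ≤ g ∧ g ≤ 2 * s u 6
  cF : 0 ≤ cF ∧ cF ≤ Y u 5 * s u 6
  o : 0 ≤ N.o ∧ N.o ≤ Y u 3 * s u 4 ^ 9

namespace TL
variable (h : TL u t F N n B g cF)
include h

lemma r5 : F.r0 ≤ Y u 5 := h.r0.trans (by have := h.hu; tier! 4)

/-- **the coin family.** -/
theorem cC_le (hθ : Real.exp (56 * θ * (w + 1 + N.m)) ≤ Y u 1) : cC F N n B w θ ≤ s u t ^ 2 := by
  have hu := h.hu
  have := h.ht
  have := h.n
  have := h.B
  have := h.r5
  have h1 : Rb u 1 1 (Real.exp (56 * θ * (w + 1 + N.m))) := .of_le (Real.exp_pos _).le hθ le_rfl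
  have h2 : Real.exp (-(N.f : ℝ)) ≤ s u (0 + (t + 1)) :=
    (Real.exp_le_exp.2 (neg_le_neg (Nat.cast_le.2 h.f.1))).trans (exp_neg_le h.fac)
  rw [cC, sub_eq_add_neg, Real.exp_add, ← mul_assoc, zero_add] at *
  refine (mul_le_mul_of_nonneg_left h2 (by positivity)).trans ?_
  rtier! t

/-- price of a point when only long lags occur. -/
lemma lam {a : ℕ} (ha : a ≤ Y u 5) : ∃ C, Rb u 5 9 C ∧
    2 * Real.exp 1 * (a * g + cF) ≤ C * s u 6 := by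
  have hu := h.hu
  have := rb_e hu 5
  refine ⟨2 * Real.exp 1 * (a * 2 + Y u 5), Rb.mono (e := 1 + 1 + (max (1 + 1) 1 + 1)) (by r_bd)
    (by norm_num), ?_⟩
  rw [mul_assoc _ (_ + _)]
  refine mul_le_mul_of_nonneg_left ?_ (by positivity)
  have := mul_le_mul_of_nonneg_left h.g.2 (Nat.cast_nonneg (α := ℝ) a)
  linarith [h.cF.2]

omit h in
lemma cW_mono {x y : ℝ} (h0 : 0 ≤ x) (hx : x ≤ y) : cW F N n x ≤ cW F N n y := by
  unfold cW; gcongr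

/-- **one window.** -/
theorem cW0_le : cW F N n (2 * Real.exp 1 * (6 * g + cF)) ≤ s u 5 ^ 2 := by
  have hu := h.hu
  obtain ⟨C, h1, h2⟩ := h.lam (a := 6) (le_trans (by norm_num) (num_le hu 5))
  have := h.n; have := h.A; have := h.f.2; have := h.m; have := h.j; have := h.r5
  have := h.g.1; have := h.cF.1
  refine (cW_mono (by positivity) (by simpa using h2)).trans ?_
  have h3 : ((n * (2 * (F.A + (N.f + N.m)) + 1) ^ 3 : ℕ) : ℝ) * C * s u 6 ≤ s u 5 := by rtier! 5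
  have h4 := pow_le_of_le_one (mul_nonneg (mul_nonneg (Nat.cast_nonneg _) h1.1) (s_pos u 6).le)
    (h3.trans (s_le_one _ _)) (n := 6) (by norm_num)
  have h5 : (N.j * (n * (2 * (2 * F.A + (N.f + N.m)) + 1) ^ 3 : ℕ) * C + (2 * F.r0 + 1) ^ 3 *
      ((n * (2 * (F.A + (N.f + N.m)) + 1) ^ 3 : ℕ) * C)) * s u 6 ≤ s u 5 ^ 2 := by rtier! 5
  rw [cW, ← mul_assoc ((_ : ℕ) : ℝ) C]
  have h6 := mul_le_mul_of_nonneg_left h4 (by positivity : (0 : ℝ) ≤ (2 * F.r0 + 1) ^ 3)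
  linarith

/-- the budget of the additional bad event. -/
theorem bad_le (hθ : Real.exp (56 * θ * (w + 1 + N.m)) ≤ Y u 1) :
    cC F N n B w θ + 2 * cW F N n (2 * Real.exp 1 * (6 * g + cF)) ≤ s u 5 := by
  have h1 := h.cC_le hθ
  have h2 := h.cW0_le
  have h3 := sq_le_half h.hu 5
  have h4 := sq_le_half h.hu t
  have h5 : s u t ≤ s u 5 := s_anti (by have := h.ht; omega)
  linarith [s_pos u 5]

/-- a new cluster in one of the spaced windows. -/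
theorem cW3_le : cW F N n (2 * Real.exp 1 * ((6 * N.k : ℕ) * (g + N.o) + cF)) ≤ s u 3 ^ 2 := by
  have hu := h.hu
  obtain ⟨C, h1, h2⟩ := h.lam (a := 6 * N.k) (by rw [h.k]; tier! 4)
  have := h.n; have := h.A; have := h.f.2; have := h.m; have := h.j
  have := h.g.1; have := h.cF.1; have := h.o.1
  have he := rb_e hu 3
  have s4 := s_pos u 4
  have s1 := s_le_one u 4
  have h3 : C * s u 6 ≤ s u 4 ^ 8 := by rtier! 5
  have h4 : (N.k : ℝ) * N.o ≤ Y u 3 * s u 4 ^ 8 := by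
    refine (mul_le_mul_of_nonneg_left h.o.2 (Nat.cast_nonneg _)).trans (le_of_eq ?_)
    rw [h.k, pow_succ]
    linear_combination (Y u 3 * s u 4 ^ 8 : ℝ) * s_mul u 4
  obtain ⟨K, hK, h5⟩ : ∃ K, Rb u 3 9 K ∧
      2 * Real.exp 1 * ((6 * N.k : ℕ) * (g + N.o) + cF) ≤ K * s u 4 ^ 8 := by
    refine ⟨1 + 12 * Real.exp 1 * Y u 3, Rb.mono (e := max 1 (1 + 1 + 1) + 1) (by r_bd)
      (by norm_num), ?_⟩
    have := mul_le_mul_of_nonneg_left h4 (Real.exp_pos 1).le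
    push_cast at h2 ⊢
    linarith
  refine (cW_mono (by positivity) h5).trans ?_
  have h6 : (2 * (F.r0 : ℝ) + 1) * s u 4 ^ 10 ≤ 2 * Y u 3 ^ 2 + 1 := by
    have a1 : (F.r0 : ℝ) ≤ Y u 3 ^ 2 * Y u 4 ^ 10 := by exact_mod_cast h.r0
    have a2 : (Y u 4 : ℝ) ^ 10 * s u 4 ^ 10 = 1 := by rw [← mul_pow, mul_comm, s_mul, one_pow]
    have a3 := mul_le_mul_of_nonneg_right a1 (pow_pos s4 10).le
    rw [mul_assoc, a2] at a3
    linarith [pow_le_one₀ s4.le s1 (n := 10)]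
  have h7 : (N.j * (n * (2 * (2 * F.A + (N.f + N.m)) + 1) ^ 3 : ℕ) * K + (2 * (Y u 3 : ℝ) ^ 2 + 1) ^ 3 *
      ((n * (2 * (F.A + (N.f + N.m)) + 1) ^ 3 : ℕ) * K) ^ 6) * s u 4 ≤ s u 3 ^ 2 := by rtier! 3
  refine le_trans ?_ h7
  rw [cW, add_mul]
  refine add_le_add ?_ ?_
  · rw [mul_assoc _ K]
    have := hK.1
    gcongr
    exact pow_le_of_le_one s4.le s1 (by norm_num)
  · generalize ((n * (2 * (F.A + (N.f + N.m)) + 1) ^ 3 : ℕ) : ℝ) = c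
    calc _ = ((2 * (F.r0 : ℝ) + 1) * s u 4 ^ 10) ^ 3 * (c * K) ^ 6 * s u 4 ^ 18 := by ring
      _ ≤ _ := by
        gcongr
        exact pow_le_of_le_one s4.le s1 (by norm_num)

/-- **the point families.** -/
theorem cP_le : cP F N n B g cF ≤ s u t := by
  have hu := h.hu
  have ht := h.ht
  have := h.n; have := h.B; have := h.r5; have := h.n1.2; have := h.τ.1
  have := h.g.1; have := h.cF.1; have := h.o.1
  have hsm : F.sm ≤ Y u 0 := (Nat.lt_two_pow_self.le.trans (Nat.pow_le_pow_right two_pos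
    (Nat.le_succ _))).trans h.sm
  obtain ⟨C, h1, h2⟩ := h.lam (a := F.n1 + 1) (by tier! 0)
  have h3 : ((n * (4 * F.r0 + 1) ^ 3 : ℕ) : ℝ) * C * s u 6 ≤ s u 5 := by rtier! 5
  have h4 := pow_small (k := 5) (by positivity) ((mul_le_mul_of_nonneg_left h2
    (Nat.cast_nonneg (n * (4 * F.r0 + 1) ^ 3))).trans ((mul_assoc _ _ _).symm.trans_le h3)) h.n1.1
  rw [show 5 + (t - 4) = t + 1 by omega] at h4
  have h5 : (B : ℝ) * s u (t + 1) ≤ s u t ^ 2 := by rtier! t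
  have h6 : ((2 ^ (F.sm + 1) : ℕ) : ℝ) * s u 3 ≤ 1 :=
    ((Rb.cast (Pb.of_le h.sm (Nat.zero_le 2))).sm1 (by norm_num) (by norm_num) le_rfl).trans
      (s_le_one _ _)
  have h7 := h.cW3_le
  have h8 : 0 ≤ cW F N n (2 * Real.exp 1 * ((6 * N.k : ℕ) * (g + N.o) + cF)) := by
    unfold cW; positivity
  rw [cP]
  generalize cW F N n (2 * Real.exp 1 * ((6 * N.k : ℕ) * (g + N.o) + cF)) = x at *
  have h9 := pow_small (k := 3) (j := t - 2) (N := N.k) (x := (2 ^ (F.sm + 1) : ℕ) * x)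
    (by positivity) (by nlinarith [s_pos u 3, Nat.cast_nonneg (α := ℝ) (2 ^ (F.sm + 1))])
    (h.k ▸ (Nat.pow_le_pow_right D_pos (by omega)).trans ((Nat.le_succ _).trans
      ((Nat.self_le_factorial _).trans (h.fac.trans (Y_mono (Nat.zero_le _))))))
  rw [show 3 + (t - 2) = t + 1 by omega, mul_pow, ← Nat.cast_pow, ← pow_mul] at h9
  have h10 : ((F.sm * B * N.τ : ℕ) : ℝ) * s u (t + 1) ≤ s u t ^ 2 := by rtier! t
  have h11 : ((2 ^ (F.l / N.τ + 1) : ℕ) : ℝ) ≤ (2 ^ ((F.sm + 1) * N.k) : ℕ) := by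
    refine Nat.cast_le.2 (Nat.pow_le_pow_right two_pos ?_)
    have := h.τ.2
    have := h.k ▸ one_le_Y u 4
    rw [add_one_mul]; omega
  have h12 := mul_le_mul_of_nonneg_left ((mul_le_mul_of_nonneg_right h11
    (pow_nonneg h8 N.k)).trans h9) (Nat.cast_nonneg (F.sm * B * N.τ))
  have h13 := mul_le_mul_of_nonneg_left h4 (Nat.cast_nonneg B)
  rw [Nat.cast_mul (F.sm * B * N.τ), mul_assoc ((F.sm * B * N.τ : ℕ) : ℝ)]
  linarith [sq_le_half hu t, s_pos u t]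

end TL

/-! ### the concrete numbers -/

/-- the leaf numbers of G4 (`l` = windows per unit). -/
noncomputable def ln4 (u l : ℕ) : Ln where
  m := Y u 2
  j := Y u 2
  f := Y u 0
  d := l * Y u 2 ^ 2
  τ := Y u 4 ^ 9
  k := Y u 4
  Lg := Y u 9
  o := Y u 3 * s u 4 ^ 9

/-- what is needed of the base cell numbers. -/
structure HL (u : ℕ) (F : I.Lf) (n B : ℕ) : Prop where
  hu : 100 ≤ u
  fac : (D ^ 62 + 1).factorial ≤ Y u 0
  n : n ≤ Y u 0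
  B : Y u 10 ≤ B ∧ B ≤ Y u 11
  n1 : D ^ 57 ≤ F.n1 + 1 ∧ F.n1 ≤ Y u 0
  sm : 1 ≤ F.sm ∧ 2 ^ (F.sm + 1) ≤ Y u 0
  A : F.A ≤ Y u 1
  j1 : Y u 1 ≤ F.j1
  l1 : F.l1 = Y u 4 ^ 10
  l : F.l = F.sm * F.l1
  dl : F.l * Y u 2 ^ 3 ≤ F.dl
  r0 : F.r0 ≤ Y u 3 ^ 2 * Y u 4 ^ 10

namespace HL
variable (h : HL u F n B)
include h

lemma sm_le : F.sm ≤ Y u 0 :=
  (Nat.lt_two_pow_self.le.trans (Nat.pow_le_pow_right two_pos (Nat.le_succ _))).trans h.sm.2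

lemma l_pos : 1 ≤ F.l := by
  rw [h.l, h.l1]; exact Nat.mul_pos h.sm.1 (pow_pos (Y_pos _ _) _)

lemma l_le : F.l ≤ Y u 5 := by
  have := h.hu; have := h.sm_le
  rw [h.l, h.l1]; tier! 4

theorem tl : TL u 61 F (ln4 u F.l) n B (2 * s u 6) ((Y u 4 : ℝ) ^ 2 * s u 6) := by
  have hu := h.hu
  have := s_pos u 6
  have := s_pos u 4
  refine ⟨hu, by norm_num, h.fac, h.n, h.B.2, h.n1, h.sm.2, h.A.trans (Y_mono (by norm_num)),
    ⟨le_rfl, Y_mono (by norm_num)⟩, le_rfl, le_rfl, rfl, ⟨by show Y u 4 ^ 9 ≤ _; tier! 4, ?_⟩,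
    h.r0, ⟨by positivity, le_rfl⟩, ⟨by positivity, mul_le_mul_of_nonneg_right (by rtier! 4)
      (by positivity)⟩, by show 0 ≤ (Y u 3 : ℝ) * _; positivity, le_rfl⟩
  show F.l / Y u 4 ^ 9 ≤ F.sm * Y u 4
  exact Nat.div_le_of_le_mul (le_of_eq (by rw [h.l, h.l1]; ring))

theorem ok {L T : ℕ} [NeZero L] [NeZero T] {ex ey : Fin T → Tor 3 L × Fin n} {p0 : Fin T → ℝ}
    {Es ρ0 : ℕ} (hW : RR.Word ex ey p0 Es w B θ) (hθ : 50 * θ ≤ 1) (hB : G4.Fs.Blk ex ey p0)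
    (hD : F.D = w * Es) (hρ : Y u 6 ≤ ρ0) : Ok ex ey F (ln4 u F.l) p0 Es w B θ ρ0 := by
  have hu := h.hu
  have := h.n; have := h.n1.2; have := h.A; have := h.l_le; have := h.tl.r5
  have h1 : F.A + (Y u 0 + Y u 2) + 1 + F.l * Y u 2 ^ 2 ≤ F.dl := by
    have a1 : F.A + Y u 0 + 1 ≤ Y u 2 := by tier! 1
    have a2 := h.l_pos
    have a3 := num_le hu 2
    refine le_trans ?_ h.dl
    generalize Y u 2 = y at *
    have a4 : 2 * y ≤ F.l * y ^ 2 := by nlinarith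
    have a5 : F.l * y ^ 2 * 2 ≤ F.l * y ^ 2 * y := Nat.mul_le_mul_left _ (by omega)
    rw [pow_succ y 2, ← mul_assoc]
    omega
  have h2 := F.hA
  have h3 := Nat.mul_le_mul_right F.dl h.sm.1
  exact ⟨hW, hθ, hB, hD, by show Y u 0 + Y u 2 + 1 ≤ _; omega,
    le_trans (by show 2 * (F.n1 * (Y u 0 + n ^ 2)) ≤ Y u 1; tier! 0) h.j1,
    by show F.A + (Y u 0 + Y u 2) + F.l * Y u 2 ^ 2 ≤ _; omega,
    ⟨pow_pos (Y_pos _ _) _, le_of_eq (by rw [h.l1]; rfl)⟩,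
    le_trans (by show Y u 9 + F.l ≤ Y u 10; tier! 9) h.B.1, le_trans (by tier! 5) hρ, h.tl.o.1⟩

omit h in
lemma eta_ge (hu : 100 ≤ u) : s u 61 ≤ (s u 60 / 2) ^ 2 := by
  have : (4 : ℝ) * s u 61 ≤ s u 60 ^ 2 := by rtier! 60
  linarith

variable (hθ : Real.exp (56 * θ * (w + 1 + Y u 2)) ≤ Y u 1)
include hθ

theorem cC_le : cC F (ln4 u F.l) n B w θ ≤ (s u 60 / 2) ^ 2 :=
  (h.tl.cC_le hθ).trans ((pow_le_of_le_one (s_pos _ _).le (s_le_one _ _) two_ne_zero).trans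
    (eta_ge h.hu))

omit hθ in
theorem cP_le : cP F (ln4 u F.l) n B (2 * s u 6) ((Y u 4 : ℝ) ^ 2 * s u 6) ≤ (s u 60 / 2) ^ 2 :=
  h.tl.cP_le.trans (eta_ge h.hu)

/-- the additional bad event takes half of the offset. -/
theorem bad_le : cC F (ln4 u F.l) n B w θ + 2 * cW F (ln4 u F.l) n (2 * Real.exp 1 *
    (6 * (2 * s u 6) + (Y u 4 : ℝ) ^ 2 * s u 6)) ≤ (ln4 u F.l).o / 2 := by
  have hu := h.hu
  have h1 : (2 : ℝ) * s u 5 ≤ s u 4 ^ 9 := by rtier! 4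
  have h2 := le_mul_of_one_le_left (pow_pos (s_pos u 4) 9).le
    (show (1 : ℝ) ≤ Y u 3 by exact_mod_cast one_le_Y u 3)
  have h3 := h.tl.bad_le hθ
  show _ ≤ (Y u 3 : ℝ) * s u 4 ^ 9 / 2
  linarith

end HL


end Crest.Agent.N337.Par
end

-- ▼ part N337/Par/QG
section

/-!
# Row 337 (helper76): the Green gains of G4 on the tiers (`far`, `lag`, `short` of `Qu.QN`)
-/

set_option autoImplicit false
set_option linter.unusedSectionVars false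

namespace Crest.Agent.N337.Par

open Finset Crest.Agent.N337.Rg Crest.Agent.N337.Tr G1 Gl G4.Le

variable {L : ℕ} [NeZero L] {α κ : Type} [SemilatticeSup α] [Preorder κ] {n u i B Dw w : ℕ}

/-- the leaf numbers of the table. -/
theorem hl4 (h : Bg n u) (hB : Y u 10 ≤ B ∧ B ≤ Y u 11) : HL u (lf h Dw) n B := by
  have hu := h.hu
  have h1 := h.sm
  refine ⟨hu, fac_le h (by norm_num), h.hn, hB, ⟨(Dp_le_cE (by norm_num)).trans (Nat.le_succ _), h.E⟩,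
    ⟨by show 1 ≤ csm; unfold csm; omega, h.p2⟩, Y_mono (Nat.zero_le 1), le_rfl, rfl, rfl, le_rfl, ?_⟩
  show csm * Y u 4 ^ 10 * Y u 3 ≤ _
  rw [mul_right_comm, sq]
  exact Nat.mul_le_mul_right _ (Nat.mul_le_mul_right _ (h1.trans (Y_mono (by norm_num))))

/-- the tube on the tiers. -/
structure TG (u : ℕ) (S : Sys (Tor 3 L) α κ) (G : Eg) (k k' : ℕ → ℕ) : Prop where
  Q : Tb.QQ S G ≤ Y u 1
  k : ∀ l ≤ G.mt, Y u (48 * l + 17) ≤ 2 ^ k l
  k' : ∀ l < G.mt, Y u (48 * l + 28) ≤ 2 ^ k' l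

variable {S : Sys (Tor 3 L) α κ} {G : Eg} {P : Scales} {k k' : ℕ → ℕ} {l : ℕ} {c er θ : ℝ}

lemma cw_le4 {a e r μ : ℕ} (h : Rb u a e (P.K (μ - 1))) (he : e + 2 ≤ 1000000)
    (hr : Y u (a + 1) ≤ r) : Tb.cw P r μ ≤ s u a := by
  refine Real.sqrt_le_iff.2 ⟨(s_pos _ _).le, ?_⟩
  have := h.dv (d := 2 * r + 1) he (Nat.lt_add_one a) le_rfl (by omega)
  rwa [Nat.cast_add, Nat.cast_mul, Nat.cast_one, Nat.cast_two] at this

lemma log_rb4 (hu : 100 ≤ u) {a d : ℕ} (ha : 1 ≤ a) (hd : d ≤ Y u (a + 1000)) :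
    Rb u a 2 (Nat.log 2 d : ℝ) :=
  .cast ((Nat.log_mono_right hd).trans (log_Y u _ ▸ En.lg_le hu ha le_rfl))

namespace TG
variable (h : Bg n u) (H : GH u i P) (hi : i ≤ 16) (T : TG u S G k k')
include h H hi T

/-- **the cost of the tube.** -/
theorem tau_le (hl : l ≤ G.mt) :
    0 ≤ Tb.tau S G P k k' l G.mt ∧ Tb.tau S G P k k' l G.mt ≤ s u (48 * l + 15) := by
  have hu := h.hu
  have hQ := T.Q
  have h1 : Tb.cw P (2 ^ k l) (l + 1) ≤ s u (48 * l + 16) :=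
    cw_le4 ((H.K_le h l).lift (by omega)) (by norm_num) (T.k l hl)
  have h2 : ∑ j ∈ Ico l G.mt, Tb.cw P (2 ^ k' j) (j + 2) ≤ 2 * s u (48 * l + 27) :=
    (sum_le_sum fun j hj => cw_le4 ((H.K h j).lift (by omega)) (by norm_num)
      (T.k' j (mem_Ico.1 hj).2)).trans (sum_s hu (t := fun j => 48 * j + 27) (fun j => by omega) _ _)
  have h3 : s u (48 * l + 27) ≤ s u (48 * l + 16) := s_anti (by omega)
  have h4 : 600 * (Tb.QQ S G : ℝ) * 3 * s u (48 * l + 16) ≤ s u (48 * l + 15) := by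
    rtier! (48 * l + 15)
  refine ⟨mul_nonneg (by positivity) (add_nonneg (Tb.cw_nn _ _) (sum_nonneg fun _ _ => Tb.cw_nn _ _)),
    le_trans ?_ h4⟩
  rw [mul_assoc _ 3]
  exact mul_le_mul_of_nonneg_left (by linarith) (by positivity)

lemma tau_sq (hl : l ≤ G.mt) : 10 ^ 9 * Tb.tau S G P k k' l G.mt ^ 2 ≤ s u (48 * l + 15) := by
  obtain ⟨h1, h2⟩ := T.tau_le h H hi hl
  have h3 := pow_le_pow_left₀ h1 h2 2
  nlinarith [s_le_num h.hu (48 * l + 15), s_pos u (48 * l + 15)]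

/-- **the gain at the distance `d`.** -/
theorem gF_le {A a d : ℕ} (hl : l ≤ G.mt) (hA : A ≤ Y u 0) (ha : 48 * l + 5 ≤ a)
    (hd : Y u (a + 1) ≤ d ∧ d ≤ Y u (a + 1000)) :
    gF S G P k k' A l d ≤ s u a ^ 2 + s u (48 * l + 15) := by
  have hu := h.hu
  have h1 := H.K_le h l
  have h2 := H.η_le h l
  have h3 := log_rb4 hu (by omega) hd.2
  exact (Gl.gF_le A l d).trans (add_le_add (Rb.dv (k := a) (by r_bd) (by norm_num) a.lt_succ_self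
    le_rfl hd.1) (T.tau_sq h H hi hl))

/-- the capacity constant at level `0`. -/
theorem cT_le {A M : ℕ} (hA : A ≤ Y u 0) (hM : M ≤ Y u 100) :
    ∃ C, Rb u 1 20 C ∧ cT S G P k k' A 0 M ≤ C + M * (2 * s u 15) := by
  have hu := h.hu
  have h1 := H.K0 h
  have h2 : Rb u 1 1 (P.K 0) := .of_le h1.1 (h1.up (by norm_num) one_pos) le_rfl
  have h3 := log_rb4 hu le_rfl (hM.trans (Y_mono (by norm_num)))
  have h4 := mul_le_mul_of_nonneg_left (T.tau_sq h H hi (Nat.zero_le _)) (Nat.cast_nonneg M)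
  refine ⟨16 * A + 2 * 10 ^ 9 * (P.K 0 * (1 + (Nat.log 2 M : ℝ)) ^ 2), Rb.mono (by r_bd)
    (by norm_num), ?_⟩
  rw [cT]
  rw [mul_zero, zero_add] at h4
  linarith

lemma cT1 {A : ℕ} (hA : A ≤ Y u 0) : Rb u 2 1 (cT S G P k k' A 0 1) := by
  have hu := h.hu
  obtain ⟨C, h1, h2⟩ := T.cT_le h H hi (M := 1) hA (one_le_Y _ _)
  exact .of_le (cT_nn _ _ _) (h2.trans (by rtier! 1)) le_rfl

variable (hc : Rb u 0 1 c) (he : er ≤ s u (48 * G.mt + 7))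
include hc he

/-- **far pairs.** -/
theorem far4 : ∀ l ≤ G.mt, 2 * ((pz4 u).dd l + (lf h Dw).A) ≤ 2 ^ k l ∧
    4 * P.η l ≤ (pz4 u).dd l ∧ 2 * (c * (gF S G P k k' (lf h Dw).A l ((pz4 u).dd l) + er)) ≤
      (pz4 u).γ l / 2 := fun l hl => by
  have hu := h.hu
  have h1 := H.η_le h l
  have h2 := T.gF_le h H hi (A := Y u 0) (a := 48 * l + 14) (d := Y u (48 * l + 15)) hl le_rfl
    (by omega) ⟨le_rfl, Y_mono (by omega)⟩
  have h3 : s u (48 * G.mt + 7) ≤ s u (48 * l + 7) := s_anti (by omega)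
  have h4 : s u (48 * l + 15) ≤ s u (48 * l + 7) := s_anti (by omega)
  have h5 : s u (48 * l + 14) ^ 2 ≤ s u (48 * l + 7) :=
    (pow_le_of_le_one (s_pos _ _).le (s_le_one _ _) two_ne_zero).trans (s_anti (by omega))
  have h6 : 12 * c * s u (48 * l + 7) ≤ s u (48 * l + 6) := by rtier! (48 * l + 6)
  have h7 := mul_le_mul_of_nonneg_left (show gF S G P k k' (Y u 0) l (Y u (48 * l + 15)) + er ≤
    3 * s u (48 * l + 7) by linarith) hc.1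
  simp only [pz4, lf]
  exact ⟨le_trans (by tier! (48 * l + 15)) (T.k l hl), by tier! (48 * l + 5), by linarith⟩

/-- **long lags** (`dL = Y 15`, `Nb = Y 8`). -/
theorem lag4 : 2 * (Y u 15 + P.η 0 + (lf h Dw).A) ≤ 2 ^ k 0 ∧ 4 * P.η 0 ≤ Y u 15 ∧ 1 ≤ Y u 8 ∧
    Y u 8 * ((lf h Dw).l + 2) ≤ (ln4 u (ll u)).Lg ∧ 2 * (c * (cT S G P k k' (lf h Dw).A 0 1 /
      (Y u 8 : ℕ) + gF S G P k k' (lf h Dw).A 0 (Y u 15) + er)) ≤ (pz4 u).γ 0 / 2 := by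
  have hu := h.hu
  have h0 := ll_le h
  have h1 : P.η 0 ≤ Y u 5 := H.η_le h 0
  have h2 := T.gF_le h H hi (A := Y u 0) (a := 14) (d := Y u 15) (Nat.zero_le _) le_rfl
    (by omega) ⟨le_rfl, Y_mono (by omega)⟩
  have h3 : s u (48 * G.mt + 7) ≤ s u 7 := s_anti (by omega)
  have h4 : s u (48 * 0 + 15) ≤ s u 7 := s_anti (by omega)
  have h5 : s u 14 ^ 2 ≤ s u 7 :=
    (pow_le_of_le_one (s_pos _ _).le (s_le_one _ _) two_ne_zero).trans (s_anti (by omega))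
  have h6 : 16 * c * s u 7 ≤ s u 6 := by rtier! 6
  have h8 := ((T.cT1 h H hi (A := Y u 0) le_rfl).lift (k := 7) (by norm_num)).dv (j := 1) (i := 7)
    (k' := 8) (by norm_num) (by norm_num) le_rfl le_rfl
  have h7 := mul_le_mul_of_nonneg_left (show cT S G P k k' (Y u 0) 0 1 / (Y u 8 : ℕ) +
    gF S G P k k' (Y u 0) 0 (Y u 15) + er ≤ 4 * s u 7 by linarith) hc.1
  simp only [pz4, lf, ln4, mul_zero, zero_add]
  exact ⟨le_trans (by tier! 15) (T.k 0 (Nat.zero_le _)), by tier! 5, one_le_Y _ _, by tier! 8,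
    by linarith⟩

/-- **short lags** (`M = l`, `j = Y 2`). -/
theorem short4 (hB : Y u 10 ≤ B ∧ B ≤ Y u 11)
    (hθ : Real.exp (56 * θ * (w + 1 + Y u 2)) ≤ Y u 1) :
    2 * ((ln4 u (ll u)).d + (lf h Dw).A) ≤ 2 ^ k 0 ∧ 1 ≤ ll u ∧
    2 * (ll u + (lf h Dw).l) * ((Y u 2 + 1) * (2 * (lf h Dw).A + 1)) ≤ (ln4 u (ll u)).d ∧
    2 * (c * (2 * cT S G P k k' (lf h Dw).A 0 1 / (ln4 u (ll u)).τ +
      cT S G P k k' (lf h Dw).A 0 (ll u) / (ll u : ℕ) + er)) +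
      (cC (lf h Dw) (ln4 u (ll u)) n B w θ + 2 * cW (lf h Dw) (ln4 u (ll u)) n
        (2 * Real.exp 1 * (6 * (2 * (pz4 u).γ 0) + (pz4 u).cF))) ≤
      (pz4 u).γ 0 / 2 + (ln4 u (ll u)).o := by
  have hu := h.hu
  have h0 := ll_le h
  have hl := ll_pos u
  have hb : cC (lf h Dw) (ln4 u (ll u)) n B w θ + 2 * cW (lf h Dw) (ln4 u (ll u)) n
      (2 * Real.exp 1 * (6 * (2 * (pz4 u).γ 0) + (pz4 u).cF)) ≤ (Y u 3 : ℝ) * s u 4 ^ 9 / 2 :=
    (hl4 h hB).bad_le hθ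
  refine ⟨le_trans (by show 2 * (ll u * Y u 2 ^ 2 + Y u 0) ≤ _; tier! 5) (T.k 0 (Nat.zero_le _)),
    hl, ?_, le_trans (add_le_add le_rfl hb) ?_⟩
  · have a1 : 8 * (2 * Y u 0 + 1) ≤ Y u 2 := by tier! 0
    have a2 := Nat.mul_le_mul (show Y u 2 + 1 ≤ 2 * Y u 2 by have := one_le_Y u 2; omega) a1
    have a3 := Nat.mul_le_mul_left (ll u) a2
    show 2 * (ll u + ll u) * ((Y u 2 + 1) * (2 * Y u 0 + 1)) ≤ ll u * Y u 2 ^ 2
    nlinarith
  · have h1 := T.cT1 h H hi (A := Y u 0) le_rfl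
    obtain ⟨C, h2, h3⟩ := T.cT_le h H hi (A := Y u 0) (M := ll u) le_rfl
      (h0.trans (Y_mono (by norm_num)))
    have l0 : (0 : ℝ) < ll u := by exact_mod_cast hl
    have l1 : ((Y u 4 : ℝ) ^ 9) ≤ ll u := by
      exact_mod_cast (Nat.pow_le_pow_right (Y_pos u 4) (by norm_num : 9 ≤ 10)).trans
        (Nat.le_mul_of_pos_left _ (by unfold csm; omega))
    have e : ∀ r : ℝ, r / (Y u 4 : ℝ) ^ 9 = r * s u 4 ^ 9 := fun r => by
      rw [s, inv_pow, div_eq_mul_inv]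
    have h4 : cT S G P k k' (Y u 0) 0 (ll u) / (ll u : ℕ) ≤ C * s u 4 ^ 9 + 2 * s u 15 := by
      refine (div_le_div_of_nonneg_right h3 l0.le).trans ?_
      rw [add_div, mul_div_cancel_left₀ _ l0.ne', ← e]
      exact add_le_add (div_le_div_of_nonneg_left h2.1 (pow_pos (Yr_pos _ _) _) l1) le_rfl
    have h5 : 4 * c * (2 * cT S G P k k' (Y u 0) 0 1 + C) ≤ Y u 3 := by rtier! 2
    have h6 := mul_le_mul_of_nonneg_right h5 (pow_pos (s_pos u 4) 9).le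
    have h7 : 12 * c * s u 7 ≤ s u 6 := by rtier! 6
    have h8 : s u (48 * G.mt + 7) ≤ s u 7 := s_anti (by omega)
    have h9 : s u 15 ≤ s u 7 := s_anti (by omega)
    have h10 := mul_le_mul_of_nonneg_left (show cT S G P k k' (Y u 0) 0 (ll u) / (ll u : ℕ) + er ≤
      C * s u 4 ^ 9 + 3 * s u 7 by linarith) hc.1
    simp only [pz4, lf, ln4, mul_zero, zero_add, Nat.cast_pow, e]
    linarith

end TG

end Crest.Agent.N337.Par
end

-- ▼ part N337/G4/Leaf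
section

/-!
# Row 337, G4 (helper76): the leaves of the red set are dominated by coin and point families
-/

set_option autoImplicit false
set_option linter.unusedSectionVars false

namespace Crest.Agent.N337.G4.Le

open Finset Free KV Geo Rep
open Crest.Agent.N337.I (V Ev vis cnt chg acp evp Cl W0 G0 Rp)
open Crest.Agent.N337.G1 (lag)
open Crest.Agent.N337.Arc (Fld)

variable {L n T : ℕ} [NeZero L] [NeZero T] (ex ey : Fin T → Tor 3 L × Fin n) (p : Fin T → ℝ)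
  (b : V L n T → ℝ)

/-- point families. -/
def PF (ρ0 k0 : ℕ) (cF ε : ℝ) (y : Tor 3 L) (A : Finset (V L n T) → Prop) : Prop :=
  ∃ (𝒳 : Finset (Finset (V L n T))) (r : Finset (V L n T) → ℝ),
    (∀ X ∈ 𝒳, 0 ≤ r X ∧ X.card ≤ k0 ∧ (∀ v ∈ X, tdist y v.2.1 ≤ ρ0) ∧
      ((∀ v ∈ X, b v ≠ 0) → ∀ v ∈ X, ∑ u ∈ X, Sp.GA ex ey p b v u ≤ r X)) ∧
    ∑ X ∈ 𝒳, (2 * Real.exp 1 * (r X + cF)) ^ X.card ≤ ε ∧ ∀ R, A R → ∃ X ∈ 𝒳, X ⊆ R

variable {ex ey p b} {ρ0 k0 D B : ℕ} {cF ε ε' g : ℝ} {y : Tor 3 L} {A A' : Finset (V L n T) → Prop}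

lemma PF.mono (h : PF ex ey p b ρ0 k0 cF ε y A) (h1 : ε ≤ ε') (h2 : ∀ R, A' R → A R) :
    PF ex ey p b ρ0 k0 cF ε' y A' := by
  obtain ⟨𝒳, r, a1, a2, a3⟩ := h
  exact ⟨𝒳, r, a1, a2.trans h1, fun R k => a3 R (h2 R k)⟩

lemma PF.union (hc : 0 ≤ cF) {ι : Type} (I : Finset ι) {A : ι → Finset (V L n T) → Prop}
    {ε : ι → ℝ} (h : ∀ i ∈ I, PF ex ey p b ρ0 k0 cF (ε i) y (A i)) :
    PF ex ey p b ρ0 k0 cF (∑ i ∈ I, ε i) y fun R => ∃ i ∈ I, A i R := by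
  classical
  choose! 𝒳 r a1 a2 a3 using h
  have h1 : ∀ X ∈ I.biUnion 𝒳, ∃ i ∈ I, X ∈ 𝒳 i := fun X hX => mem_biUnion.1 hX
  rcases I.eq_empty_or_nonempty with rfl | ⟨i0, -⟩
  · exact ⟨∅, fun _ => 0, by simp, by simp, by simp⟩
  haveI : Nonempty ι := ⟨i0⟩
  choose! c c1 c2 using h1
  refine ⟨I.biUnion 𝒳, fun X => r (c X) X, fun X hX => a1 _ (c1 X hX) X (c2 X hX), ?_,
    fun R ⟨i, hi, k⟩ => ?_⟩
  · rw [← sum_fiberwise_of_maps_to c1]
    refine sum_le_sum fun i hi => le_trans ?_ (a2 i hi)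
    rw [sum_congr rfl (g := fun X => (2 * Real.exp 1 * (r i X + cF)) ^ X.card) fun X hX => by
      simp only [(mem_filter.1 hX).2]]
    exact sum_le_sum_of_subset_of_nonneg (fun X hX => (mem_filter.1 hX).2 ▸ c2 X (mem_filter.1 hX).1)
      fun X hX _ => by have := (a1 i hi X hX).1; positivity
  · obtain ⟨X, h1, h2⟩ := a3 i hi R k
    exact ⟨X, mem_biUnion.2 ⟨i, hi, h1⟩, h2⟩

lemma PF.union_le (hc : 0 ≤ cF) (h0 : 0 ≤ ε) {ι : Type} (I : Finset ι) {M : ℕ} (hM : I.card ≤ M)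
    {A : ι → Finset (V L n T) → Prop} (h : ∀ i ∈ I, PF ex ey p b ρ0 k0 cF ε y (A i)) :
    PF ex ey p b ρ0 k0 cF (M * ε) y fun R => ∃ i ∈ I, A i R :=
  (PF.union hc I h).mono (by
    rw [sum_const, nsmul_eq_mul]; exact mul_le_mul_of_nonneg_right (Nat.cast_le.2 hM) h0)
    fun _ k => k

lemma PF.or (hc : 0 ≤ cF) (h : PF ex ey p b ρ0 k0 cF ε y A) (h' : PF ex ey p b ρ0 k0 cF ε' y A') :
    PF ex ey p b ρ0 k0 cF (ε + ε') y fun R => A R ∨ A' R :=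
  (PF.union hc univ (A := fun c : Bool => bif c then A else A') (ε := fun c => bif c then ε else ε')
    fun c _ => by cases c; exacts [h', h]).mono (by simp) fun _ k =>
      k.elim (fun k => ⟨true, mem_univ _, k⟩) fun k => ⟨false, mem_univ _, k⟩

lemma PF.le (hp : ∀ s, 0 ≤ p s ∧ p s ≤ 1) (hb : Fld b) (hc : 0 < cF)
    (h : PF ex ey p b ρ0 k0 cF ε y A) : PR ex ey p b (fun ω => A ω.2) ≤ ε := by
  obtain ⟨𝒳, r, a1, a2, a3⟩ := h
  refine (PR_union hp hb.mem 𝒳 (fun X ω => X ⊆ ω.2) fun ω _ k => a3 _ k).trans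
    (le_trans (sum_le_sum fun X hX => ?_) a2)
  rw [← prod_const]
  exact PR_red hp hb X (fun _ => r X + cF) (fun _ _ => by linarith [(a1 X hX).1])
    fun k v hv => ((a1 X hX).2.2.2 k v hv).trans (by linarith)

/-- one family of slots on each of the grid slices `K`. -/
theorem pf_prod (K : Finset ℕ) (P : ℕ → Finset (Finset (Tor 3 L × Fin n))) {h : ℕ} {π : ℝ}
    (hg : 0 ≤ g) (hc : 0 ≤ cF) (hk : h * K.card ≤ k0)
    (inj : ∀ a ∈ K, ∀ a' ∈ K, tm T (a * D) = tm T (a' * D) → a = a')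
    (hP : ∀ a ∈ K, ∀ Y ∈ P a, Y.card ≤ h ∧ ∀ z ∈ Y, tdist y z.1 ≤ ρ0)
    (hG : ∀ a ∈ K, ∀ a' ∈ K, ∀ Y ∈ P a, ∀ Y' ∈ P a', ∀ z ∈ Y, ∀ z' ∈ Y', b (tm T (a * D), z) ≠ 0 →
      b (tm T (a' * D), z') ≠ 0 → Sp.GA ex ey p b (tm T (a * D), z) (tm T (a' * D), z') ≤ g)
    (hπ : ∀ a ∈ K, ∑ Y ∈ P a, (2 * Real.exp 1 * ((h * K.card : ℕ) * g + cF)) ^ Y.card ≤ π) :
    PF ex ey p b ρ0 k0 cF (π ^ K.card) y
      fun R => ∀ a ∈ K, ∃ Y ∈ P a, ∀ z ∈ Y, (tm T (a * D), z) ∈ R := by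
  classical
  let X : (K → Finset (Tor 3 L × Fin n)) → Finset (V L n T) :=
    fun Y => univ.biUnion fun a => (Y a).image (Prod.mk (tm T (a * D)))
  have mX : ∀ Y v, v ∈ X Y ↔ ∃ a : K, ∃ z ∈ Y a, (tm T (a * D), z) = v := fun Y v => by simp [X]
  have cX : ∀ Y, (X Y).card = ∑ a, (Y a).card := fun Y => by
    rw [card_biUnion, sum_congr rfl fun a _ => card_image_of_injective _ (Prod.mk_right_injective _)]
    intro a _ a' _ ha
    refine disjoint_left.2 fun v hv hv' => ha (Subtype.ext (inj _ a.2 _ a'.2 ?_))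
    obtain ⟨z, -, rfl⟩ := mem_image.1 hv
    obtain ⟨z', -, e⟩ := mem_image.1 hv'
    exact (congrArg Prod.fst e).symm
  refine ⟨(Fintype.piFinset fun a : K => P a).image X, fun _ => (h * K.card : ℕ) * g,
    fun X' hX => ?_, ?_, fun R hR => ?_⟩
  · obtain ⟨Y, hY, rfl⟩ := mem_image.1 hX
    have hY := Fintype.mem_piFinset.1 hY
    have c1 : (X Y).card ≤ h * K.card := by
      rw [cX, mul_comm]
      exact (sum_le_card_nsmul _ _ _ fun a _ => (hP _ a.2 _ (hY a)).1).trans (by simp)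
    refine ⟨by positivity, c1.trans hk, fun v hv => ?_, fun al v hv => ?_⟩
    · obtain ⟨a, z, hz, rfl⟩ := (mX Y v).1 hv
      exact (hP _ a.2 _ (hY a)).2 z hz
    · refine (sum_le_card_nsmul _ _ g fun u hu => ?_).trans (by
        rw [nsmul_eq_mul]; exact mul_le_mul_of_nonneg_right (Nat.cast_le.2 c1) hg)
      obtain ⟨a, z, hz, e⟩ := (mX Y v).1 hv
      obtain ⟨a', z', hz', e'⟩ := (mX Y u).1 hu
      have := hG _ a.2 _ a'.2 _ (hY a) _ (hY a') z hz z' hz' (e ▸ al v hv) (e' ▸ al u hu)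
      rwa [e, e'] at this
  · refine (sum_image_le_of_nonneg fun _ _ => by positivity).trans ?_
    simp only [cX, ← prod_pow_eq_pow_sum]
    rw [← prod_univ_sum (fun a : K => P a) fun _ Y =>
      (2 * Real.exp 1 * ((h * K.card : ℕ) * g + cF)) ^ Y.card]
    refine (prod_le_prod (fun a _ => sum_nonneg fun _ _ => by positivity)
      fun a _ => hπ _ a.2).trans (by simp)
  · choose Y h1 h2 using fun a : K => hR _ a.2
    refine ⟨X Y, mem_image_of_mem _ (Fintype.mem_piFinset.2 h1), fun v hv => ?_⟩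
    obtain ⟨a, z, hz, rfl⟩ := (mX Y v).1 hv
    exact h2 a z hz

/-! ### families of slots -/

/-- `h` slots within `A` of `z`. -/
def Pk (n h : ℕ) (z : Tor 3 L) (A : ℕ) : Finset (Finset (Tor 3 L × Fin n)) :=
  powersetCard h (bl z A ×ˢ univ)

lemma cb (u : Tor 3 L) (a : ℕ) : (bl u a).card ≤ (2 * a + 1) ^ 3 := by exact_mod_cast card_bl u a

lemma mem_Pk {h A : ℕ} {z : Tor 3 L} {Y : Finset (Tor 3 L × Fin n)} (hY : Y ∈ Pk n h z A) :
    Y.card = h ∧ ∀ e ∈ Y, tdist z e.1 ≤ A :=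
  ⟨(mem_powersetCard.1 hY).2, fun _ he => mem_bl.1 (mem_product.1 ((mem_powersetCard.1 hY).1 he)).1⟩

lemma sum_Pk (h A : ℕ) (z : Tor 3 L) {lam : ℝ} (h0 : 0 ≤ lam) :
    ∑ Y ∈ Pk n h z A, lam ^ Y.card ≤ ((n * (2 * A + 1) ^ 3 : ℕ) * lam) ^ h := by
  rw [sum_congr rfl fun Y hY => by rw [(mem_Pk hY).1], sum_const, nsmul_eq_mul, mul_pow,
    ← Nat.cast_pow]
  refine mul_le_mul_of_nonneg_right (Nat.cast_le.2 ?_) (by positivity)
  rw [Pk, card_powersetCard, card_product, card_univ, Fintype.card_fin, mul_comm]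
  exact (Nat.choose_le_pow _ _).trans (Nat.pow_le_pow_left (Nat.mul_le_mul_left _ (cb z A)) _)

lemma ex_Pk {h k A : ℕ} {z : Tor 3 L} {R : Finset (V L n T)} (hR : h ≤ cnt R k z A) :
    ∃ Y ∈ Pk n h z A, ∀ e ∈ Y, (tm T k, e) ∈ R := by
  obtain ⟨Y, h2, h3⟩ := exists_subset_card_eq hR
  exact ⟨Y, mem_powersetCard.2 ⟨fun e he => mem_product.2
    ⟨mem_bl.2 (mem_filter.1 (h2 he)).2.2, mem_univ _⟩, h3⟩, fun e he => (mem_filter.1 (h2 he)).2.1⟩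

variable (F : I.Lf) (N : Ln) (E : Ev L n T) (Z : Finset (Tor 3 L))

/-- witnesses of a new cluster: one point next to the shadow of `E`, or six points. -/
noncomputable def Pw6 (y : Tor 3 L) (r i : ℕ) : Finset (Finset (Tor 3 L × Fin n)) :=
  (((Sh F E Z y i).biUnion fun e => Pk n 1 e.1 (2 * F.A + (N.f + N.m))) ∪
    (bl y F.r0).biUnion fun z => Pk n 6 z (F.A + (N.f + N.m))).filter
      fun Y => ∀ e ∈ Y, tdist y e.1 ≤ r + F.A + (N.f + N.m)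

variable {F N E Z} {r i Es w : ℕ} {θ : ℝ} {p0 : Fin T → ℝ} {ξ : Fin T → Bool} {R : Finset (V L n T)}

lemma mem_Pw6 {Y : Finset (Tor 3 L × Fin n)} (h : Y ∈ Pw6 F N E Z y r i) :
    Y.card ≤ 6 ∧ ∀ e ∈ Y, tdist y e.1 ≤ r + F.A + (N.f + N.m) := by
  refine ⟨?_, (mem_filter.1 h).2⟩
  rcases mem_union.1 (mem_filter.1 h).1 with k | k <;> obtain ⟨_, -, k⟩ := mem_biUnion.1 k <;>
    rw [(mem_Pk k).1]
  omega

lemma cW_nn {lam : ℝ} (h0 : 0 ≤ lam) : 0 ≤ cW F N n lam := by unfold cW; positivity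

lemma sum_Pw6 (hE : Tm F N E Z y) {lam : ℝ} (h0 : 0 ≤ lam) :
    ∑ Y ∈ Pw6 F N E Z y r i, lam ^ Y.card ≤ cW F N n lam := by
  have nn : ∀ Y : Finset (Tor 3 L × Fin n), 0 ≤ lam ^ Y.card := fun _ => by positivity
  refine (sum_le_sum_of_subset_of_nonneg (filter_subset _ _) fun Y _ _ => nn Y).trans
    (le_trans (le_add_of_nonneg_right (sum_nonneg fun Y _ => nn Y))
      (sum_union_inter.le.trans (add_le_add ?_ ?_)))
  · refine (RR.FastP.sum_biUnion_le _ _ _ nn).trans ((sum_le_card_nsmul _ _ _ fun e _ =>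
      sum_Pk _ _ _ h0).trans ?_)
    rw [nsmul_eq_mul, pow_one, mul_assoc]
    exact mul_le_mul_of_nonneg_right (Nat.cast_le.2 (hE.sh i)) (by positivity)
  · refine (RR.FastP.sum_biUnion_le _ _ _ nn).trans ((sum_le_card_nsmul _ _ _ fun e _ =>
      sum_Pk _ _ _ h0).trans ?_)
    rw [nsmul_eq_mul]
    exact mul_le_mul_of_nonneg_right (by exact_mod_cast cb y F.r0) (by positivity)

lemma Ok.hT (h : Ok ex ey F N p0 Es w B θ ρ0) : T = B * F.D := by rw [h.hW.hT, h.hD, mul_assoc]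

section det
variable (hO : Ok ex ey F N p0 Es w B θ ρ0) (hP : Fs.Pin ex ey p0 p E.2) (hE : Tm F N E Z y)
  (hS : Fs.Slw ex ey p Z F.D B N.f F.r0 (2 * F.r0 + 2) y ξ) (hR : ∀ v, Sg ex ey ξ v ∈ R ↔ v ∈ R)
  (hZ : ∀ v ∈ R, v.2.1 ∉ Z)
include hO hP hE hS hR hZ

/-- a new cluster is seen on the first slice of its window. -/
theorem new_cl (hr : r + F.A ≤ F.r0) (h1 : Cl F r (vis Z (E.1 ∪ R)) y i)
    (h2 : ¬ Cl F r (vis Z E.1) y i) : ∃ Y ∈ Pw6 F N E Z y r i, ∀ e ∈ Y, (tm T (i * F.D), e) ∈ R := by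
  obtain ⟨k, hk, z, hz, h3⟩ := h1
  have h4 : cnt (vis Z E.1) k z F.A < 6 := not_le.1 fun h => h2 ⟨k, hk, z, hz, h⟩
  rw [I.vis_union] at h3
  have h5 := h3.trans (I.cnt_union.trans (Nat.add_le_add_left ((I.cnt_mono I.vis_sub).trans
    (Fs.cnt_grid hO.hW hP hE.few hS hO.hr hO.hT hR hZ (mem_Ico.1 hk).1 (mem_Ico.1 hk).2.le
      (by have := hO.hr; omega))) _))
  have key : ∀ {h : ℕ} {Y}, Y ∈ Pk n h z (F.A + (N.f + N.m)) →
      ∀ e ∈ Y, tdist y e.1 ≤ r + F.A + (N.f + N.m) := fun hY e he => by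
    have := (mem_Pk hY).2 e he
    have := tdist_triangle y z e.1
    omega
  rcases Nat.eq_zero_or_pos (cnt (vis Z E.1) k z F.A) with h6 | h6
  · obtain ⟨Y, a1, a2⟩ := ex_Pk (h := 6) (by omega : 6 ≤ cnt R (i * F.D) z (F.A + (N.f + N.m)))
    exact ⟨Y, mem_filter.2 ⟨mem_union_right _ (mem_biUnion.2 ⟨z, mem_bl.2 (by omega), a1⟩),
      key a1⟩, a2⟩
  · obtain ⟨Y, a1, a2⟩ := ex_Pk (h := 1) (by omega : 1 ≤ cnt R (i * F.D) z (F.A + (N.f + N.m)))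
    obtain ⟨e, he⟩ := card_pos.1 h6
    obtain ⟨a3, a4⟩ := (mem_filter.1 he).2
    refine ⟨Y, mem_filter.2 ⟨mem_union_left _ (mem_biUnion.2 ⟨e, ?_, mem_powersetCard.2
      ⟨fun e' he' => mem_product.2 ⟨mem_bl.2 ?_, mem_univ _⟩, (mem_Pk a1).1⟩⟩), key a1⟩, a2⟩
    · simp only [Sh, mem_filter, mem_univ, true_and]
      exact ⟨by have := tdist_triangle y z e.1; omega, k, hk, a3⟩
    · have := (mem_Pk a1).2 e' he'
      have := tdist_triangle e.1 z e'.1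
      rw [tdist_comm e.1 z] at this
      omega

/-- the leaves J1 and J2 are seen on a grid slice. -/
theorem j12 (hξ : Pw p ξ ≠ 0) (h : I.J1 F (evp ex ey ξ R) Z y ∨ I.J2 F (evp ex ey ξ R) E Z y) :
    ∃ i ∈ range B, F.n1 + 1 ≤ cnt R (i * F.D) y (2 * F.r0) := by
  have hr := hO.hr
  have rad : ∀ {k a}, a ≤ 2 * F.r0 → cnt R k y a ≤ cnt R k y (2 * F.r0) := fun h =>
    I.cnt_le fun _ h1 h2 => ⟨h1, h2.trans h⟩
  rcases h with h | h
  · obtain ⟨s, h⟩ := h.fin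
    have hD := I.D_pos hO.hT
    refine ⟨s / F.D, mem_range.2 ((Nat.div_lt_iff_lt_mul hD).2 (hO.hT ▸ s.2)), h.trans_le
      ((I.cnt_mono I.vis_sub).trans ((Fs.cnt_grid hO.hW hP hE.few hS hr hO.hT hR hZ
        (Nat.div_mul_le_self _ _) ?_ ?_).trans (rad (by omega))))⟩
    · rw [add_one_mul]; exact (Nat.lt_div_mul_add hD).le
    · rw [tdist_self]; omega
  · obtain ⟨i, hi, h⟩ := h.fin hO.hT
    refine ⟨i, mem_range.2 hi, le_trans (Nat.succ_le_of_lt (not_le.1 fun k => ?_)) (rad (a := F.r0 + 1 + (N.f + N.m))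
      (by omega))⟩
    have h1 := (h.trans_le (I.chg_mono I.vis_sub)).trans_le
      (Fs.chg_new hO.hW hP hE.few hS hr hO.hT hR hZ hO.blk hO.hD hξ hi (by omega))
    have h2 := hO.j1
    have h3 := Nat.mul_le_mul_right (N.f + n ^ 2) k
    omega

end det

/-! ### spaced windows -/

/-- rank in a list of windows. -/
def rk (Ex : Finset ℕ) (a : ℕ) : ℕ := (Ex.filter (· < a)).card

lemma rk_add (Ex : Finset ℕ) {a a' : ℕ} (h : a ≤ a') :
    rk Ex a + (Ex.filter fun c => a ≤ c ∧ c < a').card = rk Ex a' := by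
  rw [rk, rk, ← card_union_of_disjoint (disjoint_filter.2 fun c _ h1 h2 => by omega),
    ← filter_or]
  exact congrArg card (filter_congr fun c _ => by omega)

lemma rk_lt {Ex : Finset ℕ} {a a' : ℕ} (ha : a ∈ Ex) (h : a < a') : rk Ex a < rk Ex a' := by
  have := card_pos.2 ⟨a, (mem_filter (p := fun c => a ≤ c ∧ c < a')).2 ⟨ha, le_rfl, h⟩⟩
  have := rk_add Ex h.le
  omega

lemma rk_gap {Ex : Finset ℕ} {a a' τ : ℕ} (ha : a ∈ Ex) (h : a < a')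
    (e : rk Ex a % τ = rk Ex a' % τ) : τ ≤ (Ex.filter fun c => a ≤ c ∧ c < a').card := by
  have h1 := rk_lt ha h
  have h2 := Nat.le_of_dvd (by omega) ((Nat.modEq_iff_dvd' h1.le).1 e)
  have := rk_add Ex h.le
  omega

lemma card_cls (Ex : Finset ℕ) (τ c : ℕ) {l : ℕ} (h : Ex.card ≤ l) :
    (Ex.filter fun a => rk Ex a % τ = c).card ≤ l / τ + 1 := by
  refine le_trans (card_le_card_of_injOn (fun a => rk Ex a / τ) (t := range (l / τ + 1))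
    (fun a _ => mem_coe.2 (mem_range.2 (Nat.lt_succ_of_le (Nat.div_le_div_right
      ((card_filter_le _ _).trans h))))) fun a ha a' ha' e => ?_) (card_range _).le
  obtain ⟨h1, h2⟩ := mem_filter.1 ha
  obtain ⟨h3, h4⟩ := mem_filter.1 ha'
  have h5 : rk Ex a = rk Ex a' := by
    rw [← Nat.div_add_mod (rk Ex a) τ, ← Nat.div_add_mod (rk Ex a') τ, h2, h4]
    exact congrArg (τ * · + c) e
  rcases lt_trichotomy a a' with k | k | k
  exacts [absurd h5 (rk_lt h1 k).ne, k, absurd h5 (rk_lt h3 k).ne']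

section lags
variable {l Lg a a' : ℕ} (hT : T = B * D) (hL : Lg + l ≤ B) (ha : a ∈ Ico i (i + l))
  (ha' : a' ∈ Ico i (i + l))
include hT hL ha ha'

lemma tm_inj (e : tm T (a * D) = tm T (a' * D)) : a = a' := by
  rw [mem_Ico] at ha ha'
  obtain ⟨a, rfl⟩ := Nat.exists_eq_add_of_le ha.1
  obtain ⟨a', rfl⟩ := Nat.exists_eq_add_of_le ha'.1
  have hD := I.D_pos hT
  rw [add_mul, add_mul, tm_add_inj _ (hT ▸ Nat.mul_lt_mul_of_lt_of_le (by omega) le_rfl hD)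
    (hT ▸ Nat.mul_lt_mul_of_lt_of_le (by omega) le_rfl hD)] at e
  rw [Nat.eq_of_mul_eq_mul_right hD e]

lemma long_lag (h : a ≤ a') : Lg * D ≤ lag (tm T (a' * D)) (tm T (a * D)) := by
  rw [mem_Ico] at ha ha'
  have h1 : a' * D < (a + l) * D := Nat.mul_lt_mul_of_lt_of_le (by omega) le_rfl (I.D_pos hT)
  have h2 : (Lg + l) * D ≤ T := hT ▸ Nat.mul_le_mul_right D hL
  have h3 := Nat.mul_le_mul_right D h
  rw [add_mul] at h1 h2
  rw [← tm_add_self (a * D), show T + a * D = a' * D + (T + a * D - a' * D) by omega,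
    RR.PtP.lag_tm _ (by omega) (by omega)]
  omega

lemma short_lag (h : a < a') : lag (tm T (a * D)) (tm T (a' * D)) + a * D = a' * D ∧
    lag (tm T (a * D)) (tm T (a' * D)) ≤ l * D := by
  rw [mem_Ico] at ha ha'
  have h1 : a' * D ≤ (a + l) * D := Nat.mul_le_mul_right D (by omega)
  have h2 : (Lg + l) * D ≤ T := hT ▸ Nat.mul_le_mul_right D hL
  have h3 : a * D < a' * D := Nat.mul_lt_mul_of_lt_of_le h le_rfl (I.D_pos hT)
  rw [add_mul] at h1 h2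
  have h4 := RR.PtP.lag_tm (T := T) (a * D) (m := a' * D - a * D) (by omega) (by omega)
  rw [show a * D + (a' * D - a * D) = a' * D by omega] at h4
  omega

end lags

variable (F E Z) in
open Classical in
/-- the exposed windows of a unit. -/
noncomputable def Xp (y : Tor 3 L) (s i : ℕ) : Finset ℕ :=
  (Ico i (i + F.l)).filter fun a => ¬ Cl F (F.rr s) (vis Z E.1) y a

lemma mem_Xp {s a : ℕ} : a ∈ Xp F E Z y s i ↔ a ∈ Ico i (i + F.l) ∧ ¬ Cl F (F.rr s) (vis Z E.1) y a := by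
  classical
  unfold Xp; exact mem_filter

/-- two exposed windows of the same class give a short pair. -/
lemma short_of (hO : Ok ex ey F N p0 Es w B θ ρ0) {s a a' : ℕ} (hs : s < F.sm)
    (ha : a ∈ Xp F E Z y s i) (ha' : a' ∈ Xp F E Z y s i) (h : a < a')
    (e : rk (Xp F E Z y s i) a % N.τ = rk (Xp F E Z y s i) a' % N.τ) {z z' : Tor 3 L × Fin n}
    (hz : tdist y z'.1 ≤ F.rr (s + 1) + F.A + (N.f + N.m)) :
    ∃ r S, Short F N E Z y (tm T (a' * F.D), z') (tm T (a * F.D), z) r S := by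
  have hT := hO.hT
  obtain ⟨h1, h2⟩ := short_lag hT hO.Lg (mem_Xp.1 ha).1 (mem_Xp.1 ha').1 h
  have h3 := Nat.div_mul_le_self a B
  have h4 := RR.Dt.split_mod hT a
  have h5 : (tm T (a * F.D)).val = a % B * F.D := by
    rw [RR.Dt.tm_mod hT, tm_val_of_lt (hT ▸ Nat.mul_lt_mul_of_lt_of_le
      (Nat.mod_lt _ (I.B_pos hT)) le_rfl (I.D_pos hT))]
  refine ⟨F.rr s, ((Xp F E Z y s i).filter fun c => a ≤ c ∧ c < a').image (· - a / B * B), h2,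
    by have := F.rr_succ hs; have := hO.dl; dsimp only; omega, F.rr_le s, ?_, fun c hc => ?_⟩
  · rw [card_image_of_injOn fun c hc c' hc' e => by
      have := (mem_filter.1 hc).2.1
      have := (mem_filter.1 hc').2.1
      omega]
    exact rk_gap ha h e
  · obtain ⟨c, hc', rfl⟩ := mem_image.1 hc
    obtain ⟨a1, a2, a3⟩ := mem_filter.1 hc'
    clear hc hc'
    obtain ⟨c, rfl⟩ : ∃ c', c = c' + a / B * B := ⟨c - a / B * B, by omega⟩
    have a4 := Nat.mul_le_mul_right F.D a2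
    have a5 := Nat.mul_le_mul_right F.D (Nat.succ_le_of_lt a3)
    have a6 : (c + a / B * B) * F.D = c * F.D + a / B * T := by rw [hT]; ring
    rw [Nat.succ_mul] at a5
    rw [Nat.add_sub_cancel, add_one_mul]
    exact ⟨fun k => (mem_Xp.1 a1).2 ((I.cl_add hT _).2 k), by dsimp only; omega, by dsimp only; omega⟩

variable {al : V L n T → Prop} {dd : ℕ → ℕ}

section main
variable (hO : Ok ex ey F N p0 Es w B θ ρ0) (hE : Tm F N E Z y) (hal : ∀ v, b v ≠ 0 → al v)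
  (hg : 0 ≤ g) (hc : 0 ≤ cF) (H : Rs.Bd ex ey p b (Pr F N E Z al ρ0 dd) 0 y g)
include hO hE hal hg hc H

lemma pf_one {h : ℕ} {P : Finset (Finset (Tor 3 L × Fin n))} {π : ℝ} (hk : h ≤ k0)
    (hP : ∀ Y ∈ P, Y.card ≤ h ∧ ∀ z ∈ Y, tdist y z.1 ≤ ρ0)
    (hπ : ∑ Y ∈ P, (2 * Real.exp 1 * (h * g + cF)) ^ Y.card ≤ π) :
    PF ex ey p b ρ0 k0 cF π y fun R => ∃ Y ∈ P, ∀ z ∈ Y, (tm T (i * F.D), z) ∈ R := by
  refine (pf_prod (D := F.D) {i} (fun _ => P) (h := h) (π := π) hg hc (by simpa using hk) (by simp)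
    (fun _ _ => hP) (fun a ha a' ha' Y hY Y' _ z hz z' _ h1 h2 => ?_) fun _ _ => by
      simpa using hπ).mono (by simp) (by simp)
  rw [mem_singleton.1 ha, mem_singleton.1 ha'] at *
  refine (H _ _ 0 ⟨(hP Y hY).2 z hz, hal _ h1, hal _ h2, .inr (.inl ⟨rfl, ?_, rfl⟩)⟩).trans_eq
    (add_zero _)
  rw [lag, if_pos rfl, hO.hT]
  exact Nat.mul_le_mul_right _ (by have := hO.Lg; omega)

lemma pf_three (hk : 6 * N.k ≤ k0) : PF ex ey p b ρ0 k0 cF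
    ((F.sm * B * N.τ * 2 ^ (F.l / N.τ + 1) : ℕ) *
      cW F N n (2 * Real.exp 1 * ((6 * N.k : ℕ) * (g + N.o) + cF)) ^ N.k) y
    fun R => ∃ s < F.sm, ∃ i < B, ∃ K ⊆ Xp F E Z y s i, F.l1 < K.card ∧
      ∀ a ∈ K, ∃ Y ∈ Pw6 F N E Z y (F.rr (s + 1)) a, ∀ z ∈ Y, (tm T (a * F.D), z) ∈ R := by
  classical
  have ho := hO.o
  refine (PF.union_le hc (pow_nonneg (cW_nn (by positivity)) _)
    ((range F.sm ×ˢ range B ×ˢ range N.τ).sigma fun t => powersetCard N.k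
      ((Xp F E Z y t.1 t.2.1).filter fun a => rk (Xp F E Z y t.1 t.2.1) a % N.τ = t.2.2)) ?_
    (A := fun t R => ∀ a ∈ t.2, ∃ Y ∈ Pw6 F N E Z y (F.rr (t.1.1 + 1)) a,
      ∀ z ∈ Y, (tm T (a * F.D), z) ∈ R) ?_).mono le_rfl ?_
  · rw [card_sigma]
    refine (sum_le_card_nsmul _ _ (2 ^ (F.l / N.τ + 1)) fun t _ => ?_).trans (by simp [mul_assoc])
    rw [card_powersetCard]
    exact (Nat.choose_le_two_pow _ _).trans (Nat.pow_le_pow_right two_pos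
      (card_cls _ _ _ ((card_filter_le _ _).trans (by simp))))
  · rintro ⟨⟨s, i, c⟩, K⟩ ht
    simp only [mem_sigma, mem_product, mem_range, mem_powersetCard] at ht
    obtain ⟨⟨h1, -⟩, h2, h3⟩ := ht
    have near : ∀ a, ∀ Y ∈ Pw6 F N E Z y (F.rr (s + 1)) a, ∀ z ∈ Y, tdist y z.1 ≤ ρ0 :=
      fun a Y hY z hz => by
        have := (mem_Pw6 hY).2 z hz
        have := F.rr_le (s + 1)
        have := hO.hr
        have := hO.ρ0
        omega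
    have := pf_prod (ex := ex) (ey := ey) (p := p) (b := b) (D := F.D) (y := y) (ρ0 := ρ0) K
      (Pw6 F N E Z y (F.rr (s + 1))) (h := 6) (g := g + N.o) (by positivity) hc (h3 ▸ hk)
      (fun a ha a' ha' => tm_inj hO.hT hO.Lg (mem_Xp.1 (mem_filter.1 (h2 ha)).1).1
        (mem_Xp.1 (mem_filter.1 (h2 ha')).1).1)
      (fun a _ Y hY => ⟨(mem_Pw6 hY).1, near a Y hY⟩)
      (fun a ha a' ha' Y hY Y' _ z hz z' _ k1 k2 => ?_) fun a _ => sum_Pw6 hE (by positivity)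
    · rwa [h3] at this
    obtain ⟨a1, a2⟩ := mem_filter.1 (h2 ha)
    obtain ⟨a3, a4⟩ := mem_filter.1 (h2 ha')
    rcases le_or_gt a a' with k | k
    · exact (H _ _ 0 ⟨near a Y hY z hz, hal _ k1, hal _ k2, .inr (.inl ⟨rfl,
        long_lag hO.hT hO.Lg (mem_Xp.1 a1).1 (mem_Xp.1 a3).1 k, rfl⟩)⟩).trans (by linarith)
    · exact H _ _ _ ⟨near a Y hY z hz, hal _ k1, hal _ k2, .inr (.inr ⟨rfl, rfl,
        short_of hO h1 a3 a1 k (a4.trans a2.symm) ((mem_Pw6 hY).2 z hz)⟩)⟩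
  · rintro R ⟨s, hs, i, hi, K, h1, h2, h3⟩
    obtain ⟨c, hc, h4⟩ := exists_lt_card_fiber_of_mul_lt_card_of_maps_to (s := K) (t := range N.τ)
      (f := fun a => rk (Xp F E Z y s i) a % N.τ) (n := N.k)
      (fun a _ => mem_range.2 (Nat.mod_lt _ hO.τ.1)) (by rw [card_range]; exact hO.τ.2.trans_lt h2)
    obtain ⟨K', h5, h6⟩ := exists_subset_card_eq h4.le
    exact ⟨⟨(s, i, c), K'⟩, mem_sigma.2 ⟨mem_product.2 ⟨mem_range.2 hs, mem_product.2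
      ⟨mem_range.2 hi, hc⟩⟩, mem_powersetCard.2 ⟨fun a ha => mem_filter.2
        ⟨h1 (mem_filter.1 (h5 ha)).1, (mem_filter.1 (h5 ha)).2⟩, h6⟩⟩,
      fun a ha => h3 a (mem_filter.1 (h5 ha)).1⟩

variable (hP : Fs.Pin ex ey p0 p E.2) (hZ : ∀ v, b v ≠ 0 → v.2.1 ∉ Z)
include hP hZ

/-- **LEAF.** -/
theorem lfD {η : ℝ} (hk1 : F.n1 + 1 ≤ k0) (hk3 : 6 * N.k ≤ k0) (c1 : cC F N n B w θ ≤ η ^ 2)
    (c2 : cP F N n B g cF ≤ η ^ 2) :
    Rs.LfD ex ey p b ρ0 k0 η cF y fun ω => Lw ex ey F E Z ω y := by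
  classical
  obtain ⟨𝒮, s1, s2, s3⟩ := Fs.fast0 hO.hW hO.hθ hO.blk hP (hO.hD ▸ hE.few) N.f
  have hr := hO.ρ0
  obtain ⟨𝒳, r, a1, a2, a3⟩ := (PF.union_le hc (by positivity) (range B) (card_range B).le
    fun i _ => pf_one (i := i) hO hE hal hg hc H (P := Pk n (F.n1 + 1) y (2 * F.r0)) hk1
      (fun Y hY => ⟨(mem_Pk hY).1.le, fun z hz => ((mem_Pk hY).2 z hz).trans (by omega)⟩)
      (sum_Pk _ _ _ (by positivity))).or hc (pf_three hO hE hal hg hc H hk3)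
  refine ⟨𝒮, 𝒳, fun _ => 1, r, fun I hI s hs => ⟨(s1 I hI s hs).1.trans (by omega),
    (s1 I hI s hs).2.trans (hO.hW.hp s).2⟩, s2.trans c1, fun X hX => ⟨zero_le_one, a1 X hX⟩, ?_,
    fun ω hω hL => (s3 ω.1 hω.1.1).imp id fun hS => ?_⟩
  · simp only [one_mul]
    refine a2.trans (le_trans (le_of_eq ?_) c2)
    rw [cP, show 2 * (2 * F.r0) = 4 * F.r0 by ring]
  rw [← hO.hD] at hS
  have hZ' : ∀ v ∈ ω.2, v.2.1 ∉ Z := fun v hv => hZ v (hω.2 v hv)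
  obtain ⟨X, h1, h2⟩ := a3 ω.2 (by
    rcases or_assoc.2 hL with h | h
    · obtain ⟨i, hi, h⟩ := j12 hO hP hE hS hω.1.2 hZ' hω.1.1 h
      exact .inl ⟨i, hi, ex_Pk h⟩
    · obtain ⟨s, hs, i, hi, h⟩ := h.fin hO.hT
      refine .inr ⟨s, hs, i, hi, _, fun a ha => mem_Xp.2 ⟨(mem_filter.1 ha).1,
        (mem_filter.1 ha).2.2⟩, h, fun a ha => new_cl hO hP hE hS hω.1.2 hZ' (F.rr_le _)
          (mem_filter.1 ha).2.1 fun k => (mem_filter.1 ha).2.2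
            (k.mono (F.rr_anti (Nat.le_succ s)) Subset.rfl)⟩)
  rw [sum_const, nsmul_one, Nat.one_le_cast]
  exact card_pos.2 ⟨X, mem_filter.2 ⟨h1, h2⟩⟩

end main

variable {v u : V L n T} {S : Finset ℕ}

open Classical in
/-- Markov's inequality for half of the events. -/
lemma PR_half {Λ : Type} [Fintype Λ] [DecidableEq Λ] {ex ey : Fin T → Λ} {b : Fin T × Λ → ℝ}
    (hp : ∀ s, 0 ≤ p s ∧ p s ≤ 1) (hb : ∀ v, 0 ≤ b v ∧ b v ≤ 1) (S : Finset ℕ)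
    (hS : 0 < S.card) (A : ℕ → CR T Λ → Prop) (h : ∀ i ∈ S, PR ex ey p b (A i) ≤ ε) :
    PR ex ey p b (fun ω => S.card ≤ 2 * (S.filter fun i => A i ω).card) ≤ 2 * ε := by
  have h1 := RR.WR_markov (ex := ex) (ey := ey) hp hb (S ×ˢ (univ : Finset Bool))
    (E := fun ξ R => S.card ≤ 2 * (S.filter fun i => A i (ξ, R)).card)
    (E' := fun t ξ R => A t.1 (ξ, R)) (M := S.card) fun ξ R _ k => k.trans (le_of_eq (by
      rw [mul_comm, ← Fintype.card_bool, ← card_univ, ← card_product]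
      exact congrArg card (by ext t; simp)))
  have h2 : ∑ t ∈ S ×ˢ (univ : Finset Bool), RR.WR ex ey p b (fun ξ R => A t.1 (ξ, R)) ≤
      (S ×ˢ (univ : Finset Bool)).card • (ε * DL.Zt ex ey p b) :=
    sum_le_card_nsmul _ _ _ fun t ht => (PR_le_iff hp hb).1 (h t.1 (mem_product.1 ht).1)
  rw [card_product, nsmul_eq_mul, card_univ, Fintype.card_bool] at h2
  rw [PR_le_iff hp hb]
  refine le_of_mul_le_mul_left (h1.trans (h2.trans (le_of_eq ?_))) (Nat.cast_pos.2 hS)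
  push_cast; ring

/-- **the additional bad event** has a small probability (first moment). -/
theorem PR_bad (hO : Ok ex ey F N p0 Es w B θ ρ0) (hE : Tm F N E Z y) (hal : ∀ v, b v ≠ 0 → al v)
    (hg : 0 ≤ g) (hc : 0 < cF) (H : Rs.Bd ex ey p b (Pr F N E Z al ρ0 dd) 0 y g)
    (hP : Fs.Pin ex ey p0 p E.2) (hZ : ∀ v, b v ≠ 0 → v.2.1 ∉ Z) (hp : ∀ s, 0 ≤ p s ∧ p s ≤ 1)
    (hb : Fld b) (h : Short F N E Z y v u r S) : PR ex ey p b (Bad F E Z y r S) ≤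
      cC F N n B w θ + 2 * cW F N n (2 * Real.exp 1 * (6 * g + cF)) := by
  classical
  obtain ⟨𝒮, s1, s2, s3⟩ := Fs.fast0 hO.hW hO.hθ hO.blk hP (hO.hD ▸ hE.few) N.f
  set π := cW F N n (2 * Real.exp 1 * (6 * g + cF))
  let A : ℕ → Finset (V L n T) → Prop := fun i R =>
    ∃ Y ∈ Pw6 F N E Z y r i, ∀ z ∈ Y, (tm T (i * F.D), z) ∈ R
  have h1 : ∀ i, PR ex ey p b (fun ω => A i ω.2) ≤ π := fun i =>
    (pf_one (k0 := 6) hO hE hal hg hc.le H le_rfl (fun Y hY => ⟨(mem_Pw6 hY).1, fun z hz => by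
      have := (mem_Pw6 hY).2 z hz
      have := h.rad
      have := hO.hr
      have := hO.ρ0
      omega⟩) (sum_Pw6 hE (by positivity))).le hp hb hc
  have h2 : PR ex ey p b (fun ω => ∃ I ∈ 𝒮, ∀ s ∈ I, ω.1 s = true) ≤ cC F N n B w θ :=
    (PR_union hp hb.mem 𝒮 (fun I ω => ∀ s ∈ I, ω.1 s = true) fun _ _ k => k).trans
      ((sum_le_sum fun I hI => PR_coins hp hb.mem I fun s hs =>
        (s1 I hI s hs).2.trans (hO.hW.hp s).2).trans s2)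
  have h3 := PR_half hp hb.mem S (hO.τ.1.trans h.card) (fun i ω => A i ω.2) fun i _ => h1 i
  refine le_trans (PR_mono hp hb.mem fun ω hω k => (s3 ω.1 hω.1.1).imp id fun hS => ?_)
    (((sub_PR hp hb.mem).or _ _).trans (add_le_add h2 h3))
  refine k.trans (Nat.mul_le_mul_left 2 (card_le_card fun i hi => ?_))
  simp only [mem_filter] at hi ⊢
  exact ⟨hi.1, new_cl hO hP hE (hO.hD ▸ hS) hω.1.2 (fun v hv => hZ v (hω.2 v hv)) h.rad hi.2
    (h.win i hi.1).1⟩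

theorem PR_bad0 (hτ : 1 ≤ N.τ) (hp : ∀ s, 0 ≤ p s ∧ p s ≤ 1) (hb : ∀ v, 0 ≤ b v ∧ b v ≤ 1)
    (h0 : ∀ x, b (0, x) = 0) (h : Short F N E Z y v u r S) :
    PR ex ey p b (Bad F E Z y r S) ≤ 0 := by
  classical
  refine PR_zero hp hb h0 fun ξ _ k => ?_
  rw [Bad, filter_eq_empty_iff.2 fun i hi c => (h.win i hi).1 (by simpa using c)] at k
  have := h.card
  simp only [card_empty] at k
  omega

/-! ### producers of `Fs.Pin` and `Fs.Blk` -/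

section pin
variable {X X' O : Finset (V L n T)}




lemma pin_loops (h0 : ∀ s, 0 ≤ p0 s) (A : Finset (Gas.Lp T (Tor 3 L × Fin n))) :
    Fs.Pin ex ey p0 (Gas.pin ex ey p0 A) (I.ev ex ey A).2 := fun s => by
  unfold Gas.pin
  split_ifs with h1 h2
  · have k : ∀ y, ex s ≠ ey s → y = ex s ∨ y = ey s → (s, y) ∈ I.act ex ey A := fun y e k =>
      mem_filter.2 ⟨mem_univ _, h2, e, k⟩
    exact .inr ⟨rfl, fun e => ⟨k _ e (.inl rfl), k _ e (.inr rfl)⟩⟩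
  · exact .inl ⟨le_rfl, h0 s⟩
  · exact .inl ⟨h0 s, le_rfl⟩

end pin


end Crest.Agent.N337.G4.Le
end

-- ▼ part N337/G4/Que
section

/-!
# Row 337, G4 (helper4): the quenched input `RIn.que` of the reset step
-/

set_option autoImplicit false
set_option linter.unusedSectionVars false

namespace Crest.Agent.N337.G4.Qu

open Finset Crest.MathPhysics.SpinModel Free Crest.Agent.N337.Rep Rg Tr Rs Le Gl
open Crest.Agent.N337.I (V Ev vis cnt evp Cl W0 G0 dead bE)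
open Crest.Agent.N337.G1 (lag Scales CovIn Cg)
open Crest.Agent.N337.Arc (Fld)

/-- the numbers of the quenched bounds. -/
structure Qn where
  /-- scales of G1, exponents of the tubes -/
  Pg : Scales
  k : ℕ → ℕ
  k' : ℕ → ℕ
  /-- rung of the base cells off `U 0`, activity bound of G1 -/
  t : ℕ
  j : ℕ
  /-- radius and range of the covers of the static junk, radius of the domain -/
  Sc : ℕ → ℕ
  Hc : ℕ → ℕ
  rD : ℕ
  /-- escape distance and blocks for long lags, annuli for short lags -/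
  dL : ℕ
  Nb : ℕ
  M : ℕ
  /-- Trotter error -/
  er : ℝ

variable {L n T : ℕ} [NeZero L] [NeZero T] {α κ : Type} [SemilatticeSup α] [Preorder κ]
  (S : Sys (Tor 3 L) α κ) (G : Eg) (Q : Gp) (P : Pz) (F : I.Lf) (N : Ln) (K : Qn)

/-- **numerical conditions** (`c = Cg κ`). -/
structure QN (n B w : ℕ) (θ c : ℝ) : Prop where
  d : ∀ x y, S.d x y = tdist x y
  a1 : 1 ≤ S.a1
  mt : 1 ≤ G.mt
  tb : Tb.Nu S G K.Pg K.k K.k' fun _ => 0
  cov : ∀ l < G.mt, Q.N + S.a1 ≤ K.Pg.a (l + 1) ∧ 4 * K.Pg.η (l + 1) ≤ S.ρ (l + 1) ∧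
    4 * K.Pg.η (l + 1) + Q.dc l + S.loc l ≤ K.Hc l ∧ S.sep l ≤ K.Sc l + Q.dc l + S.loc l ∧
    K.Sc l + Q.dc l + S.loc l ≤ K.Pg.σ (l + 1)
  top : 2 * (K.rD + 1 + F.r0) + 2 * S.loc (G.mt - 1) ≤ S.sep (G.mt - 1) ∧
    4 * (2 * K.rD + 1) ^ 3 ≤ vT G K.k
  fr : 2 * F.r0 + 2 ≤ Q.fr
  tm : 2 * K.t * F.j1 ≤ N.m ∧ 2 * K.t * F.n1 + 2 * (2 * K.t * F.j1 + 0) ≤ N.j
  γ0 : 0 ≤ P.γ 0 ∧ 0 < P.cF
  far : ∀ l ≤ G.mt, 2 * (P.dd l + F.A) ≤ 2 ^ K.k l ∧ 4 * K.Pg.η l ≤ P.dd l ∧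
    2 * (c * (gF S G K.Pg K.k K.k' F.A l (P.dd l) + K.er)) ≤ P.γ l / 2
  lag : 2 * (K.dL + K.Pg.η 0 + F.A) ≤ 2 ^ K.k 0 ∧ 4 * K.Pg.η 0 ≤ K.dL ∧ 1 ≤ K.Nb ∧
    K.Nb * (F.l + 2) ≤ N.Lg ∧ 2 * (c * (cT S G K.Pg K.k K.k' F.A 0 1 / K.Nb +
      gF S G K.Pg K.k K.k' F.A 0 K.dL + K.er)) ≤ P.γ 0 / 2
  short : 2 * (N.d + F.A) ≤ 2 ^ K.k 0 ∧ 1 ≤ K.M ∧
    2 * (K.M + F.l) * ((K.j + 1) * (2 * F.A + 1)) ≤ N.d ∧
    2 * (c * (2 * cT S G K.Pg K.k K.k' F.A 0 1 / N.τ + cT S G K.Pg K.k K.k' F.A 0 K.M / K.M +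
      K.er)) + (cC F N n B w θ + 2 * cW F N n (2 * Real.exp 1 * (6 * (2 * P.γ 0) + P.cF))) ≤
      P.γ 0 / 2 + N.o

/-- **one member**: word `W`, pinned environment `(p, E)`, killed sites `Z`, static junk `U`. -/
structure QIn (ex ey : Fin T → Tor 3 L × Fin n) (W : Wd T) (θ : ℝ) (p : Fin T → ℝ)
    (b : V L n T → ℝ) (E : Ev L n T) (Z : Finset (Tor 3 L)) (al : V L n T → Prop)
    (U : ℕ → Tor 3 L → Prop) : Prop where
  qn : QN S G Q P F N K n W.B W.w θ (Cg W.κ)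
  wd : W.Ok ex ey F
  er : W.er L n ≤ K.er
  half : ∀ s, 1 / 2 ≤ W.b0 s
  nu : Nu W L F K.Pg (K.t + 1) 0 K.j
  ok : Le.Ok ex ey F N W.p0 W.E0 W.w W.B θ (S.ρ 0)
  md : Md W ex ey p E
  pin : Fs.Pin ex ey W.p0 p E.2
  hb : Fld b
  al1 : ∀ v, b v ≠ 0 → al v
  al2 : ∀ v, al v → v ∉ E.1 ∧ v.2.1 ∉ Z
  dom : ∃ x0, ∀ z ∉ Z, tdist x0 z ≤ K.rD
  u0 : ∀ c, ¬ U 0 c → G0 F K.t E Z c
  cov : ∀ l < G.mt, ∀ x, (l + 1 < G.mt → ¬ U (l + 1) x) → ∃ A : Finset (Tor 3 L), A.card ≤ Q.N ∧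
    ∀ u, U l u → tdist x u ≤ K.Hc l → ∃ f ∈ A, tdist f u ≤ K.Sc l

open Classical in
/-- the junk sets of G1. -/
noncomputable def UJ (J : ℕ → Tor 3 L → Prop) (mt m : ℕ) : Finset (Tor 3 L) :=
  univ.filter fun y => 1 ≤ m ∧ m ≤ mt ∧ J (m - 1) y

variable {S G Q P F N K} {ex ey : Fin T → Tor 3 L × Fin n} {W : Wd T} {θ : ℝ} {p : Fin T → ℝ}
  {b : V L n T → ℝ} {E C : Ev L n T} {Z : Finset (Tor 3 L)} {al : V L n T → Prop}
  {U J : ℕ → Tor 3 L → Prop} {y : Tor 3 L} {mt l : ℕ} {ω : CR T (Tor 3 L × Fin n)}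

lemma mem_UJ : y ∈ UJ J mt (l + 1) ↔ l < mt ∧ J l y := by
  classical
  simp [UJ]

/-- leaves sit next to sites that are not dead. -/
lemma w0_near (h : W0 F C E Z y) : ∃ z, ¬ dead Z z ∧ tdist y z ≤ F.r0 := by
  classical
  by_contra h'
  have key : ∀ (R : Finset (V L n T)) k z r, tdist y z + r ≤ F.r0 → cnt (vis Z R) k z r = 0 :=
    fun R k z r hr => I.cnt_zero fun x hx => lt_of_not_ge fun h1 =>
      h' ⟨x.1, (I.mem_vis.1 hx).2, by have := tdist_triangle y z x.1; omega⟩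
  have h0 : tdist y y + F.r0 ≤ F.r0 := by rw [tdist_self, zero_add]
  rcases h with ⟨k, h⟩ | ⟨i, h⟩ | ⟨s, -, i, h⟩
  · exact absurd (h.trans_eq (key _ k y _ h0)) (Nat.not_lt_zero _)
  · exact absurd (h.trans_eq (sum_eq_zero fun k _ => key _ k y _ h0)) (Nat.not_lt_zero _)
  · obtain ⟨i', hi⟩ := card_pos.1 ((Nat.zero_le _).trans_lt h)
    obtain ⟨k, -, z, h1, h2⟩ := (mem_filter.1 hi).2.1
    rw [key _ k z _ (by have := F.rr_le (s + 1); omega)] at h2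
    omega

variable (I : QIn S G Q P F N K ex ey W θ p b E Z al U)
include I

theorem QIn.fld : Fld (bE W.b0 Z E.1) :=
  have h := N337.I.bE_mem (Z := Z) (R := E.1) fun s => (I.wd.pers.hb0 s).1
  ⟨fun v => ⟨(h v).1, (h v).2.trans (I.wd.pers.hb0 _).2⟩,
    fun _ => (h _).2.trans_lt (I.wd.h0.trans_lt I.wd.hY.2)⟩

theorem QIn.tm (h : Fr U 0 Q.fr y) : Tm F N E Z y :=
  Tm.of (X0 := ∅) I.wd.hT I.nu.hl I.md.rp subset_union_left le_rfl I.qn.tm.1 I.qn.tm.2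
    fun z hz => I.u0 z fun k => by have := h z k; have := I.qn.fr; omega

theorem QIn.notop (ω : CR T (Tor 3 L × Fin n)) (hl : l + 1 = G.mt) :
    ¬ FQ S (Cp S Q U) (Lw ex ey F E Z ω) (l + 1) y := by
  obtain ⟨x0, h0⟩ := I.dom
  have key : ∀ z, Lw ex ey F E Z ω z → tdist x0 z ≤ K.rD + 1 + F.r0 := fun z hz => by
    obtain ⟨z1, h1, h2⟩ := w0_near hz
    simp only [dead, not_forall] at h1
    obtain ⟨z2, h3, h4⟩ := h1
    have := h0 z2 h4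
    have := tdist_triangle x0 z2 z
    have := tdist_triangle z2 z1 z
    rw [tdist_comm z2 z1, tdist_comm z1 z] at this
    omega
  refine topJ I.qn.d I.qn.a1 (δ := 2 * (K.rD + 1 + F.r0)) (fun z z' h h' => ?_) ?_
  · have := key z h
    have := key z' h'
    have := tdist_triangle z x0 z'
    rw [tdist_comm z x0] at this
    omega
  · have := I.qn.top.1
    rwa [← hl, Nat.add_sub_cancel] at this

theorem QIn.st (h : Pos ex ey p b ω) : St W ex ey F K.Pg (K.t + 1) 0 K.j p (bE W.b0 Z E.1) E Z ω.1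
    ω.2 ω.2 (UJ (Jr S Q U (Lw ex ey F E Z ω)) G.mt) where
  wd := I.wd
  md := I.md
  nu := I.nu
  hb := I.fld
  le _ := le_rfl
  sub := Subset.rfl
  ends := by
    rw [Arc.ends, filter_eq_empty_iff.2 fun v hv k => k ((h.1.2 v).2 hv)]
    simp
  cov m h1 h2 c _ hc := by
    obtain ⟨l, rfl⟩ : ∃ l, m = l + 1 := ⟨m - 1, by omega⟩
    have hl : l < G.mt := by rw [I.qn.tb.mt] at h2; omega
    obtain ⟨n1, n2, n3, n4, n5⟩ := I.qn.cov l hl
    rw [mem_UJ, not_and, Jr, not_or] at hc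
    obtain ⟨A, a1, a2⟩ := I.cov l hl c fun k => (hc k).1
    obtain ⟨A', b1, b2⟩ := covJ (Q := Q) (U := U) (Lf := Lw ex ey F E Z ω) (y := c) I.qn.d
      (fun k => (lt_or_eq_of_le (Nat.succ_le_of_lt hl)).elim (fun e => (hc e).2 k)
        fun e => I.notop ω e k) n2 (fun u k1 k2 => a2 u k2 (k1.trans n3)) n4
    exact ⟨A', by omega, fun z hz k => (b2 z k (mem_UJ.1 hz).2).imp fun f hf =>
      ⟨hf.1, hf.2.trans n5⟩⟩
  good c hc := by
    rw [mem_UJ, not_and, Jr, not_or] at hc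
    exact fun i => (I.u0 c (hc I.qn.mt).1 i).step (hc I.qn.mt).2

theorem QIn.lnk : Lnk S G K.Pg K.k K.k' (fun _ => 0) (UJ J G.mt) J where
  nu := I.qn.tb
  top := by
    rw [I.qn.tb.mt]
    exact eq_empty_of_forall_notMem fun y hy => lt_irrefl _ (mem_UJ.1 hy).1
  hJ l _ u hu := ⟨u, by rw [tdist_self], (mem_UJ.1 hu).2⟩

/-- **the field `RIn.que`** with `b' = bE W.b0 Z E.1`, `Lf = Lw`, `Pr = Le.Pr`. -/
theorem QIn.que : ∀ l ≤ G.mt, ∀ y v u o, Pr F N E Z al (S.ρ 0) P.dd l y v u o →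
    (l = 0 → Fr U 0 Q.fr y ∧ (Bd ex ey p b (Pr F N E Z al (S.ρ 0) P.dd) 0 y (2 * P.γ 0) ∨
      ∀ x, b (0, x) = 0)) →
    ∃ (Bad : CR T (Tor 3 L × Fin n) → Prop) (g : ℝ), 0 ≤ g ∧ 1 / 2 ≤ bE W.b0 Z E.1 u ∧
      (∀ ξ R R', R ⊆ R' → Bad (ξ, R) → Bad (ξ, R')) ∧ 2 * g + PR ex ey p b Bad ≤ P.γ l / 2 + o ∧
      ∀ ω, Pos ex ey p b ω → ¬ Bad ω → TBn S G l (Jr S Q U (Lw ex ey F E Z ω)) y → v ∉ ω.2 →
        u ∉ ω.2 → (WN.Gc ex ey p (bE W.b0 Z E.1) ω.2 ω.1 v u - if v = u then 1 else 0) ≤ g := by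
  classical
  rintro l hl y v u o ⟨hy, -, hu, H⟩ h0
  have hc : 0 ≤ Cg W.κ := G1.Cg_nonneg I.wd.clock.hκ
  have he : 0 ≤ W.er L n := G1.err_nonneg
  have he' := I.er
  have h2 : 1 / 2 ≤ bE W.b0 Z E.1 u := by
    rw [bE, if_neg (not_or.2 ⟨fun k => (I.al2 u hu).1 (N337.I.vis_sub k), (I.al2 u hu).2⟩)]
    exact I.half _
  have tp : Tp W Z (vT G K.k) 0 :=
    .inr ⟨le_rfl, I.dom.choose, _, I.dom.choose_spec, I.qn.top.2⟩
  have hx : tcast L (lf 0 v.2.1) = v.2.1 := tcast_lf _ _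
  have hF : PR ex ey p b (fun _ => False) ≤ 0 := by
    simpa using PR_union I.md.hp I.hb.mem (∅ : Finset Unit) (fun _ _ => True) fun _ _ k => k.elim
  have c0 := cT_nn (S := S) (G := G) (P := K.Pg) (k := K.k) (k' := K.k') F.A 0
  have g0 := gF_nn (S := S) (G := G) (P := K.Pg) (k := K.k) (k' := K.k') F.A
  rcases H with ⟨hd, rfl⟩ | ⟨rfl, hd, rfl⟩ | ⟨rfl, rfl, r, A, hA⟩
  · obtain ⟨n1, n2, n3⟩ := I.qn.far l hl
    refine ⟨fun _ => False, _, mul_nonneg hc (add_nonneg (g0 l (P.dd l)) (he.trans he')), h2,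
      fun _ _ _ _ k => k, by linarith, fun ω k1 _ k3 _ _ => ((I.st k1).farT I.lnk
        (k3 _ (hx.symm ▸ hy)) hl n1 n2 tp (.inr hx) (tdist_comm _ _ ▸ hd)).trans ?_⟩
    exact mul_le_mul_of_nonneg_left (by linarith) hc
  · obtain ⟨n1, n2, n3, n4, n5⟩ := I.qn.lag
    refine ⟨fun _ => False, _, mul_nonneg hc (add_nonneg (add_nonneg
      (div_nonneg (c0 1) (Nat.cast_nonneg K.Nb)) (g0 0 K.dL)) (he.trans he')), h2,
      fun _ _ _ _ k => k, by linarith, fun ω k1 _ k3 _ _ => ((I.st k1).lagT I.lnk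
        (k3 _ (hx.symm ▸ hy)) n1 n2 tp (.inr hx) n3
        ((Nat.mul_le_mul_right _ n4).trans hd)).trans ?_⟩
    exact mul_le_mul_of_nonneg_left (by linarith) hc
  · obtain ⟨n1, n2, n3, n4⟩ := I.qn.short
    have hB : PR ex ey p b (Bad F E Z y r A) ≤ cC F N n W.B W.w θ +
        2 * cW F N n (2 * Real.exp 1 * (6 * (2 * P.γ 0) + P.cF)) := by
      have a1 := I.qn.γ0
      rcases (h0 rfl).2 with k | k
      · exact PR_bad I.ok (I.tm (h0 rfl).1) I.al1 (by linarith) a1.2 k I.pin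
          (fun v k => (I.al2 v (I.al1 v k)).2) I.md.hp I.hb hA
      · refine (PR_bad0 I.ok.τ.1 I.md.hp I.hb.mem k hA).trans ?_
        have a2 : 0 ≤ 2 * Real.exp 1 * (6 * (2 * P.γ 0) + P.cF) :=
          mul_nonneg (by positivity) (by linarith)
        unfold cC cW
        positivity
    refine ⟨Bad F E Z y r A, _, mul_nonneg hc (add_nonneg (add_nonneg
      (div_nonneg (mul_nonneg zero_le_two (c0 1)) (Nat.cast_nonneg N.τ))
      (div_nonneg (c0 K.M) (Nat.cast_nonneg K.M))) (he.trans he')), h2,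
      fun _ _ _ => Bad.mono, by linarith, fun ω k1 k2 k3 _ _ => ?_⟩
    obtain ⟨A', a0, a1⟩ : ∃ A' : Finset ℕ, (∀ i ∈ A', i ∈ A ∧ ¬ Cl F r (vis Z (E.1 ∪ ω.2)) y i) ∧
        N.τ < 2 * A'.card := by
      refine ⟨A.filter fun i => ¬ Cl F r (vis Z (E.1 ∪ ω.2)) y i, fun i hi => mem_filter.1 hi, ?_⟩
      have := card_filter_add_card_filter_not (s := A) fun i => Cl F r (vis Z (E.1 ∪ ω.2)) y i
      have := hA.card
      rw [Bad, not_le] at k2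
      omega
    refine ((I.st k1).shortT I.lnk (k3 _ (hx.symm ▸ hy)) n1 tp (.inr hx) n2 n3 hA.lag_le A'
      (card_pos.1 (by omega)) (hx.symm ▸ hA.near) fun i hi =>
        ⟨(a0 i hi).2, (hA.win i (a0 i hi).1).2⟩).trans
      (mul_le_mul_of_nonneg_left ?_ hc)
    have a2 : (N.τ : ℝ) ≤ 2 * A'.card := by exact_mod_cast a1.le
    have a3 : (0 : ℝ) < N.τ := by exact_mod_cast I.ok.τ.1
    have a4 : cT S G K.Pg K.k K.k' F.A 0 1 / A'.card ≤ 2 * cT S G K.Pg K.k K.k' F.A 0 1 / N.τ := by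
      rw [← mul_div_mul_left _ _ (two_ne_zero (α := ℝ))]
      exact div_le_div_of_nonneg_left (mul_nonneg zero_le_two (c0 1)) a3 a2
    linarith

/-- **all inputs of the reset step.** -/
theorem QIn.rin (hb0 : ∀ v, b v ≤ W.b0 v.1) (nt : NT S P G.mt) (ng : NG S G Q)
    (hs : ∀ l ≤ G.mt, ∑ i ∈ Ico l G.mt, ((2 * Q.A i + 1 : ℕ) ^ 3 * P.ε i +
      ((2 * S.ρ (i + 1) + 1 : ℕ) ^ 3 * P.ε i) ^ (S.a1 + 1)) ≤ P.γ l / 2)
    (hk1 : F.n1 + 1 ≤ P.k0) (hk3 : 6 * N.k ≤ P.k0) (c1 : cC F N n W.B W.w θ ≤ P.η ^ 2)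
    (c2 : cP F N n W.B (2 * P.γ 0) P.cF ≤ P.η ^ 2) :
    RIn ex ey S G Q p b P (bE W.b0 Z E.1) U (Lw ex ey F E Z) (Pr F N E Z al (S.ρ 0) P.dd) where
  hp := I.md.hp
  hb := I.hb
  hb' := I.fld
  le := N337.I.le_bE hb0 (fun v k => by_contra fun h => (I.al2 v (I.al1 v h)).1 k)
    fun v k => by_contra fun h => (I.al2 v (I.al1 v h)).2 k
  nt := nt
  ng := ng
  sum := hs
  mono _ _ _ _ := Lw.mono
  zero _ _ _ := Lw.zero
  far _ _ v u h1 h2 h3 h4 := Pr.far h1 (I.al1 v h2) (I.al1 u h3) h4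
  leaf _ h H := lfD I.ok (I.tm h) I.al1 (by linarith [I.qn.γ0.1]) I.qn.γ0.2.le H I.pin
    (fun v k => (I.al2 v (I.al1 v k)).2) hk1 hk3 c1 c2
  que := I.que

end Crest.Agent.N337.G4.Qu
end

-- ▼ part N337/Par/Que
section

/-!
# Row 337 (helper4): `Gl.Nu`, `Tb.Nu` and the numbers `Qu.QN` of the quenched bounds on the tiers
-/

set_option autoImplicit false
set_option linter.unusedSectionVars false

namespace Crest.Agent.N337.Par

open Finset Crest.Agent.N337.Free Rg Tr Gl G1 G4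

variable {n u i mt kt Dw L T : ℕ} [NeZero L] [NeZero T] {α κ : Type} [SemilatticeSup α] [Preorder κ]
  {S : Sys (Tor 3 L) α κ} {P : Scales}

/-- **the numbers of the child models.** -/
theorem GH.nu (h : Bg n u) (H : GH u i P) {W : Wd T} {t x0 : ℕ} (ok : P.Ok L) (ht : t ≤ ctm + 2)
    (hx : x0 ≤ Y u 0) (fine : 2 * (W.Bd.card + L ^ 3 * Y u 2 + 1) ≤ W.w) :
    Gl.Nu W L (lf h Dw) P t x0 (Y u 2) := by
  have hu := h.hu
  have a0 := h.a0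
  have l1 := ll_pos u
  have t0 : t ≤ Y u 1 := ht.trans (by have := h.tm; tier! 0)
  have key : (ll u + 1) * (Y u 2 * (2 * Y u 0 + 1)) + Y u 0 < Par.η0 u := by
    have b1 : 2 * (2 * Y u 0 + 1) + Y u 0 < Y u 2 := by tier! 0
    have b2 := Y_pos u 2
    unfold Par.η0
    generalize Y u 2 = y at *
    have b3 : ll u * y * (y * 1) ≤ ll u * y * (y * y) := by gcongr; omega
    have b4 : ll u * y * (2 * (2 * Y u 0 + 1) + Y u 0 + 1) ≤ ll u * y * y := by gcongr; omega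
    have b5 : 1 ≤ ll u * y := Nat.mul_pos l1 b2
    have b6 := Nat.mul_le_mul_right (y * (2 * Y u 0 + 1)) l1
    nlinarith [Nat.mul_le_mul_right (Y u 0) b5]
  refine ⟨ok, l1, ?_, ?_, ?_, H.hA h, ?_, H.η0 ▸ key, key.le, fine⟩
  · rw [H.a0]; exact Nat.mul_le_mul_right _ (by omega)
  · rw [H.a0]; change ca0 + 2 * (2 * t * Y u 1 + x0) ≤ _; tier! 1
  · rw [H.η0]
    have : 8 * Y u 2 ^ 3 ≤ Y u 3 := by tier! 2
    exact (mul_left_comm _ _ _).trans_le (Nat.mul_le_mul_left _ this)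
  · exact Nat.mul_lt_mul_of_lt_of_le (by unfold csm; omega) le_rfl (pow_pos (Y_pos _ _) _)

lemma qf_eg (ha : S.a1 = cE) (hN : S.N = cN) : qf S (eg u Dw mt) = cqf := by
  rw [qf, ar, ha, hN]; rfl

lemma le_kT (hk : u * D ^ (48 * mt + 17) ≤ kt) {l : ℕ} (hl : l ≤ mt) :
    u * D ^ (48 * l + 17) ≤ kT u mt kt l := by
  unfold kT
  split_ifs with e
  · exact le_rfl
  · obtain rfl : l = mt := by omega
    exact hk

lemma Y_le_kT (hk : u * D ^ (48 * mt + 17) ≤ kt) {l : ℕ} (hl : l ≤ mt) :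
    Y u (48 * l + 17) ≤ 2 ^ kT u mt kt l := by
  rw [Y_def]; exact Nat.pow_le_pow_right two_pos (le_kT hk hl)

variable (h : Bg n u) (H : GH u i P) (hi : i ≤ 15) (ha : S.a1 = cE) (hN : S.N = cN)
  (hk : u * D ^ (48 * mt + 17) ≤ kt)
include h H hi ha hN hk

omit H hi in
/-- the tiers of the tubes. -/
theorem tg_eg : TG u S (eg u Dw mt) (kT u mt kt) (kT' u) :=
  ⟨by have := h.hu; have := h.qf; rw [Tb.QQ, qf_eg ha hN]; tier! 0, fun _ => Y_le_kT hk,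
    fun l _ => (two_kT' u l).ge⟩

/-- **the numbers of the tubes.** -/
theorem GH.tb {th : ℕ → ℕ} (hm : P.mt = mt + 1) (hη : ∀ l, P.η (l + 1) ≤ x u l 17)
    (hth : ∀ l < mt, th l ≤ x u l 6) (hL : 32 * (2 * cqf + 2) * 2 ^ kt < L) :
    Tb.Nu S (eg u Dw mt) P (kT u mt kt) (kT' u) th := by
  have hu := h.hu
  have hq := h.qf
  have e : Tb.QQ S (eg u Dw mt) = 2 * cqf + 2 := by rw [Tb.QQ, qf_eg ha hN]
  have w : ∀ l, Pb u (48 * l + 28) 9 (Tb.Rw S (eg u Dw mt) P (kT' u) l) := fun l => by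
    have := ((H.ρ h l).up (by norm_num) (Nat.lt_succ_self _))
    rw [Tb.Rw, e, two_kT']
    change Pb _ _ _ (x u l 2 + _ + _)
    exact Pb.mono (by p_bd) (by norm_num)
  have m : ∀ {a b}, a ≤ b → u * D ^ a ≤ u * D ^ b := fun k =>
    Nat.mul_le_mul_left _ (Nat.pow_le_pow_right D_pos k)
  refine ⟨hm, ?_, fun l hl => ⟨?_, (m (by omega)).trans (le_kT hk hl)⟩, fun l hl => ?_,
    fun l hl => ?_, fun l hl => ⟨?_, Y_mono (by omega)⟩, fun l hl => ?_, fun l hl => ?_,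
    fun l _ => (hη l).trans (two_kT' u l).ge, fun l hl => ?_, ?_⟩
  · rw [e]; change _ ≤ cc; unfold cc; omega
  · rw [kT, if_pos (show l < mt from hl)]; exact m (by omega)
  · rw [e]; exact le_trans (by tier! 0) (Y_le_kT hk hl)
  · rw [e, two_kT (mt := mt) hl]
    exact ⟨(Y_mono (by omega)).trans (Nat.le_mul_of_pos_left _ (by omega)), hth l hl,
      by change _ ≤ x u l 7; tier! (48 * l + 17)⟩
  · change x u l 7 ≤ 4 * x u l 7 * (x u l 8 * cE)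
    have := Nat.mul_pos (Y_pos u (48 * l + 11 + 8)) (cE_eq ▸ one_le_Dp 100 : 0 < cE)
    exact (Nat.le_mul_of_pos_left _ (by norm_num)).trans (Nat.le_mul_of_pos_right _ this)
  · have := w l
    have := hth l hl
    change _ + x u l 2 + _ ≤ x u l 18
    tier! (48 * l + 28)
  · rw [e, two_kT (mt := mt) hl]
    exact ((w l).up (by norm_num) (by omega)).trans (Nat.le_mul_of_pos_left _ (by omega))
  · have := H.η_le h l
    have hl' : l ≤ mt := hl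
    exact le_trans (b := Y u (48 * mt + 17)) (by tier! (48 * mt + 5)) (Y_le_kT hk le_rfl)
  · rw [e]; change _ * 2 ^ kT u mt kt mt < L; rwa [kT, if_neg (lt_irrefl _)]

omit H hi hk

/-- the numbers of the quenched bounds (`rD` = radius of the domain). -/
noncomputable def qn4 (u mt rD : ℕ) : Qu.Qn where
  Pg := gs4 u (mt + 1)
  k := kT u mt (u * D ^ (48 * mt + 17))
  k' := kT' u
  t := ctm
  j := Y u 2
  Sc l := x u l 13
  Hc l := x u l 20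
  rD := rD
  dL := Y u 15
  Nb := Y u 8
  M := ll u
  er := s u (48 * mt + 16)

/-- **`Qu.QN` on the tiers.** -/
theorem qn4_ok {B w rD : ℕ} {θ c : ℝ} (hd : ∀ x y, S.d x y = tdist x y) (hρ : ∀ l, S.ρ l = x u l 0)
    (hs : ∀ l, x u l 5 ≤ S.sep l ∧ S.sep l ≤ x u l 15) (h1 : 1 ≤ mt) (hD : rD ≤ x u (mt - 1) 4)
    (hL : Y u (48 * mt + 18) ≤ L) (hc : Rb u 0 1 c) (hB : Y u 10 ≤ B ∧ B ≤ Y u 11)
    (hθ : Real.exp (56 * θ * (w + 1 + Y u 2)) ≤ Y u 1) :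
    Qu.QN S (eg u Dw mt) (gp4 u cN cc) (pz4 u) (lf h Dw) (ln4 u (ll u)) (qn4 u mt rD) n B w θ c := by
  have hu := h.hu
  have H := gh_gs4 hu (mt + 1)
  have tt := tg_eg (Dw := Dw) h ha hN (le_refl (u * D ^ (48 * mt + 17)))
  have lc := loc_le4 hu hρ
  have r5 := r0_le h
  have tm := h.tm
  have hE := h.E
  have er : s u (48 * mt + 16) ≤ s u (48 * mt + 7) := s_anti (by omega)
  refine ⟨hd, ha ▸ cE_eq ▸ one_le_Dp 100, h1, H.tb h le_rfl ha hN le_rfl rfl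
    (fun l => Y_mono (by simp)) (fun _ _ => Nat.zero_le _) (lt_of_lt_of_le ?_ hL), fun l _ => ?_, ?_,
    ?_, ?_, ⟨(s_pos _ _).le, mul_pos (pow_pos (Yr_pos _ _) _) (s_pos _ _)⟩,
    tt.far4 h H (by norm_num) hc er, tt.lag4 h H (by norm_num) hc er,
    tt.short4 h H (by norm_num) hc er hB hθ⟩
  · have := h.qf
    rw [← Y_def]; tier! (48 * mt + 17)
  · have := lc l
    have := (hs l).2
    rw [ha, hρ]
    refine ⟨by change cN + cE ≤ cqf; unfold cqf; nlinarith, ?_⟩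
    change 4 * x u l 16 ≤ _ ∧ 4 * x u l 16 + Y u (48 * l + 26) + _ ≤ x u l 20 ∧
      _ ≤ _ + Y u (48 * l + 26) + _ ∧ x u l 13 + Y u (48 * l + 26) + _ ≤ 3 * Y u (48 * l + 26)
    have b1 : x u l 13 ≤ Y u (48 * l + 26) := Y_mono (by omega)
    have b2 : Y u (48 * l + 12) ≤ Y u (48 * l + 26) := Y_mono (by omega)
    exact ⟨by tier! (48 * l + 27), by tier! (48 * l + 27), this.trans
      ((Nat.le_add_left _ _).trans (Nat.le_add_right _ _)), by omega⟩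
  · have := lc (mt - 1)
    refine ⟨le_trans ?_ (hs _).1, ?_⟩
    · change 2 * (rD + 1 + r0 u) + 2 * S.loc (mt - 1) ≤ x u (mt - 1) 5
      tier! (48 * (mt - 1) + 15)
    · have b1 : 4 * (4 * (2 * rD + 1) ^ 3) ≤ Y u (48 * mt + 17) := by tier! (48 * (mt - 1) + 15)
      have b2 := Y_le_kT (le_refl (u * D ^ (48 * mt + 17))) le_rfl
      refine le_trans ?_ (Nat.le_self_pow three_ne_zero _)
      change 4 * (2 * rD + 1) ^ 3 ≤ 2 * (2 ^ kT u mt _ mt / 4) + 1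
      omega
  · change 2 * r0 u + 2 ≤ Y u 11
    tier! 5
  · change 2 * ctm * Y u 1 ≤ Y u 2 ∧ 2 * ctm * cE + 2 * (2 * ctm * Y u 1 + 0) ≤ Y u 2
    exact ⟨by tier! 1, by tier! 1⟩

omit ha hN in
/-- the field `nu` of `QIn`. -/
theorem qn4_nu {rD : ℕ} {W : Wd T} (hL : Y u (48 * mt + 49) ≤ L)
    (fine : 2 * (W.Bd.card + L ^ 3 * Y u 2 + 1) ≤ W.w) :
    Gl.Nu W L (lf h Dw) (qn4 u mt rD).Pg ((qn4 u mt rD).t + 1) 0 (qn4 u mt rD).j :=
  have hu := h.hu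
  (gh_gs4 hu _).nu h (gs4_ok h (Nat.le_add_left _ _) (lt_of_lt_of_le (by tier! (48 * mt + 48)) hL))
    (Nat.le_succ _) (Nat.zero_le _) fine

end Crest.Agent.N337.Par
end

-- ▼ part N337/G4/On
section

/-!
# Row 337, G4 (helper23): the inputs of the nested induction on the concrete rung
-/

set_option autoImplicit false
set_option linter.unusedSectionVars false

namespace Crest.Agent.N337.G4.On

open Finset Crest.Agent.N337.Rep Crest.Agent.N337.Free Crest.Agent.N337.Rg Crest.Agent.N337.Tr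
  Crest.Agent.N337.G4.Rs Crest.Agent.N337.G4.Sp
open Crest.Agent.N337.Arc (Fld)
open Crest.Agent.N337.I (V Ev sys)
open Crest.Agent.N337.Ld (locN)

section abs
variable {X α κ : Type} [Fintype X] [SemilatticeSup α] [Preorder κ] (S : Sys X α κ) (d m : ℕ)
  (E : α)

/-- **static junk** for an environment of class `m`. -/
def U (Z : κ) (l : ℕ) (y : X) : Prop :=
  (l < m ∧ S.Jk d E Z l y) ∨ (l = m ∧ ¬ S.Good d E Z m S.tm y)

variable {S d m E} {Z Z' : κ} {l : ℕ} {x y : X}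

lemma U.le (h : U S d m E Z l y) : l ≤ m := h.elim (·.1.le) (·.1.le)

lemma U.anti (h : U S d m E Z' l y) (hZ : Z ≤ Z') : U S d m E Z l y :=
  h.imp (And.imp_right fun k => k.mono le_rfl hZ)
    (And.imp_right fun k g => k (g.mono le_rfl le_rfl hZ le_rfl))

lemma U.jk (h : U S d m E Z l y) (hτ : S.k0 + S.oc + d ≤ S.tm) : S.Jk d E Z l y :=
  h.elim (·.2) fun k g => k.2 (k.1 ▸ g.up hτ)

lemma good (hτ : S.k0 + S.oc + d ≤ S.tm) (hl : l ≤ m) (h : ¬ U S d m E Z l y) :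
    S.Good d E Z l S.tm y := by
  rcases hl.eq_or_lt with rfl | hl
  · exact of_not_not fun k => h (.inr ⟨rfl, k⟩)
  · exact (of_not_not fun k => h (.inl ⟨hl, k⟩) : S.Good d E Z l _ y).up hτ

lemma not_U (h : ∀ z, S.d y z ≤ S.loc l → S.dead Z z) : ¬ U S d m E Z l y := by
  rintro (⟨-, k⟩ | ⟨rfl, k⟩) <;> exact k (Sys.good_dead h)

/-- the junk of level `l < m` in a cell that is not junk. -/
lemma cov_lt (hτ : S.k0 + S.oc + d ≤ S.tm) (h : S.Good d E Z (l + 1) S.tm x) :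
    ∃ F : Finset X, F.card ≤ S.N ∧ ∀ u, U S d m E Z l u →
      S.d x u + 3 * S.tm * S.H l ≤ S.ρ (l + 1) → ∃ f ∈ F, S.d f u ≤ S.rad l S.tm :=
  ⟨_, h.card_cov.trans ((Nat.le_add_right _ _).trans S.N_ge), fun _ hu k => h.jk_cov k (hu.jk hτ)⟩

/-- the junk of level `m`. -/
lemma cov_top {F : Finset X} {R : ℕ} {Z0 : κ} (h : Ld.Cls S d E Z0 m S.tm F R) (hZ : Z0 ≤ Z)
    (hu : U S d m E Z m y) : ∃ f ∈ F, S.d f y ≤ R := by
  by_contra hc
  exact (hu.resolve_left fun k => lt_irrefl _ k.1).2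
    ((h y fun f hf => lt_of_not_ge fun k => hc ⟨f, hf, k⟩).mono le_rfl le_rfl hZ le_rfl)

end abs

/-- **numerics** linking the rung `P0` to the fronts (`mt` levels, `B` windows). -/
structure NO (P0 : I.Num) (mt : ℕ) (Q : Gp) (N : Np) (B d : ℕ) : Prop where
  hl : 1 ≤ P0.l
  hτ : P0.k0 + 27 + d ≤ P0.tm
  hρ : ∀ l, (P0.tm + 1) * P0.a * (2 * P0.rad l P0.tm + 1) + 3 * P0.tm * P0.H l ≤ P0.ρ (l + 1)
  hJ : 2 * P0.tm * P0.j1 ≤ P0.r0
  hN : P0.N ≤ Q.N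
  Lam : 4 * (2 * Q.c + 2) ^ Q.N + 1 ≤ P0.Lam
  lc : ∀ l < mt, locN P0 l + 1 ≤ N.lc l
  v : ∀ l < mt, B * (2 * P0.tm * P0.j1 + P0.lw P0.tm l) ≤ N.v l
  Hc : ∀ l < mt, N.Hc l + 3 * P0.tm * P0.H l ≤ P0.ρ (l + 1)
  Sc : ∀ l < mt, P0.rad l P0.tm ≤ N.Sc l
  sep : ∀ l < mt, Q.sg l + locN P0 l ≤ P0.sep l
  Sx : ∀ l < mt, (2 * Q.c + 2) ^ Q.N * (P0.Sx l + Q.sg l) ≤ Q.Rm l
  H : ∀ l < mt, (Q.N + 1) * (2 * Q.Rm l + Q.W l + 2 * Q.dc l + Q.sg l + locN P0 l) ≤ P0.H l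

/-- the cover `(F, R0)` of the top level `m` and the distance `R1` of the claimed cells. -/
def Tp (P0 : I.Num) (mt : ℕ) (Q : Gp) (N : Np) (m nc R0 R1 : ℕ) : Prop :=
  m < mt ∧ nc ≤ Q.N ∧ R0 ≤ N.Sc m ∧
    2 * ((2 * Q.c + 2) ^ Q.N * (R0 + Q.sg m)) + Q.sg m + locN P0 m ≤ R1

variable {L n T : ℕ} [NeZero L] [NeZero T] (ex ey : Fin T → Tor 3 L × Fin n) (P0 : I.Num)
  (z0 : Tor 3 L) (G : Eg) (Q : Gp) (P : Pz) (N : Np) (B d m : ℕ) (p0 p : Fin T → ℝ)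
  (b0 : V L n T → ℝ) (E : Ev L n T) (Z0 F : Finset (Tor 3 L)) (R0 R1 : ℕ)

/-- **an environment of class `m`** with its model. -/
structure OIn : Prop where
  np : NP G Q P N n (L ^ 3 * n)
  no : NO P0 G.mt Q N B d
  hT : T = B * P0.D
  nn : ∀ s, tdist (ex s).1 (ey s).1 ≤ 1
  hp0 : ∀ s, 0 ≤ p0 s ∧ p0 s ≤ 1 / 2
  rate : ∀ l < G.mt, A.Rate ex ey (fun x y => tdist x.1 y.1) ⟨p0, fun _ => 0⟩ (N.v l + 2) (N.Kr l)
  hp : ∀ s, p s = p0 s ∨ p s = 0 ∨ p s = 1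
  pin : Fs.Pin ex ey p0 p E.2
  hb : Fld b0
  dead : ∀ v, v.2.1 ∈ Z0 → b0 v = 0
  cls : Ld.Cls (sys n T P0 z0) d E Z0 m P0.tm F R0
  top : (m ≤ G.mt ∧ F = ∅) ∨ Tp P0 G.mt Q N m F.card R0 R1

/-- the pairs. -/
def Pr (Nl : Le.Ln) (ρ0 : ℕ) (dd : ℕ → ℕ) (Z : Finset (Tor 3 L)) :
    ℕ → Tor 3 L → V L n T → V L n T → ℝ → Prop :=
  Le.Pr P0.toLf Nl E Z (fun v => b0 v ≠ 0 ∧ v.2.1 ∉ Z) ρ0 dd

variable {ex ey P0 z0 G Q P N B d m p0 p b0 E Z0 F R0 R1} {Z : Finset (Tor 3 L)} {l : ℕ}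
  {x y : Tor 3 L}

lemma loc_sys (l : ℕ) : (sys n T P0 z0).loc l = locN P0 l := by
  induction l with
  | zero => rfl
  | succ l ih => exact congrArg (P0.ρ (l + 1) + ·) ih

namespace OIn
variable (h : OIn ex ey P0 z0 G Q P N B d m p0 p b0 E Z0 F R0 R1)
include h

lemma p01 (s : Fin T) : 0 ≤ p s ∧ p s ≤ 1 := by
  have := h.hp0 s
  rcases h.hp s with e | e | e <;> rw [e] <;> constructor <;> linarith

lemma le_mt : m ≤ G.mt := h.top.elim (·.1) (·.1.le)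

/-- the top member. -/
def mem : Mem Prod.fst b0 Z0 :=
  ⟨Z0, b0, Subset.rfl, fun v => (h.hb.mem v).1, fun _ => le_rfl, h.dead⟩

/-- base cells off the junk. -/
lemma g0 (hy : ¬ U (sys n T P0 z0) d m E Z 0 y) : I.G0 P0.toLf P0.tm E Z y :=
  good (S := sys n T P0 z0) h.no.hτ (Nat.zero_le _) hy

/-- **cover of the junk** within `H` of `x`. -/
theorem cov (hl : l < G.mt) (hZ : Z0 ⊆ Z) (hx : l + 1 < G.mt → ¬ U (sys n T P0 z0) d m E Z (l + 1) x)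
    {H : ℕ} (hH : H + 3 * P0.tm * P0.H l ≤ P0.ρ (l + 1)) : ∃ F' : Finset (Tor 3 L), F'.card ≤ Q.N ∧
      ∀ u, U (sys n T P0 z0) d m E Z l u → tdist x u ≤ H → ∃ f ∈ F', tdist f u ≤ N.Sc l := by
  rcases lt_trichotomy l m with k | rfl | k
  · have : (sys n T P0 z0).Good d E Z (l + 1) P0.tm x := by
      by_cases k' : l + 1 < G.mt
      · exact good (S := sys n T P0 z0) h.no.hτ k (hx k')
      · have := h.le_mt
        obtain rfl : m = l + 1 := by omega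
        obtain ⟨-, rfl⟩ := h.top.resolve_right fun t => k' t.1
        exact (h.cls x fun _ hf => absurd hf (notMem_empty _)).mono le_rfl le_rfl hZ le_rfl
    obtain ⟨F', h1, h2⟩ := cov_lt (S := sys n T P0 z0) (m := m) h.no.hτ this
    exact ⟨F', h1.trans h.no.hN, fun u hu hd => (h2 u hu ((Nat.add_le_add_right hd _).trans hH)).imp
      fun f hf => ⟨hf.1, hf.2.trans (h.no.Sc l hl)⟩⟩
  · rcases h.top with ⟨-, rfl⟩ | t
    · exact ⟨∅, by simp, fun u hu _ => by simpa using cov_top h.cls hZ hu⟩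
    · exact ⟨F, t.2.1, fun u hu _ => (cov_top h.cls hZ hu).imp fun f hf => ⟨hf.1, hf.2.trans t.2.2.1⟩⟩
  · exact ⟨∅, by simp, fun u hu _ => absurd hu.le (by omega)⟩

theorem slow (hl : l < G.mt) (hm : l ≤ m) : A.Slow ex ey (fun x y => tdist x.1 y.1)
    (A.Cheap ex ey (fun x y => tdist x.1 y.1) ⟨p, b0⟩)
    (fun u => u.2.1 ∉ Z ∧ ¬ U (sys n T P0 z0) d m E Z l u.2.1 ∧ b0 u ≠ 0) (N.v l) := by
  refine A.Slow.mono (I.slow_all (ex := ex) (ey := ey) (dd := fun x y => tdist x.1 y.1)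
    ⟨fun _ => tdist_self _, fun _ _ => tdist_comm _ _, fun _ _ _ => tdist_triangle _ _ _, h.nn⟩ h.hT
    (I.slow_win' (E := E) (Z := Z) (z0 := z0) (d := d) (m := l)
      (Al := A.Cheap ex ey (fun x y => tdist x.1 y.1) ⟨p, b0⟩)
      (W := fun u => u.2.1 ∉ Z ∧ ¬ U (sys n T P0 z0) d m E Z l u.2.1 ∧ b0 u ≠ 0)
      h.nn h.no.hl h.no.hτ h.no.hρ h.no.hJ (fun r y hA hd hy _ => ?_) fun u hu =>
        ⟨fun k => hu.1 k.mem, good (S := sys n T P0 z0) h.no.hτ hm hu.2.1⟩))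
    (fun _ k => k) (fun _ k => k) (h.no.v l hl)
  have h1 : p r = 1 := hA.resolve_right hd
  have h2 := (h.hp0 r).2
  have h3 := ((h.pin r).resolve_left fun k => by linarith [k.2]).2 fun e => hd (by
    rw [e, tdist_self])
  rcases hy with rfl | rfl
  exacts [h3.1, h3.2]

/-- **the inputs of G4** up to the reset step. -/
theorem gin {α κ : Type} [SemilatticeSup α] [Preorder κ] {S : Sys (Tor 3 L) α κ} {Nl : Le.Ln}
    {ρ0 : ℕ} (ho : 0 ≤ Nl.o) (hr : ρ0 ≤ N.r0)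
    (rin : ∀ M : Mem Prod.fst b0 Z0, ∃ b' Lf, RIn ex ey S G Q p M.b P b'
      (U (sys n T P0 z0) d m E M.Z) Lf (Pr P0 b0 E Nl ρ0 P.dd M.Z)) :
    GIn ex ey S G Q P N p b0 Z0 (U (sys n T P0 z0) d m E) (Pr P0 b0 E Nl ρ0 P.dd) where
  np := h.np
  hp := h.p01
  hb := h.hb
  nn := h.nn
  anti _ _ _ _ hZ k := k.anti hZ
  dead l hl Z y k := not_U fun z hz z' hz' => k z' (by
    have := tdist_triangle y z z'
    have := h.no.lc l hl
    have : tdist y z ≤ locN P0 l := le_of_le_of_eq hz (loc_sys l)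
    omega)
  cov l hl Z x hZ hx := h.cov hl hZ hx (h.no.Hc l hl)
  rate l hl := (h.rate l hl).of_le le_rfl (fun s => (h.hp0 s).1) h.hp
  slow l hl := fun ⟨_, hu⟩ _ _ => h.slow hl hu.le
  mono _ _ _ _ _ _ _ hZ hv hu k :=
    Le.Pr.mono k hZ ⟨k.2.1.1, fun a => k.2.1.2 (hv a)⟩ ⟨k.2.2.1.1, fun a => k.2.2.1.2 (hu a)⟩
  pos _ _ _ _ _ _ k := by
    rcases k.2.2.2 with ⟨-, rfl⟩ | ⟨-, -, rfl⟩ | ⟨-, rfl, -⟩
    exacts [le_rfl, le_rfl, ho]
  near _ _ _ _ _ _ k := k.1.trans hr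
  rin := rin

/-- **data at all levels** for a point with isolated ancestors. -/
theorem data (hz : ∀ i < m, ∃ x, (sys n T P0 z0).Iso ((sys n T P0 z0).Jk d E Z0) i x ∧
      tdist x y ≤ locN P0 i) (hx : ∃ x, (sys n T P0 z0).Off F R1 x ∧ tdist x y ≤ locN P0 m)
    (i : ℕ) (hi : i < G.mt) : ∃ D, Val Q (U (sys n T P0 z0) d m E Z0) i D ∧
      Cd Q (U (sys n T P0 z0) d m E Z0) i D (Q.sg i) y := by
  have e0 : (∀ u, ¬ U (sys n T P0 z0) d m E Z0 i u) → ∃ D, Val Q (U (sys n T P0 z0) d m E Z0) i D ∧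
      Cd Q (U (sys n T P0 z0) d m E Z0) i D (Q.sg i) y := fun k =>
    ⟨∅, ⟨by simp, by simp, by simp, fun u hu => absurd hu (k u)⟩,
      by simp [In], fun u hu => absurd hu (k u)⟩
  rcases lt_trichotomy i m with k | rfl | k
  · obtain ⟨x, h1, h2⟩ := hz i k
    obtain ⟨D, h3, h4⟩ := pick_iso (S := sys n T P0 z0) (fun _ _ => rfl)
      (h1.mono fun u hu => U.jk (m := m) hu h.no.hτ) h.no.hN (h.no.sep i hi) h.no.Lam (h.no.Sx i hi)
      (h.no.H i hi)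
    exact ⟨D, h3, h4 y h2⟩
  · rcases h.top with ⟨-, rfl⟩ | t
    · exact e0 fun u hu => by simpa using cov_top h.cls le_rfl hu
    obtain ⟨x, h1, h2⟩ := hx
    obtain ⟨D, h3, h4⟩ := pick_gen (Q := Q) (U := U (sys n T P0 z0) d i E Z0) (l := i) (x := x)
      (e := locN P0 i) t.2.1 (fun u hu _ => cov_top h.cls le_rfl hu) le_rfl
      ((Nat.mul_le_mul_left _ (Nat.add_le_add_right t.2.2.1 _)).trans (h.np.Rm i hi))
      (fun f hf => by rw [tdist_comm]; exact t.2.2.2.trans_lt (h1 f hf)) le_rfl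
    exact ⟨D, h3, h4 y h2⟩
  · exact e0 fun u hu => absurd hu.le (by omega)

/-- **G4, Green part, on the rung**: the claims at a point with isolated ancestors. -/
theorem bd {α κ : Type} [SemilatticeSup α] [Preorder κ] {S : Sys (Tor 3 L) α κ} {Nl : Le.Ln}
    {ρ0 : ℕ} (ho : 0 ≤ Nl.o) (hr : ρ0 ≤ N.r0) (h1 : 1 ≤ G.mt)
    (rin : ∀ M : Mem Prod.fst b0 Z0, ∃ b' Lf, RIn ex ey S G Q p M.b P b'
      (U (sys n T P0 z0) d m E M.Z) Lf (Pr P0 b0 E Nl ρ0 P.dd M.Z))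
    (hz : ∀ i < m, ∃ x, (sys n T P0 z0).Iso ((sys n T P0 z0).Jk d E Z0) i x ∧
      tdist x y ≤ locN P0 i) (hx : ∃ x, (sys n T P0 z0).Off F R1 x ∧ tdist x y ≤ locN P0 m) :
    Fr (U (sys n T P0 z0) d m E Z0) 0 (Q.sg 0) y ∧
      ∀ l ≤ G.mt, Bd ex ey p b0 (Pr P0 b0 E Nl ρ0 P.dd Z0) l y (P.γ l) :=
  ⟨(h.data hz hx 0 h1).elim fun _ k => k.2.fr, fun _ hl =>
    g4_pt (h.gin ho hr rin) h.mem hl fun i _ hi => h.data hz hx i hi⟩

end OIn

/-- **the configurations of the cell claims** (`Uk` = extra killed points). -/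
theorem of_ad {W : M.Bs T (Tor 3 L × Fin n)} (hW : W.Ok) (hd : W.d = fun x y => tdist x.1 y.1)
    {Sd : Finset (V L n T) → Prop} {nc : ℕ} {s : M.Cfg T (Tor 3 L × Fin n)} {y : ℝ} (h0 : 0 ≤ y)
    (h1 : y < 1) (np : NP G Q P N n (L ^ 3 * n)) (no : NO P0 G.mt Q N B d) (hT : T = B * P0.D)
    (rate : ∀ l < G.mt, A.Rate W.ex W.ey W.d ⟨W.p, fun _ => 0⟩ (N.v l + 2) (N.Kr l))
    (h : Ld.Ad (I.ins W.ex W.ey P0 z0) W Sd d m nc R0 s F)
    (top : (m ≤ G.mt ∧ F = ∅) ∨ Tp P0 G.mt Q N m nc R0 R1) (Uk : Finset (V L n T)) :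
    OIn W.ex W.ey P0 z0 G Q P N B d m W.p (W.pn s) (W.mdl y (s.rev ∅ Uk)).b (I.ev W.ex W.ey s.e)
      (I.kil s.Z) F R0 R1 where
  np := np
  no := no
  hT := hT
  nn r := by have := hW.d.2.2.2 r; rwa [hd] at this
  hp0 := hW.p
  rate := hd ▸ rate
  hp r := by simp only [M.Bs.pn, Gas.pin]; split_ifs <;> simp
  pin := Le.pin_loops (fun r => (hW.p r).1) _
  hb := Fld.kill ⟨fun v => by
    unfold Top.bt; split_ifs; exacts [⟨h0, h1.le⟩, ⟨zero_le_one, le_rfl⟩],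
    fun x => by simpa [Top.bt] using h1⟩ _
  dead v hv := if_pos (mem_union_left _ (mem_union_left _ (I.mem_of_kil hv)))
  cls := h.cl
  top := top.imp_right fun t => ⟨t.1, h.card.trans t.2.1, t.2.2⟩

end Crest.Agent.N337.G4.On
end

-- ▼ part N337/G4/Final
section

/-!
# Row 337, G4 (helper50): failing trees of the down loops are rare (`F1`, `N1`)
-/

set_option autoImplicit false
set_option linter.unusedSectionVars false

namespace Crest.Agent.N337.G4.Rs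

open Finset Crest.Agent.N337.Rep Crest.Agent.N337.Free Crest.Agent.N337.Rg Crest.Agent.N337.Tr
  Crest.Agent.N337.G4.Sp
open Crest.Agent.N337.Arc (Fld)

variable {L n T : ℕ} [NeZero L] [NeZero T] {ex ey : Fin T → Tor 3 L × Fin n}

section gen
variable {α κ : Type} [SemilatticeSup α] [Preorder κ] {S S' : Sys (Tor 3 L) α κ} {G : Eg} {Q : Gp}
  {P : Pz} {N : Np} {p : Fin T → ℝ} {b0 b' : Pt L n T → ℝ} {Z0 : Finset (Tor 3 L)}
  {U : Finset (Tor 3 L) → ℕ → Tor 3 L → Prop}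
  {Pr : Finset (Tor 3 L) → ℕ → Tor 3 L → Pt L n T → Pt L n T → ℝ → Prop}
  {Lf : CR T (Tor 3 L × Fin n) → Tor 3 L → Prop} {m : ℕ}

/-- a point with a datum at every level is a good leaf. -/
theorem gl_pt (h : GIn ex ey S' G Q P N p b0 Z0 U Pr) {M : Mem Prod.fst b0 Z0}
    (I : RIn ex ey S' G Q p M.b P b' (U M.Z) Lf (Pr M.Z)) (hρ : S.ρ 0 = S'.ρ 0) (hm : m ≤ G.mt)
    {y : Tor 3 L} (hy : ∀ i < G.mt, ∃ D, Val Q (U M.Z) i D ∧ Cd Q (U M.Z) i D (Q.sg i) y) :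
    Gl ex ey S p M.b P Lf (m + 1) y := by
  obtain ⟨D, -, h0⟩ := hy 0 I.ng.mt
  have a1 := (h.np.ρ 0 I.ng.mt).1
  obtain ⟨a2, a3⟩ := h.np.σ 0 I.ng.mt
  have a4 := Nat.mul_le_mul_right (Q.un 0) ((Nat.le_add_right _ _).trans a2)
  have := I.gl (m := m) (h0.fr.near (by rw [tdist_self]; omega)) fun k hk v u o hv =>
    (g4_pt h M (hk.trans hm) (fun i _ => hy i) v u o hv).trans
      (by have := (h.np.γ k).1; linarith)
  unfold Gl at this ⊢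
  rwa [hρ]

/-- numerics of the data of isolated cells below the level `m`. -/
structure NI (S : Sys (Tor 3 L) α κ) (Q : Gp) (m : ℕ) : Prop where
  N : S.N ≤ Q.N
  Lam : 4 * (2 * Q.c + 2) ^ Q.N + 1 ≤ S.Lam
  sep : ∀ l < m, Q.sg l + S.loc l ≤ S.sep l
  Rm : ∀ l < m, (2 * Q.c + 2) ^ Q.N * (S.Sx l + Q.sg l) ≤ Q.Rm l
  H : ∀ l < m, (Q.N + 1) * (2 * Q.Rm l + Q.W l + 2 * Q.dc l + Q.sg l + S.loc l) ≤ S.H l

lemma dat_empty {V : ℕ → Tor 3 L → Prop} {i r : ℕ} (h : ∀ u, ¬ V i u) (y : Tor 3 L) :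
    ∃ D, Val Q V i D ∧ Cd Q V i D r y :=
  ⟨∅, ⟨by simp, by simp, by simp, fun u hu => absurd hu (h u)⟩, by simp [In],
    fun u hu => absurd hu (h u)⟩

/-- **trees of isolated cells**: `J` contains the junk below the level `c`, the junk of level `c`
lies in the balls `(F, R0)`, no junk above. -/
theorem pr_iso (h : GIn ex ey S' G Q P N p b0 Z0 U Pr) {M : Mem Prod.fst b0 Z0}
    (I : RIn ex ey S' G Q p M.b P b' (U M.Z) Lf (Pr M.Z)) (hρ : S.ρ 0 = S'.ρ 0) (hm : m ≤ G.mt)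
    (nt : NT S P (m + 1)) {J : ℕ → Tor 3 L → Prop} {c R0 R k t : ℕ} (ni : NI S Q c) (hc : m ≤ c)
    {F A : Finset (Tor 3 L)} (hF : F.card ≤ Q.N) (u1 : ∀ l < c, ∀ u, U M.Z l u → J l u)
    (u2 : ∀ u, U M.Z c u → ∃ f ∈ F, tdist f u ≤ R0) (u3 : ∀ l, c < l → ∀ u, ¬ U M.Z l u)
    (hR : F.Nonempty → c = m ∧ (2 * Q.c + 2) ^ Q.N * (R0 + Q.sg m) ≤ R ∧ R ≤ Q.Rm m ∧
      ∀ f ∈ F, ∀ y ∈ A, 2 * R + Q.sg m + S.loc m < tdist y f)
    (hI : ∀ y ∈ A, ∀ i, m ≤ i → i < c → i = m ∧ S.Iso J m y) {x : Tor 3 L} (hk : k ≤ S.a1)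
    (ht : A.card ≤ t) (hA : ∀ y ∈ A, tdist x y ≤ S.ρ (m + 1)) :
    PR ex ey p M.b (fun ω => FT S (S.Iso J) (Lf ω) A k m) ≤ (t * P.ε m) ^ (k + 1) := by
  refine tree h.hp (M.fld h.hb) nt hk ht hA fun z hz h1 h2 => gl_pt h I hρ hm fun i _ => ?_
  have iso : ∀ i ≤ m, i < c → S.Iso J i (z i) →
      ∃ D, Val Q (U M.Z) i D ∧ Cd Q (U M.Z) i D (Q.sg i) (z 0) := fun i a b k =>
    (pick_iso nt.d (e := S.loc i) (U := U M.Z) (by
      obtain ⟨s, F, a1, a2, a3, a4, a5⟩ := k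
      exact ⟨s, F, a1, a2, a3, fun u hu => a4 u (u1 i b u hu), a5⟩) ni.N (ni.sep i b) ni.Lam
      (ni.Rm i b) (ni.H i b)).imp fun D hD => ⟨hD.1, hD.2 _ (by have := h2 i a; omega)⟩
  rcases lt_or_ge i m with a | a
  · exact iso i a.le (by omega) (h1 i a)
  rcases lt_trichotomy i c with b | rfl | b
  · obtain ⟨rfl, k⟩ := hI _ hz i a b
    exact iso i le_rfl b k
  · rcases F.eq_empty_or_nonempty with rfl | e
    · exact dat_empty (fun u hu => by simpa using u2 u hu) _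
    obtain ⟨rfl, b1, b2, b3⟩ := hR e
    exact (pick_gen (e := S.loc i) hF (fun u hu _ => u2 u hu) b1 b2 (fun f hf => b3 f hf _ hz)
      le_rfl).imp fun D hD => ⟨hD.1, hD.2 _ (by have := h2 i a; omega)⟩
  · exact dat_empty (u3 i b) _

/-- one failing cell off the balls. -/
theorem pr_fl (h : GIn ex ey S' G Q P N p b0 Z0 U Pr) {M : Mem Prod.fst b0 Z0}
    (I : RIn ex ey S' G Q p M.b P b' (U M.Z) Lf (Pr M.Z)) (hρ : S.ρ 0 = S'.ρ 0) (hm : m ≤ G.mt)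
    (nt : NT S P (m + 1)) {J : ℕ → Tor 3 L → Prop} {R0 R1 R : ℕ} (ni : NI S Q m)
    {F : Finset (Tor 3 L)} (hF : F.card ≤ Q.N) (u1 : ∀ l < m, ∀ u, U M.Z l u → J l u)
    (u2 : ∀ u, U M.Z m u → ¬ S.Off F R0 u) (u3 : ∀ l, m < l → ∀ u, ¬ U M.Z l u)
    (hR : F.Nonempty → (2 * Q.c + 2) ^ Q.N * (R0 + Q.sg m) ≤ R ∧ R ≤ Q.Rm m ∧
      2 * R + Q.sg m + S.loc m ≤ R1) {x : Tor 3 L} (hx : S.Off F R1 x) :
    PR ex ey p M.b (fun ω => S.Fl J (Lf ω) m x) ≤ P.ε m := by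
  refine (PR_mono h.hp (M.fld h.hb).mem fun ω _ k => ?_).trans ((pr_iso h I hρ hm nt ni le_rfl
    (A := {x}) (R0 := R0) (R := R) (k := 0) (t := 1) (x := x) hF u1 (fun u hu => ?_) u3
    (fun e => ⟨rfl, (hR e).1, (hR e).2.1, fun f hf y hy => ?_⟩) (fun _ _ i a b => by omega)
    (Nat.zero_le _) (by simp) (by simp [tdist_self])).trans (by simp))
  · exact ⟨{x}, rfl, by simpa using fl_iff.1 k, by simp⟩
  · simpa [Sys.Off, nt.d] using u2 u hu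
  · have := hx f hf
    have := (hR e).2.2
    rw [mem_singleton.1 hy, tdist_comm, ← nt.d]
    omega

/-- one isolated failing child; no junk above. -/
theorem pr_fn (h : GIn ex ey S' G Q P N p b0 Z0 U Pr) {M : Mem Prod.fst b0 Z0}
    (I : RIn ex ey S' G Q p M.b P b' (U M.Z) Lf (Pr M.Z)) (hρ : S.ρ 0 = S'.ρ 0) (hm : m ≤ G.mt)
    (nt : NT S P (m + 1)) {J : ℕ → Tor 3 L → Prop} (ni : NI S Q (m + 1))
    (u1 : ∀ l ≤ m, ∀ u, U M.Z l u → J l u) (u3 : ∀ l, m < l → ∀ u, ¬ U M.Z l u) (x : Tor 3 L) :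
    PR ex ey p M.b (fun ω => S.Fn J (Lf ω) 0 m x) ≤ (2 * S.ρ (m + 1) + 1 : ℕ) ^ 3 * P.ε m := by
  classical
  refine (PR_mono h.hp (M.fld h.hb).mem fun ω _ k => ?_).trans ((pr_iso h I hρ hm nt ni (Nat.le_succ m)
    (A := univ.filter fun y => tdist x y ≤ S.ρ (m + 1) ∧ S.Iso J m y) (F := ∅) (R0 := 0) (R := 0)
    (k := 0) (t := (2 * S.ρ (m + 1) + 1) ^ 3) (x := x) (by simp) (fun l hl => u1 l (by omega))
    (fun u hu => absurd hu (u3 _ (by omega) u)) (fun l hl => u3 l (by omega)) (by simp)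
    (fun y hy i a b => ⟨by omega, (mem_filter.1 hy).2.2⟩) (Nat.zero_le _)
    ((card_le_card fun y hy => mem_filter.2 ⟨mem_univ _, (mem_filter.1 hy).2.1⟩).trans
      (card_ball_le x _)) fun y hy => (mem_filter.1 hy).2.1).trans (by simp))
  exact Sys.Sepd.mono k fun y hy => ⟨mem_filter.2 ⟨mem_univ _, nt.d x y ▸ hy.1, hy.2.1⟩,
    fl_iff.1 hy.2.2⟩

end gen

/-! ### the claims `F1`, `N1` on the torus rung -/

section ins
open Crest.Agent.N337.M (Bs Cfg yw)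
open Crest.Agent.N337.I (V Ev kil ins sys)

/-- the field of the down loops of `s` with the extra killed points `W`. -/
def bK (y : ℝ) (s : Cfg T (Tor 3 L × Fin n)) (W : Finset (V L n T)) : V L n T → ℝ :=
  Gas.kill (Top.bt y) (s.rev ∅ W).K

variable (Gb : Bs T (Tor 3 L × Fin n)) (P0 : I.Num) (z0 : Tor 3 L)
  (S' : Sys (Tor 3 L) (Ev L n T) (Finset (Tor 3 L))) (G : Eg) (Q : Gp) (P : Pz)

/-- **all inputs of G4** in the configuration `s`, class of level `c` (`S'` = internal system). -/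
def Has (y : ℝ) (d c : ℕ) (s : Cfg T (Tor 3 L × Fin n)) (W : Finset (V L n T)) : Prop :=
  ∃ N U Pr, GIn Gb.ex Gb.ey S' G Q P N (Gb.pn s) (bK y s W) (kil s.Z) U Pr ∧
    (∀ M : Mem Prod.fst (bK y s W) (kil s.Z), ∃ b', RIn Gb.ex Gb.ey S' G Q (Gb.pn s) M.b P b' (U M.Z)
      (Le.Lw Gb.ex Gb.ey P0.toLf (I.ev Gb.ex Gb.ey s.e) M.Z) (Pr M.Z)) ∧
    ∀ l u, U (kil s.Z) l u → (l < c ∧ (sys n T P0 z0).Jk d (I.ev Gb.ex Gb.ey s.e) (kil s.Z) l u) ∨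
      (l = c ∧ ¬ (sys n T P0 z0).Good d (I.ev Gb.ex Gb.ey s.e) (kil s.Z) c P0.tm u)

variable {Gb P0 z0 S' G Q P} {y ε : ℝ} {d m nc R0 R1 R : ℕ} {s : Cfg T (Tor 3 L × Fin n)}
  {W : Finset (V L n T)} {Sd : Finset (V L n T) → Prop}

/-- the member with nothing more killed. -/
def M0 (h : Fld (bK y s W)) : Mem Prod.fst (bK y s W) (kil s.Z) :=
  ⟨kil s.Z, bK y s W, Subset.rfl, fun v => (h.mem v).1, fun _ => le_rfl, fun _ hv =>
    if_pos (mem_union_left _ (mem_union_left _ (I.mem_of_kil hv)))⟩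

/-- from the red set to the gas. -/
theorem pb_le (hp : ∀ r, 0 ≤ Gb.pn s r ∧ Gb.pn s r ≤ 1) (hb : Fld (bK y s W))
    {A : (Tor 3 L → Prop) → Prop} (hA : ∀ f g, (∀ x, f x → g x) → A f → A g) {Z : Finset (Tor 3 L)}
    {E : Ev L n T} : Ld.pb (Op.ex (Gb.gs (yw y) (s.rev ∅ W)))
      (fun w => A (I.W0 P0.toLf (I.ev Gb.ex Gb.ey w) E Z)) ≤
      PR Gb.ex Gb.ey (Gb.pn s) (bK y s W) fun ω => A (Le.Lw Gb.ex Gb.ey P0.toLf E Z ω) := by
  classical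
  have e : Gb.gs (yw y) (s.rev ∅ W) =
      Gas.nu (Gas.qq Gb.ex Gb.ey (Gb.pn s)) (Gas.ub (bK y s W)) := by
    rw [bK, Gas.ub_kill]
    simp only [Bs.gs, Bs.q, Bs.pn, Cfg.u, yw, Cfg.rev, union_empty]
  rw [Ld.pb_eq, e]
  exact gas_le_PR hp hb.mem fun ω w _ h1 h2 => hA _ _ fun x k =>
    I.W0.mono k (I.ev_eq h1 ▸ I.evp_mono h2)

/-- **F1.** -/
theorem f1 (nt : NT (sys n T P0 z0) P (m + 1)) (ni : NI (sys n T P0 z0) Q m)
    (hρ : P0.ρ 0 = S'.ρ 0) (hm : m ≤ G.mt) (hn : nc ≤ Q.N)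
    (hR : nc ≠ 0 → (2 * Q.c + 2) ^ Q.N * (R0 + Q.sg m) ≤ R ∧ R ≤ Q.Rm m ∧
      2 * R + Q.sg m + (sys n T P0 z0).loc m ≤ R1) (hε : P.ε m ≤ ε)
    (H : ∀ s F W, Ld.Ad (ins Gb.ex Gb.ey P0 z0) Gb Sd d m nc R0 s F → Has Gb P0 z0 S' G Q P y d m s W) :
    Ld.F1 (ins Gb.ex Gb.ey P0 z0) Gb Sd y d m nc R0 R1 ε := fun s F x W a hx => by
  obtain ⟨N, U, Pr, h, hI, hU⟩ := H s F W a
  obtain ⟨b', I⟩ := hI (M0 h.hb)
  refine (pb_le h.hp h.hb (A := fun f => (sys n T P0 z0).Fl _ f m x)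
    fun f g k k' => k'.mono (fun _ _ h => h) k).trans ((pr_fl h I hρ hm nt ni (a.card.trans hn)
      (fun l hl u hu => ?_) (fun u hu k => ?_) (fun l hl u hu => ?_)
      (fun e => hR (by have := card_pos.2 e; have := a.card; omega)) hx).trans hε)
  · exact (hU l u hu).elim (·.2) fun k => absurd k.1 hl.ne
  · exact (hU m u hu).elim (fun k => absurd k.1 (lt_irrefl _)) fun k' => k'.2 (a.cl u k)
  · exact (hU l u hu).elim (fun k => absurd k.1 (by omega)) fun k => absurd k.1 hl.ne'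

/-- **N1.** -/
theorem n1 (nt : NT (sys n T P0 z0) P (m + 1)) (ni : NI (sys n T P0 z0) Q (m + 1))
    (hρ : P0.ρ 0 = S'.ρ 0) (hm : m ≤ G.mt)
    (hε : (2 * P0.ρ (m + 1) + 1 : ℕ) ^ 3 * P.ε m ≤ ε)
    (H : ∀ s, Ld.Ad (ins Gb.ex Gb.ey P0 z0) Gb Sd d (m + 1) 0 0 s ∅ →
      Has Gb P0 z0 S' G Q P y d (m + 1) s ∅) :
    Ld.N1 (ins Gb.ex Gb.ey P0 z0) Gb Sd y d m ε := fun s x a => by
  obtain ⟨N, U, Pr, h, hI, hU⟩ := H s a
  obtain ⟨b', I⟩ := hI (M0 h.hb)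
  have := (pb_le (W := ∅) h.hp h.hb (P0 := P0) (A := fun f => (sys n T P0 z0).Fn _ f 0 m x)
    fun f g k k' => Sys.Sepd.mono k' fun y hy =>
      ⟨hy.1, hy.2.1, hy.2.2.mono (fun _ _ h => h) k⟩).trans ((pr_fn h I hρ hm nt ni
      (fun l hl u hu => (hU l u hu).elim (·.2) fun k => absurd k.1 (by omega))
      (fun l hl u hu => (hU l u hu).elim (fun k => absurd k.1 (by omega))
        fun k => k.2 (a.cl.all u)) x).trans hε)
  rwa [Ld.rev_empty] at this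

end ins

end Crest.Agent.N337.G4.Rs
end

-- ▼ part N337/Par/G4b
section

/-!
# Row 337 (helper42): the numbers of G4 for the objects of `Par/Defs`
-/

set_option autoImplicit false
set_option linter.unusedSectionVars false

namespace Crest.Agent.N337.Par

open Finset Crest.Agent.N337.Free Crest.Agent.N337.Rg Crest.Agent.N337.Tr G4

/-- the fronts. -/
abbrev gp5 (u : ℕ) : Rs.Gp := gp4 u cN cc

/-- the paths: speed and junk range `x l 1`, covers `x l 13`, rates `x l 2`. -/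
def np5 (u mt vol : ℕ) : Sp.Np :=
  np4 u mt vol (fun l => x u l 1) (fun l => x u l 1) (fun l => x u l 13) fun l => x u l 2

variable {n u : ℕ} (h : Bg n u) {L T : ℕ} [NeZero L] [NeZero T] (z0 : Tor 3 L) (Dw sp : ℕ)
  (hs : sp ≤ 12) {mt m B d : ℕ}
include h

lemma a1_ok : 2 * D ^ 48 ≤ cE + 1 ∧ 2 * (cE + 1) ≤ Y u 0 := by
  refine ⟨?_, le_trans (Nat.le_self_pow (by norm_num) _) h.Q⟩
  have h1 := Dp_le_cE (j := 49) (by norm_num)
  have h2 := Nat.mul_le_mul_left (D ^ 48) D_ge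
  rw [pow_succ] at h1
  generalize D ^ 48 = a at *
  omega

lemma locN_le (l : ℕ) : Ld.locN (num h Dw sp hs) l ≤ 2 * x u l 0 :=
  (On.loc_sys (n := n) (T := 1) (z0 := (0 : Tor 3 1)) l).ge.trans (loc_le h Dw sp hs 0 l)

lemma pb_locN (l : ℕ) : Pb u (48 * l + 11) 2 (Ld.locN (num h Dw sp hs) l) :=
  (locN_le h Dw sp hs l).trans ((Pb.num h.hu (by norm_num)).mul (.tier le_rfl))


/-- the internal system (`sp = 5, 6, 7`). -/
theorem h4 (h5 : 5 ≤ sp) (h7 : sp ≤ 7) (hm : 1 ≤ mt) (hL : x u mt 0 ≤ L) :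
    H4 u (I.sys n T (num h Dw sp hs) z0) (eg u Dw mt) cN cc := by
  have hu := h.hu
  have hE := h.E
  refine ⟨hu, fun _ _ => rfl, a1_ok h, fun _ => rfl, fun l _ => ⟨Y_mono (by omega), ?_⟩,
    ⟨le_rfl, ?_, h.c⟩, ?_, fun l _ => Y_mono (by omega), fun l _ => ?_, fun l _ => le_rfl,
    fun l _ => ⟨Y_mono (by omega), le_rfl⟩, fun l _ => Y_mono (by omega), fun l hl => ?_, hm⟩
  · refine (Y_mono (k' := 48 * l + 11 + 7) (by omega)).trans ?_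
    have h1 : 0 < cE := (one_le_Dp 0).trans (Dp_le_cE (by norm_num))
    change _ ≤ 4 * x u l 7 * (x u l 8 * cE)
    exact (Nat.le_mul_of_pos_left _ (by norm_num)).trans
      (Nat.le_mul_of_pos_right _ (Nat.mul_pos (Y_pos _ _) h1))
  · change 1 ≤ cc
    unfold cc; omega
  · change cN + cE ≤ cN0 + (cE + 1) * cN + (cE + 1) + (cN0 + 27 * cE)
    unfold cN0; omega
  · change Pb u _ _ (4 * x u l 7 * (x u l 8 * cE))
    apply Pb.mono
    · p_bd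
    · norm_num
  · have hl' : l < mt := hl
    refine lt_of_lt_of_le (b := x u (l + 1) 0) ?_ ((Y_mono (by omega)).trans hL)
    change 2 * (2 * x u l 18 + x u l 15) < _
    tier! (48 * l + 29)

theorem np5_ok (vol : ℕ) : Sp.NP (eg u Dw mt) (gp5 u) (pz4 u) (np5 u mt vol) n vol :=
  np4_ok (G := eg u Dw mt) h.hu (fac_le h (by norm_num)) h.hn h.N h.mg (fun _ _ => le_rfl)
    (fun _ _ => Y_mono (by omega)) (fun _ _ => le_rfl) fun _ _ => le_rfl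

omit h in
lemma Lam_ge : 4 * (2 * cc + 2) ^ cN + 1 ≤ cLam := Nat.le_add_left _ _

lemma sep5 (l : ℕ) : (gp5 u).sg l + Ld.locN (num h Dw 12 le_rfl) l ≤ x u l 12 := by
  have hu := h.hu
  have h1 := (pb_locN h Dw 12 le_rfl l).up (by norm_num) (Nat.lt_succ_self _)
  simp only [gp4]
  tier! (48 * l + 22)

lemma Sx5 (l : ℕ) : (2 * cc + 2) ^ cN * (cS * x u l 12 + (gp5 u).sg l) ≤ (gp5 u).Rm l := by
  have hu := h.hu
  have h1 := h.mg
  have h2 := Sx_le h l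
  simp only [gp4]
  generalize (2 * cc + 2) ^ cN = a at *
  generalize cS * x u l 12 = b at *
  tier! (48 * l + 24)

lemma H5 (l : ℕ) : (cN + 1) * (2 * (gp5 u).Rm l + (gp5 u).W l + 2 * (gp5 u).dc l + (gp5 u).sg l +
    Ld.locN (num h Dw 12 le_rfl) l) ≤ x u l 20 := by
  have hu := h.hu
  have h1 := (pb_locN h Dw 12 le_rfl l).up (by norm_num) (Nat.lt_succ_self _)
  have h2 := h.N
  simp only [gp4]
  tier! (48 * l + 30)

theorem no5 (hB : B ≤ Y u 11) (hd : d ≤ 176) (vol : ℕ) :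
    On.NO (num h Dw 12 le_rfl) mt (gp5 u) (np5 u mt vol) B d := by
  have hu := h.hu
  have ht := h.tm
  refine ⟨ll_pos u, ?_, hρ h Dw 12 le_rfl (Nat.le_add_right _ _),
    hJ h Dw 12 le_rfl (Nat.le_add_right _ _), le_rfl, Lam_ge, fun l _ => ?_, fun l _ => ?_,
    fun l _ => ?_, fun l _ => (rad_le h Dw 12 le_rfl (Nat.le_add_right _ _)).trans (Sx_le h l),
    fun l _ => sep5 h Dw l, fun l _ => Sx5 h l, fun l _ => H5 h Dw l⟩
  · change ck0 + 27 + d ≤ ctm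
    unfold ctm; omega
  · have h1 := pb_locN h Dw 12 le_rfl l
    change _ ≤ x u l 1
    tier! (48 * l + 11)
  · have h1 := lw_le h Dw 12 le_rfl (Nat.le_add_right ctm 13) l
    change B * (2 * ctm * Y u 1 + (num h Dw 12 le_rfl).lw ctm l) ≤ x u l 1
    tier! (48 * l + 11)
  · change Y u (48 * l + 31) + 3 * ctm * x u l 20 ≤ x u (l + 1) 0
    tier! (48 * l + 31)


/-- geometric margins. -/
lemma margin {R0 R1 : ℕ} (h0 : x u m 12 ≤ R0) (h1 : (cLam + 1) * R0 ≤ R1) :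
    2 * ((2 * cc + 2) ^ cN * (R0 + (gp5 u).sg m)) + (gp5 u).sg m + Ld.locN (num h Dw 12 le_rfl) m ≤ R1 := by
  have h2 := sep5 h Dw m
  have h3 := Nat.mul_le_mul_right R0 Lam_ge
  have h4 := Nat.mul_le_mul_left ((2 * cc + 2) ^ cN) (show R0 + (gp5 u).sg m ≤ 2 * R0 by omega)
  nlinarith




/-- the rates of the word. -/
lemma Kw_le5 {β : ℝ} (hB : ⌊β⌋₊ + 1 ≤ Y u 11) (l : ℕ) : A.Kw n β (x u l 1 + 2) ≤ x u l 2 := by
  have hu := h.hu
  have hn := h.hn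
  unfold A.Kw
  tier! (48 * l + 12)

end Crest.Agent.N337.Par
end

-- ▼ part N337/G4/Has
section

/-!
# Row 337, G4 (helper50): `F1` and `N1` from the word and numbers
-/

set_option autoImplicit false
set_option linter.unusedSectionVars false

namespace Crest.Agent.N337.G4.Rs

open Finset Crest.Agent.N337.Rep Crest.Agent.N337.Free Crest.Agent.N337.Rg Crest.Agent.N337.Tr
  Crest.Agent.N337.G4.Sp
open Crest.Agent.N337.M (Bs Cfg)
open Crest.Agent.N337.I (V Ev kil ins sys)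
open Crest.Agent.N337.Ld (locN)

variable {L n T : ℕ} [NeZero L] [NeZero T] (W : Gl.Wd T) (Gb : Bs T (Tor 3 L × Fin n)) (P0 : I.Num)
  (z0 : Tor 3 L) (S' : Sys (Tor 3 L) (Ev L n T) (Finset (Tor 3 L))) (G : Eg) (Q : Gp) (P : Pz)
  (N : Np) (Nl : Le.Ln) (K : Qu.Qn)

/-- **the word and the numbers of G4** (`S'` = internal system, `d` = dense parties). -/
structure Pk4 (y θ : ℝ) (d : ℕ) : Prop where
  wr : C9.Wr W Gb P0.toLf y
  er : W.er L n ≤ K.er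
  half : ∀ s, 1 / 2 ≤ W.b0 s
  rate : ∀ l < G.mt, A.Rate Gb.ex Gb.ey Gb.d ⟨Gb.p, fun _ => 0⟩ (N.v l + 2) (N.Kr l)
  ok : Le.Ok Gb.ex Gb.ey P0.toLf Nl W.p0 W.E0 W.w W.B θ (S'.ρ 0)
  nu : Gl.Nu W L P0.toLf K.Pg (K.t + 1) 0 K.j
  qn : Qu.QN S' G Q P P0.toLf Nl K n W.B W.w θ (G1.Cg W.κ)
  np : NP G Q P N n (L ^ 3 * n)
  no : On.NO P0 G.mt Q N W.B d
  nt : NT S' P G.mt
  ng : NG S' G Q
  sum : ∀ l ≤ G.mt, ∑ i ∈ Ico l G.mt, ((2 * Q.A i + 1 : ℕ) ^ 3 * P.ε i +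
    ((2 * S'.ρ (i + 1) + 1 : ℕ) ^ 3 * P.ε i) ^ (S'.a1 + 1)) ≤ P.γ l / 2
  k0 : P0.n1 + 1 ≤ P.k0 ∧ 6 * Nl.k ≤ P.k0
  c1 : Le.cC P0.toLf Nl n W.B W.w θ ≤ P.η ^ 2
  c2 : Le.cP P0.toLf Nl n W.B (2 * P.γ 0) P.cF ≤ P.η ^ 2
  /-- the internal system -/
  int : S'.a1 = P0.a1 ∧ S'.ρ = P0.ρ ∧ ∀ l, S'.sep l ≤ P0.sep l
  r0 : S'.ρ 0 ≤ N.r0
  t : P0.tm ≤ K.t
  cv : ∀ l < G.mt, K.Hc l + 3 * P0.tm * P0.H l ≤ P0.ρ (l + 1) ∧ N.Sc l ≤ K.Sc l

variable {W Gb P0 z0 S' G Q P N Nl K} {y θ ε : ℝ} {d m nc R0 R1 : ℕ} {Sd : Finset (V L n T) → Prop}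

theorem Pk4.has (h : Pk4 W Gb P0 S' G Q P N Nl K y θ d) {s : Cfg T (Tor 3 L × Fin n)}
    {F : Finset (Tor 3 L)} (a : Ld.Ad (ins Gb.ex Gb.ey P0 z0) Gb Sd d m nc R0 s F)
    (top : (m ≤ G.mt ∧ F = ∅) ∨ On.Tp P0 G.mt Q N m nc R0 R1)
    (dom : ∃ x0, ∀ z ∉ kil s.Z, tdist x0 z ≤ K.rD) (U : Finset (V L n T)) :
    Has Gb P0 z0 S' G Q P y d m s U := by
  have w := h.wr
  have o := On.of_ad w.ok w.d w.Y0 w.Y1 h.np h.no w.wd.hT h.rate a top U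
  obtain ⟨ξ0, -, hξ⟩ := Gas.qq_supp a.val
  have rin : ∀ M : Mem Prod.fst (bK y s U) (kil s.Z), RIn Gb.ex Gb.ey S' G Q (Gb.pn s) M.b P _
      (On.U (sys n T P0 z0) d m (I.ev Gb.ex Gb.ey s.e) M.Z)
      (Le.Lw Gb.ex Gb.ey P0.toLf (I.ev Gb.ex Gb.ey s.e) M.Z)
      (On.Pr P0 (bK y s U) (I.ev Gb.ex Gb.ey s.e) Nl (S'.ρ 0) P.dd M.Z) := fun M =>
    Qu.QIn.rin (K := K) (W := W) (θ := θ) ⟨h.qn, w.wd, h.er, h.half, h.nu, h.ok,
      ⟨o.p01, fun r hr => by rw [w.p0]; exact if_neg hr, I.rp_ev _ hξ⟩, w.p0 ▸ o.pin, M.fld o.hb,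
      fun v hv => ⟨fun e => hv (le_antisymm (e ▸ M.le v) (M.nn v)), fun e => hv (M.dead v e)⟩,
      fun v hv => ⟨fun e => hv.1 (if_pos (mem_union_right _ (by
        rw [Cfg.rev, union_empty]; exact e))), hv.2⟩,
      dom.imp fun x0 k z hz => k z fun e => hz (M.sub e),
      fun c hc i => (o.g0 hc i).mono h.t le_rfl Subset.rfl,
      fun l hl x hx => (o.cov hl M.sub hx (h.cv l hl).1).imp fun A k => ⟨k.1, fun u hu e =>
        (k.2 u hu e).imp fun f hf => ⟨hf.1, hf.2.trans (h.cv l hl).2⟩⟩⟩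
      (fun v => (M.le v).trans ((Gas.kill_le (fun v => by
        unfold Top.bt; split_ifs; exacts [w.Y0, zero_le_one]) _ v).trans (w.b0 v)))
      h.nt h.ng h.sum h.k0.1 h.k0.2 h.c1 h.c2
  exact ⟨N, _, _, o.gin h.ok.o h.r0 fun M => ⟨_, _, rin M⟩, fun M => ⟨_, rin M⟩,
    fun l u => Or.imp_right fun k => ⟨k.1, k.2⟩⟩

lemma Pk4.loc (h : Pk4 W Gb P0 S' G Q P N Nl K y θ d) (l : ℕ) :
    (sys n T P0 z0).loc l = S'.loc l := by
  induction l with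
  | zero => exact (congrFun h.int.2.1 0).symm
  | succ l ih => rw [Sys.loc, Sys.loc, ih, h.int.2.1]; rfl

lemma Pk4.nt' (h : Pk4 W Gb P0 S' G Q P N Nl K y θ d) (hm : m < G.mt) :
    NT (sys n T P0 z0) P (m + 1) :=
  have e : (sys n T P0 z0).a1 = S'.a1 := h.int.1.symm
  have e' : (sys n T P0 z0).ρ = S'.ρ := h.int.2.1.symm
  ⟨fun _ _ => rfl, e ▸ h.nt.a1, h.nt.η, h.nt.cF, e ▸ h.nt.γ, h.nt.ε,
    fun k hk => e ▸ e' ▸ h.nt.rec' k (by omega),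
    fun k hk => ⟨(h.nt.sep k (by omega)).1,
      h.loc k ▸ (h.nt.sep k (by omega)).2.trans (h.int.2.2 k)⟩⟩

lemma Pk4.ni (h : Pk4 W Gb P0 S' G Q P N Nl K y θ d) (hm : m ≤ G.mt) : NI (sys n T P0 z0) Q m :=
  ⟨h.no.hN, h.no.Lam, fun l hl => On.loc_sys (n := n) (T := T) (z0 := z0) l ▸ h.no.sep l (by omega),
    fun l hl => h.no.Sx l (by omega),
    fun l hl => On.loc_sys (n := n) (T := T) (z0 := z0) l ▸ h.no.H l (by omega)⟩

/-- **F1** (with cover: `On.Tp`). -/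
theorem Pk4.f1 (h : Pk4 W Gb P0 S' G Q P N Nl K y θ d) (hm : m < G.mt)
    (top : nc = 0 ∨ On.Tp P0 G.mt Q N m nc R0 R1) (hε : P.ε m ≤ ε)
    (dom : ∀ Z, Sd Z → ∃ x0, ∀ z ∉ kil Z, tdist x0 z ≤ K.rD) :
    Ld.F1 (ins Gb.ex Gb.ey P0 z0) Gb Sd y d m nc R0 R1 ε :=
  Rs.f1 (h.nt' hm) (h.ni hm.le) (congrFun h.int.2.1 0).symm hm.le
    (top.elim (fun e => e ▸ Nat.zero_le _) (·.2.1))
    (fun e => have t := top.resolve_left e
      ⟨le_rfl, (Nat.mul_le_mul_left _ (Nat.add_le_add_right t.2.2.1 _)).trans (h.np.Rm m hm),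
        On.loc_sys (n := n) (T := T) (z0 := z0) m ▸ t.2.2.2⟩) hε fun s F U a =>
    h.has a (top.imp_left fun e => ⟨hm.le, card_eq_zero.1 (by have := a.card; omega)⟩)
      (dom _ a.sd) U

/-- **N1.** -/
theorem Pk4.n1 (h : Pk4 W Gb P0 S' G Q P N Nl K y θ d) (hm : m < G.mt)
    (hε : (2 * P0.ρ (m + 1) + 1 : ℕ) ^ 3 * P.ε m ≤ ε)
    (dom : ∀ Z, Sd Z → ∃ x0, ∀ z ∉ kil Z, tdist x0 z ≤ K.rD) :
    Ld.N1 (ins Gb.ex Gb.ey P0 z0) Gb Sd y d m ε :=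
  Rs.n1 (h.nt' hm) (h.ni hm) (congrFun h.int.2.1 0).symm hm.le hε fun _ a =>
    h.has (R1 := 0) a (.inl ⟨hm, rfl⟩) (dom _ a.sd) ∅

end Crest.Agent.N337.G4.Rs
end

-- ▼ part N337/Par/Fin4

/-!
# Row 337 (helper50): the claims `F1`, `N1` of G4 on the concrete objects
-/

set_option autoImplicit false
set_option linter.unusedSectionVars false

namespace Crest.Agent.N337.M.Ctx

open Crest.Agent.N337.Free Crest.Agent.N337.A Crest.Agent.N337.Top Crest.Agent.N337.Par G4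

variable {L n : ℕ} [NeZero L] [NeZero n] {u ms w : ℕ} {β : ℝ} {sy : List (Sl L n × Sl L n × ℝ)}
  (C : Ctx u ms β w sy) (z : Tor 3 L) {y : ℝ} {d m nc R : ℕ}
include C

/-- the rate of the coin family. -/
lemma exp_θ : Real.exp (56 * θw n w * ((w + 1 : ℕ) + 1 + Y u 2)) ≤ Y u 1 := by
  have hu := C.hu
  have h1 := C.wd.θ_win (c := 56) (k := Y u 2 + 1) (r := 0) (by norm_num)
    (le_trans (le_trans (by tier! 2) (C.le_L (k := 3) (by omega))) (Nat.le_self_pow two_ne_zero L))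
    (Nat.zero_le _)
  have hn : (1 : ℝ) ≤ 8 * n ^ 2 := by
    have : (1 : ℝ) ≤ n := by exact_mod_cast NeZero.one_le
    nlinarith
  have h2 : Rb u 0 1 (Real.exp (2 * (8 * n ^ 2))) := ⟨(Real.exp_pos _).le, le_trans
    (le_mul_of_one_le_left (Real.exp_pos _).le (one_le_mul_of_one_le_of_one_le (by norm_num)
      (one_le_pow₀ hn))) C.bg.Cg.2⟩
  have h3 := (h2.pow (j := 12)).up (k' := 1) (by norm_num) one_pos
  rw [← Real.exp_nat_mul] at h3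
  refine (Real.exp_le_exp.2 ?_).trans h3
  push_cast at h1 ⊢
  linarith

/-- **the word and the numbers of G4.** -/
theorem pk4 (h0 : 0 ≤ y) (h1 : y ≤ Yt u ms) (hd : d ≤ 176) :
    Rs.Pk4 C.W (GT β w sy) C.Q (I.sys n (TT β w sy) (Par.num C.bg (Dw w sy) 6) z)
      (eg u (Dw w sy) (ms + 3)) (gp5 u) (pz4 u) (np5 u (ms + 3) (L ^ 3 * n)) (ln4 u (ll u))
      (qn4 u (ms + 3) (lt u ms)) y (θw n w) d := by
  have hu := C.hu
  have h := C.bg
  have hE := h.E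
  have ht := h.tm
  have H := h4 (T := TT β w sy) (mt := ms + 3) h z (Dw w sy) 6 (by omega) (by omega) (by omega)
    (by omega) (C.le_L (by omega))
  have hl := hl4 (Dw := Dw w sy) h ⟨C.B1, C.B2⟩
  refine ⟨C.wr h0 h1, C.er (by omega), half (half_le_Yt hu ms), fun l hl => ?_,
    hl.ok C.wd.word C.wd.θ50 C.wd.blk rfl (Y_mono (by omega)),
    qn4_nu h (C.le_L (by omega)) (C.wd.fine
      ((C.le_L (by omega)).trans (Nat.le_self_pow two_ne_zero L))),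
    qn4_ok h rfl rfl (fun _ _ => rfl) (fun _ => rfl)
      (fun _ => ⟨Y_mono (by omega), Y_mono (by omega)⟩) (by omega) (Y_mono (by omega))
      (C.le_L (by omega)) h.Cg ⟨C.B1, C.B2⟩ C.exp_θ,
    np5_ok h _ _, no5 h _ C.B2 hd _, H.nt, H.ng, fun l _ => H.sum l,
    ⟨by show cE + 1 ≤ 6 * Y u 4; nlinarith [Y_mono (u := u) (Nat.zero_le 4), one_le_Y u 4], le_rfl⟩,
    hl.cC_le C.exp_θ, hl.cP_le, ⟨rfl, rfl, fun _ => Y_mono (by omega)⟩, le_rfl, le_rfl,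
    fun l _ => ⟨?_, le_rfl⟩⟩
  · have hl' : l < ms + 3 := hl
    exact (C.wd.rate _ (r := x u l 1 + 2) (le_trans (by tier! (48 * l + 12)) C.hL)).mono
      (fun s => (C.ok.1 s).1) le_rfl (Nat.cast_le.2 (Kw_le5 h C.B2 l))
  · show x u l 20 + 3 * ctm * x u l 20 ≤ x u (l + 1) 0
    tier! (48 * l + 31)

omit C in
lemma dom (Z : Finset (I.V L n (TT β w sy))) (h : (PP n u ms β z).Sd Z) :
    ∃ x0, ∀ x ∉ I.kil Z, tdist x0 x ≤ lt u ms := ⟨z, fun x hx => by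
  obtain ⟨s, hs⟩ := not_forall.1 fun k => hx (I.mem_kil.2 k)
  obtain ⟨c, hc⟩ := not_forall.1 hs
  exact cube_near (A.mem_cubeS.1 (h _ hc))⟩

/-- **F1** (field `Cel.f1`). -/
theorem f1 (hm : m ≤ ms + 2) (h0 : 0 ≤ y) (h1 : y ≤ Yt u ms) (hd : d ≤ 176) (hn : nc ≤ cN)
    (hR : R ≤ x u m 13) :
    Ld.F1 (C.I z) (GT β w sy) (PP n u ms β z).Sd y d m nc R (nx u m R) (Par.eps u m) :=
  (C.pk4 z h0 h1 hd).f1 (Nat.lt_succ_of_le hm) (.inr ⟨Nat.lt_succ_of_le hm, hn, hR, le_trans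
    (Nat.add_le_add_right (Nat.add_le_add_right (Nat.mul_le_mul_left _ (Nat.mul_le_mul_left _
      (Nat.add_le_add_right (le_max_left R _) _))) _) _) (margin C.bg _ (le_max_right R _) le_rfl)⟩)
    (s_anti (by omega)) (dom z)

/-- the same with the radii and covers of `C.Cel`. -/
theorem f1c (hm : m ≤ ms + 2) (h0 : 0 ≤ y) (h1 : y ≤ Yt u ms) (hd : d ≤ 176) (hR : R ≤ Rr u m 30) :
    Ld.F1 (C.I z) (GT β w sy) (PP n u ms β z).Sd y d m ((ctm + 1) * ca) R (nx u m R)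
      (Par.eps u m) :=
  C.f1 z hm h0 h1 hd (by unfold cN; omega)
    (hR.trans ((Rr_le C.bg (by norm_num)).trans (Sx_le C.bg m)))

/-- **N1** (field `Cen.n1`). -/
theorem n1 (hm : m ≤ ms + 2) (h0 : 0 ≤ y) (h1 : y ≤ Yt u ms) (hd : d ≤ 176) :
    Ld.N1 (C.I z) (GT β w sy) (PP n u ms β z).Sd y d m (sx u (m + 1) 0 ^ 1000) :=
  (C.pk4 z h0 h1 hd).n1 (Nat.lt_succ_of_le hm) (by
    have hu := C.hu
    show ((2 * x u (m + 1) 0 + 1 : ℕ) : ℝ) ^ 3 * s u (48 * m + 60) ≤ _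
    rtier! (48 * m + 59)) (dom z)

end Crest.Agent.N337.M.Ctx
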